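import Vale.Agent.P004C.Tp.St
import Vale.Agent.P004C.Mu.Adp
import Vale.Agent.P004C.Mu.Part
import Vale.Agent.P004F.Fd.Fld
import Vale.Agent.P004F.Qx.Dep
import Vale.Agent.P004S.Gal1

/-!
# P004 C, block TOP, row ADP: the tower in the words of the frame
-/

set_option linter.all false

noncomputable section

namespace Vale.Agent.P004C.Tp

open NumberField Matrix
open scoped NumberTheorySymbols
open Vale.Agent.P022 (Qb GQ GK)
open Vale.Agent.P022D.W (dec)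
open Vale.Agent.P022E.GW (Ov Fb)
open P004F (Crv Fld)
open P004S (nu Pl IrB rb)
open P004R.Cb (jac sz_neg)
open Mu

namespace Aq

variable {e : Crv}

theorem irb (h : P004T.Irr e.a) (pl : Pl) : IrB e.rp := fun v hv => by
  obtain ⟨p, ⟨hp, o⟩, n⟩ := h.exists_notMem_finset e.S.toFinset
  refine ⟨pl.σ p, fun k => hv ((Cv.d1 _ ?_).2.1 v k)⟩
  have ov := pl.ov p hp
  have t : (rb e.rp (pl.σ p)).trace = 1 := by
    rw [rb_eq, ← AddMonoidHom.map_trace, show (e.r (pl.σ p)).trace = e.a p from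
      (e.bad p hp (mt List.mem_toFinset.2 n)).2.2 _ ⟨_, ov.2.1, ov.2.2, pl.fb p hp⟩, map_intCast]
    exact (ZMod.intCast_eq_one_iff_odd).2 o
  have d := P004S.Wg.det_rb e.rep (pl.σ p)
  revert t d
  generalize rb e.rp (pl.σ p) = A
  revert A
  simp only [det_fin_two, trace_fin_two]
  decide +kernel

variable (b : Fld e)

theorem dec_le {l : ℕ} {P Q : Ideal (𝓞 Qb)} (o : Ov l P) (h : dec P ≤ b.Γ) (o' : Ov l Q) :
    dec Q ≤ b.Γ := fun g m => by
  obtain ⟨t, -, k⟩ := P004S.ex_conj o o'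
  simpa [mul_assoc] using b.Γ_conj (h (k g m)) t

theorem spl (pl : Pl) {c : ℕ} (sq : Squarefree c)
    (h : ∀ q : ℕ, q.Prime → q ∣ c → q ≠ 2 → J(-(b.δ' : ℤ) | q) = 1) : ∃ w w' : Ideal (𝓞 b.K),
      Wa.Sp c w w' := by
  obtain ⟨η, s, β, n, g, -, -, d, k⟩ := P004F.Fd.ex_ge b.iq b.adm.sq b.adm.m8 b.th b.im
    c.primeFactors pl.P (fun p m => pl.ov p (Nat.prime_of_mem_primeFactors m))
    (fun p m => h p (Nat.prime_of_mem_primeFactors m) (Nat.dvd_of_mem_primeFactors m)) 0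
  rw [Nat.prod_primeFactors_of_squarefree sq, zero_add, pow_one] at d
  have z := g.sp (M := c) (by
    rw [← Nat.prod_primeFactors_of_squarefree sq, Nat.cast_prod]
    exact IsCoprime.prod_right fun p m => ((Nat.prime_iff_prime_int.1
      (Nat.prime_of_mem_primeFactors m)).irreducible.coprime_iff_not_dvd.2 (k p m).2).symm) d
  refine ⟨_, _, Nat.pos_of_ne_zero sq.ne_zero, z.cop, z.mul, z.cn.2, fun x => ?_,
    P004F.Qx.De.cn_norm z.cn⟩
  obtain ⟨u, v, rfl⟩ := g.q.sp x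
  refine ⟨u - v * β, ?_⟩
  rw [show (u : 𝓞 b.K) + v * η - (u - v * β : ℤ) = -v * s η by
    push_cast; linear_combination v * g.tr]
  exact Ideal.mul_mem_left _ _ (P004F.Fd.m2 _ _)

theorem unit {k : ℕ} {x : ZMod (2 * 2 ^ k)} (h : (x.val : ZMod 2) = 1) : IsUnit x := by
  rw [← ZMod.natCast_zmod_val x, ZMod.isUnit_iff_coprime]
  have := Nat.coprime_two_right.2 (ZMod.natCast_eq_one_iff_odd.1 h)
  exact this.mul_right (this.pow_right _)

theorem m8 {c : ℕ} (h0 : c ≠ 0) (h : ∀ q : ℕ, q.Prime → q ∣ c → q % 8 = 1) : c % 8 = 1 := by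
  induction c using induction_on_primes with
  | zero => exact absurd rfl h0
  | one => rfl
  | prime_mul p a hp ih =>
    rw [Nat.mul_mod, h p hp (dvd_mul_right _ _),
      ih (right_ne_zero_of_mul h0) fun q k d => h q k (d.mul_left _)]

theorem lz {D : Dt} (ok : D.Ok) (hS : D.S = e.S.toFinset) (hd : D.d₁ * D.d₂ = b.δ') {n Q ε c χ}
    (tw : D.Tw b.j n Q ε c χ) : Lz b (n + 1) c χ := by
  have h := tw.ly
  have v : ∀ {x : ZMod (2 * 2 ^ (n + 1))} {a : ℕ}, x = a → x.val ≡ a [MOD 2 ^ (n + 1 + 1)] :=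
    fun k => by rw [k, ZMod.val_natCast, pow_succ' 2 (n + 1)]; exact Nat.mod_modEq _ _
  have out : ∀ q : ℕ, q.Prime → q ∣ c → q ∉ e.S ∧ ¬ q ∣ b.δ' := fun q hq d =>
    ⟨fun m => (tw.cy q hq d).2.1 (hS ▸ List.mem_toFinset.2 m), hd ▸ (tw.cy q hq d).2.2⟩
  refine ⟨⟨fun g m k n => v ?_, fun g m => by simp [h.ker g m]⟩, h.sq, ?_, out,
    spl b D.pl h.sq fun q hq d q2 => ?_, fun q P o d => ?_, fun p m P o => ?_⟩
  · rw [h.add g m k n, Nat.cast_add, ZMod.natCast_zmod_val, ZMod.natCast_zmod_val]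
  · obtain ⟨q, q', a, -, -, d⟩ := h.two
    exact a.one_lt.trans_le (Nat.le_of_dvd (Nat.pos_of_ne_zero h.sq.ne_zero)
      ((dvd_mul_right _ _).trans d))
  · rw [jac (D.pl.ov q hq) q2 (fun k => (out q hq d).2 (by exact_mod_cast dvd_neg.1 k))
      (D.pl.fb q hq), (b.kd.gk _).1 ((h.ram q _ (D.pl.ov q hq) d).2.1 (D.pl.σ_dec hq))]
    rfl
  · obtain ⟨-, a, t, i, k⟩ := h.ram q P o d
    exact ⟨t, a (P004S.inert_dec i), i, k⟩
  have le := dec_le b (e.ov p m) (b.le p m) o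
  refine ⟨le, fun g f => unit ((tw.par g (le (P022D.W.phi_mem o.1 o.2.1 f))).trans ?_)⟩
  by_cases p2 : p = 2
  · subst p2
    have c8 := m8 h.sq.ne_zero fun q hq d => by
      rw [← Nat.mod_mod_of_dvd q (show 8 ∣ 2 ^ (n + 3) from ⟨2 ^ n, by ring⟩), (tw.cy q hq d).1]
    have d8 : D.d₁ * c % 8 = 5 := by rw [Nat.mul_mod, ok.cg.m1, c8]
    exact (P004S.z2 _).resolve_left fun k => by
      have := (P004R.Mu.fb_two o (by omega) f).1 k
      omega
  · have m' : p ∈ D.S := hS ▸ List.mem_toFinset.2 m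
    have j : J((D.d₁ * c : ℕ) | p) = -1 := by
      rw [Nat.cast_mul, jacobiSym.mul_left, (ok.cg.jc p m' p2).1, tw.fr p m' p2, mul_one]
    rwa [jac o p2 (P004R.Mu.nd_of o.1 (.inl j)) f, sz_neg] at j

end Aq

open Aq in
/-- **row ADP** -/
theorem adp (hM : MU) : ADP := fun e hI T => by
  obtain ⟨pl⟩ := P004S.pl_ex
  obtain ⟨k, hk⟩ := P004R.Mu.ex_k
  refine ⟨_, part e.rp e.S.toFinset pl k T e.rep (irb hI pl)
    (fun p m => (e.ov p (List.mem_toFinset.1 m)).1) hk, ?_⟩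
  rintro _ ⟨a, d₁, d₂, rfl, ok⟩
  refine ⟨a.le, ⟨ok.cg.sq, by rw [Nat.mul_mod, ok.cg.m1, ok.cg.m2], fun p m n => by
    exact_mod_cast (ok.cg.jc p (List.mem_toFinset.2 m) n).2⟩, fun b hb => ?_⟩
  obtain ⟨m, B, H⟩ := Mu.adp hM e b _ ok rfl rfl hb.symm
  refine ⟨m, B, 5, fun n => ?_⟩
  obtain ⟨Q, ε, c, χ, t1, t2, t3⟩ := H n
  exact ⟨c, χ, lz b ok rfl hb.symm t1, fun _ => t2, fun J l => ⟨(t3 J l).1, (t3 J l).2.1⟩,
    fun _ => (t3 _ le_rfl).2.2⟩

end Vale.Agent.P004C.Tp
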