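import Vale.Agent.P004C.Tp.Ds3
import Vale.Agent.P004F.Ra.Lv

/-!
# P004 C, block TOP: row BCH
-/

set_option linter.all false

open NumberField Module IsDedekindDomain
open scoped Classical ComplexConjugate Pointwise

noncomputable section

namespace Vale.Agent.P004C.Tp

open Vale.Agent.P022 Vale.Agent.P022K Vale.Agent.P022.H916
open Vale.Agent.P027M.S (Inert)
open Vale.Agent.P027M.M (ze)
open Vale.Agent.P022E.GW (Ov Fb)
open P004K (RC1 RC2 Hc)
open P004F (Crv Fld)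
open Al Al.Fx Al.Rc Fm Dz Bc
open Ln (tS)

namespace Bw

theorem m7 : ∀ a b c : Fx.M2, c * a = 1 → a ^ 3 ≠ 1 → b ^ 3 = 1 → a * b * c * b = 1 := by
  decide +kernel

variable {K : Type} [Field K] [NumberField K] {j : K →+* Qb} {ρ : GQ → Fx.M2} {S : Finset ℕ}
  {e₃ : GQ → ZMod 3} {e : Crv} {b : Fld e} {k c l : ℕ} {χ : GQ → ZMod (2 * 2 ^ k)}
  {P : Ideal (𝓞 Qb)}

theorem cube {z : ℂ} (h : z ^ 3 = 1) : z ^ 2 = conj z := by
  have n : ‖z‖ = 1 := Complex.norm_eq_one_of_pow_eq_one h three_ne_zero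
  rw [← Complex.inv_eq_conj n]
  exact eq_inv_of_mul_eq_one_left (by rw [← pow_succ, h])

theorem sq_conj {θ : GQ → ℂ} {ψ} (G : Gc j θ 3) (h : Ic j θ ψ) (I : Ideal (𝓞 K)) :
    ψ I ^ 2 = conj (ψ I) := by
  by_cases z : I = ⊥
  · simp [z, h.bot]
  refine cm_ext (a := fun I => ψ I ^ 2) (b := fun I => conj (ψ I))
    ⟨by simp only [h.cm.one, one_pow], fun I J => by simp only [h.cm.mul, mul_pow]⟩
    ⟨by simp only [h.cm.one, map_one], fun I J => by simp only [h.cm.mul, map_mul]⟩ z fun w _ => ?_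
  obtain ⟨l, P, o, hb⟩ := ex_pl j w
  rw [← hb]
  by_cases u : Rm j θ P
  · simp [h.ram l P o u]
  · obtain ⟨g, m, f⟩ := ex_fb j o
    simp only [h.unr l P o u g m f]
    exact cube (G.pow g m)

theorem ker (L : Lz b k c χ) {g : GQ} (m : g ∈ Hc b.j c) : χ g = 0 := by
  have := L.ad.ker g m
  rwa [pow_succ', ← ZMod.natCast_eq_zero_iff, ZMod.natCast_zmod_val] at this

theorem lw (r1 : RC1) (r2 : RC2) (L : Lz b k c χ) : Lw b.j c k χ where
  odd := Nat.not_even_iff_odd.1 fun n => (L.out 2 Nat.prime_two n.two_dvd).1 e.two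
  one := L.one
  add g a t d := by
    have := L.ad.add g a t d
    rw [pow_succ', ← ZMod.natCast_eq_natCast_iff] at this
    simpa only [Nat.cast_add, ZMod.natCast_zmod_val] using this
  opn := ⟨_, (r1 _ _ b.iq c (zero_lt_one.trans L.one)).2.1, fun g _ m => ker L m⟩
  unr l P o d g m i := ker L (P004F.Ra.unr_hc r2 b.iq (zero_lt_one.trans L.one) o d m i)
  ram := L.ram

/-- a Dirichlet character exists only in the cyclic case -/
theorem cyc3 (h : Rh ρ S) (E : E3 ρ e₃) {f ψ} (D : Dc ρ e₃ S f ψ) (t : GQ) : ρ t ^ 3 = 1 := by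
  by_contra n
  obtain ⟨g, a, d⟩ := E.ex
  obtain ⟨l, φ, hl, o, ⟨P, hP, lP, fr⟩, k⟩ := Cheb.exists_fr (O := {φ | g⁻¹ * φ ∈ (hom h).ker})
    (g := g) ((ker_open h).preimage (continuous_const.mul continuous_id))
    (by show g⁻¹ * g ∈ (hom h).ker; rw [inv_mul_cancel]; exact one_mem _) S
  have r : ρ φ = ρ g := by
    rw [← mul_inv_cancel_left g φ, h.mul, show ρ (g⁻¹ * φ) = 1 from k, mul_one]
  have ov : Ov l P := ⟨hl, hP, lP⟩
  have ov' : Ov l (t • P) := ⟨hl, inferInstance, by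
    rw [GW.Pl.mem_smul, show t⁻¹ • (l : 𝓞 Qb) = l from
      map_natCast (MulSemiringAction.toRingHom _ _ t⁻¹) l]
    exact lP⟩
  have u : ∀ Q, Ov l Q → ∀ s, Inert Q s → ρ s = 1 := fun Q q s i =>
    h.unr s ⟨l, by simpa using o, Q, q, i⟩
  have e := (D.unr l _ (t * φ * t⁻¹) ov' (u _ ov') fun x => by
    rw [GW.Pl.mem_smul, smul_sub, ← mul_smul, show t⁻¹ * (t * φ * t⁻¹) = φ * t⁻¹ by group, mul_smul,
      smul_pow']
    exact fr _).symm.trans (D.unr l P φ ov (u P ov) fr)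
  have p : ρ φ ^ 3 = 1 := r ▸ d
  have z : ρ (t * φ * t⁻¹ * φ) = 1 := by
    rw [h.mul, h.mul, h.mul]; exact m7 _ _ _ (inv h t) n p
  have p' : ρ (t * φ * t⁻¹) ^ 3 = 1 := m2 _ _ (h.mul _ _ ▸ z) p
  have G : Mc (A3 h) (t3 e₃) := mc_cub fun g a t b => E.add g t a b
  have q : t3 e₃ (t * φ * t⁻¹ * φ) = 1 := (t3_one E (by rw [z, one_pow])).2 z
  have q' : t3 e₃ (φ * φ) = 1 := by rw [G.mul _ p _ p, ← q, G.mul _ p' _ p, e]
  rw [t3_one E ((A3 h).mul_mem p p), h.mul] at q'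
  exact (m3 _ p (r ▸ a)).1 q'

theorem ts_le {M : Type} [Field M] [NumberField M] [Algebra b.K M] {jM : M →+* Qb} (o : Ov l P)
    (m : l ∈ e.S) (n : l ≠ 2) : (tS b).map (algebraMap (𝓞 b.K) (𝓞 M)) ≤ below jM P := by
  obtain ⟨d, hd⟩ : l ∣ e.S.prod / 2 :=
    ((Nat.coprime_primes o.1 Nat.prime_two).2 n).dvd_of_dvd_mul_left (by
      rw [Nat.mul_div_cancel' (List.dvd_prod e.two)]; exact List.dvd_prod m)
  refine (Ideal.map_mono Ideal.mul_le_right).trans ?_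
  rw [Ideal.map_span, Set.image_singleton, map_natCast, Ideal.span_singleton_le_iff_mem, hd,
    Nat.cast_mul]
  exact Ideal.mul_mem_right _ _ ((H651.natCast_mem_below jM).2 o.2.2)

end Bw

open Bw

/-- **BCH** -/
theorem bch (r1 : RC1) (r2 : RC2) (hR : RHO) : BCH := fun e b e₃ E => by
  have h := (hR e).1
  refine ⟨fun M M₃ _ _ _ _ _ jM j₃ C => ?_, fun f ψ ψK D I' I u => ?_⟩
  · have G := gc3 (j := jM) h E fun g m => ((C.gM g).1 m).2
    refine ⟨G, fun ψ k => sq_conj G k, fun k c χ L => ?_, fun L _ _ _ jL f ψ ψM D c I' I u => ?_⟩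
    · have W := lw r1 r2 L
      have a := gc W
      obtain ⟨U, o, q⟩ := a.opn
      have le := Co.le C.cM
      refine ⟨⟨fun g p t q => a.mul g (le p) t (le q), by positivity,
        fun g p => by simpa only [pow_succ' 2 k] using a.pow g (le p), U, o, fun g p => q g (le p)⟩,
        fun χM ξ i => bch_xi r2 b.iq C.cM W (fun g => ker L) fun l P o d g m n => (C.gM g).2 ⟨m, ?_⟩⟩
      rw [h.unr g ⟨l, by simpa using (L.out l o.1 d).1, P, o, n⟩, one_pow]
    obtain ⟨ψ₀, I₀⟩ := (icx L jL _ 3 (gc3 (j := jL) h E fun g m => (D.gL g).1 m)).1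
    rw [bch_cub c (fun g p t q => E.add g t ((D.gL g).1 p) ((D.gL t).1 q)) (fun g m => (C.gM _).2
      ⟨sq_mem b.iq.two b.j g, (D.gL _).1 (mul_mem m m)⟩) I₀ I']
    have cm : Cm ψ := ⟨D.dh.rc.one, D.dh.rc.mul⟩
    by_cases z : I = ⊥
    · rw [z, Ideal.relNorm_bot, I₀.bot, (D.dh.rc.zero _).2 (.inl rfl)]
    refine cm_ext (M := M) (cm_rel I₀.cm) (cm_rel cm) z fun w le => ?_
    obtain ⟨l, P, o, hb⟩ := ex_pl jM w
    have hv : below jL P = (dw L w).asIdeal := by rw [below_dw c, hb, dw_eq]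
    show ψ₀ _ = ψ _
    rw [rel_pr, cm.pow, I₀.cm.pow, ← hv]
    refine congrArg (· ^ _) ?_
    by_cases r : Rm jL (t3 e₃) P
    · by_cases l2 : l = 2
      · subst l2
        rw [I₀.ram 2 P o r, D.ram P o r]
      · refine absurd (top_unique (u.ge.trans (sup_le le (hb ▸ ts_le o ?_ l2)))) w.isPrime.ne_top
        by_contra n
        exact not_rm h E jL o (by simpa using n) r
    · obtain ⟨g, m, f⟩ := ex_fb jL o
      rw [I₀.unr l P o r g m f, D.unr l P o r g m f]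
  have c3 := cyc3 h E D
  have G : Mc ⊤ (t3 e₃) := mc_cub fun g _ t _ => E.add g t (c3 g) (c3 t)
  by_cases z : I = ⊥
  · rw [z, I'.bot, eq_comm]
    refine (D.cr.zero _).2 fun k => D.one.ne' ?_
    simpa [isCoprime_zero_left, Int.isUnit_iff_natAbs_eq] using k
  refine cm_ext I'.cm (b := fun I => ψ (Ideal.absNorm I)) ⟨by
    simp only [map_one, Nat.cast_one, D.cr.one], fun I J => by
    simp only [map_mul, Nat.cast_mul, D.cr.mul]⟩ z fun w le => ?_
  obtain ⟨l, P, o, hb⟩ := ex_pl b.j w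
  have ur : ∀ t, Inert P t → rho e t = 1 := fun t i => by
    by_cases l2 : l = 2
    · exact D.two P (l2 ▸ o) t i
    refine h.unr t ⟨l, fun m => w.isPrime.ne_top (top_unique (u.ge.trans (sup_le le ?_))), P, o, i⟩
    exact hb ▸ (Ideal.le_comap_map.trans (Ideal.comap_mono (ts_le (b := b) (jM := b.j) o
      (by simpa using m) l2))).trans fun x k => k
  have ur' : ∀ t, Inert P t → t3 e₃ t = 1 := fun t i => (t3_one E (c3 t)).2 (ur t i)
  obtain ⟨k, -, hk⟩ := nm_below b.j o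
  obtain ⟨g, m, a⟩ := ex_fb b.j o
  obtain ⟨φ, hφ⟩ : ∃ φ, Fb l P φ := P022D.W.exists_phi o.1 o.2.1 o.2.2
  show _ = ψ _
  rw [← hb, I'.unr l P o (fun ⟨t, _, i, n⟩ => n (ur' t i)) g m a, hk, Nat.cast_pow, cr_pow D.cr,
    D.unr l P φ o ur hφ]
  exact G.fr o.2.1 (fun t _ => ur' t) o.1.ne_zero trivial trivial hφ (hk ▸ a)

end Vale.Agent.P004C.Tp
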