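import Vale.Agent.P004C.Tp.Dih

/-!
# P004 C, top: row DIC
-/

set_option linter.all false

open NumberField IsDedekindDomain Module
open scoped ComplexConjugate Classical

noncomputable section

namespace Vale.Agent.P004C.Tp

open Vale.Agent.P022 Vale.Agent.P022K
open Vale.Agent.P022E.GW (Ov)
open Vale.Agent.P004R.Gl (jQ mem_Q norm_Q below_pr)
open Al Al.Rc Dq
open Ln (HEX)

namespace Dr

theorem gen (I : Ideal (𝓞 ℚ)) (h : I ≠ ⊥) : Ideal.span {((Ideal.absNorm I : ℕ) : 𝓞 ℚ)} = I :=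
  P004R.Gl.eq_of_norm ((Ideal.span_singleton_le_iff_mem _).2 (Ideal.absNorm_mem I)) (by
    rw [Ideal.absNorm_span_natCast, RingOfIntegers.rank, finrank_self, pow_one]) h

theorem int (x : 𝓞 ℚ) : ∃ k : ℤ, x = k :=
  ⟨Rat.ringOfIntegersEquiv x, Rat.ringOfIntegersEquiv.injective (by simp)⟩

theorem dvd {a b : ℤ} : (a : 𝓞 ℚ) ∣ b ↔ a ∣ b := by
  simpa using (map_dvd_iff Rat.ringOfIntegersEquiv (a := (a : 𝓞 ℚ)) (b := (b : 𝓞 ℚ))).symm

theorem cop {a b : ℤ} : Ideal.span {(a : 𝓞 ℚ)} ⊔ Ideal.span {(b : 𝓞 ℚ)} = ⊤ ↔ IsCoprime a b := by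
  rw [← Ideal.isCoprime_iff_sup_eq, Ideal.isCoprime_span_singleton_iff]
  exact ⟨fun h => by simpa using h.map Rat.ringOfIntegersEquiv.toRingHom, fun h => h.intCast⟩

theorem bel {l : ℕ} {P : Ideal (𝓞 Qb)} (o : Ov l P) :
    Ideal.span {((l : ℤ) : 𝓞 ℚ)} = below jQ P := by
  rw [← gen (below jQ P) (bl jQ o).ne_bot, Int.cast_natCast]
  exact congrArg (fun n : ℕ => Ideal.span {(n : 𝓞 ℚ)}) (norm_Q o.2.1 o.1 o.2.2).symm

end Dr

open Dr

/-- **row DIC** -/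
theorem dic (hX : HEX) (hR : RAM) : DIC := by
  intro ρ S e₃ h E h3
  have hj : ∀ g, g ∈ GK jQ ↔ ρ g ^ 3 = 1 := fun g => iff_of_true (mem_Q g) (h3 g)
  have G := gc h E fun g => (hj g).1
  obtain ⟨F, ψ, r, p, cub, rm, u, q2, r2⟩ := Pq.prim hX hR (by simp) G
    (fun l P => rm_in h E hj) (sym h E hj)
  obtain ⟨f, rfl⟩ : ∃ f : ℕ, F = Ideal.span {((f : ℤ) : 𝓞 ℚ)} :=
    ⟨_, by rw [Int.cast_natCast, gen F r.ne]⟩
  have un : ∀ l P g, Ov l P → (∀ t, P027M.S.Inert P t → ρ t = 1) → P022E.GW.Fb l P g →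
      ψ (Ideal.span {((l : ℤ) : 𝓞 ℚ)}) = t3 e₃ g := fun l P g o a b => by
    rw [bel o, u l P o (fun k => let ⟨t, _, x, y⟩ := (rm_iff E hj).1 k; y (a t x)) g (mem_Q g)
      (by rw [norm_Q o.2.1 o.1 o.2.2]; exact b)]
  have le : ∀ {l P}, Ov l P → l ∣ f → Ideal.span {((f : ℤ) : 𝓞 ℚ)} ≤ below jQ P := fun o d =>
    (Ideal.span_singleton_le_iff_mem _).2 (by simpa using (nat_mem (j := jQ) o).2 d)
  have pr : ∀ k : ℤ, k ≠ 0 → (f : ℤ) ∣ k - 1 → ψ (Ideal.span {(k : 𝓞 ℚ)}) = 1 := fun k a b =>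
    r.prn k (Int.cast_ne_zero.2 a) (Ideal.mem_span_singleton.2 (by exact_mod_cast dvd.2 b))
  have f0 : f ≠ 0 := by
    rintro rfl
    exact r.ne (by simp)
  have f1 : 1 < f := by
    refine lt_of_le_of_ne (Nat.pos_of_ne_zero f0) ?_
    rintro rfl
    obtain ⟨g, a, -⟩ := E.ex
    obtain ⟨W, oW, kW⟩ := h.opn
    obtain ⟨l, φ, hl, n, ⟨P, x, y, fb⟩, m⟩ := Cheb.exists_fr (O := {φ | g⁻¹ * φ ∈ W}) (g := g)
      (oW.preimage (continuous_const.mul continuous_id)) (by simp) S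
    have := (un l P φ ⟨hl, x, y⟩ (fun t => unr h ⟨hl, x, y⟩ n) fb).symm.trans
      (pr l (Nat.cast_ne_zero.2 hl.ne_zero) (by simp))
    rw [t3_one E (h3 _), ← mul_inv_cancel_left g φ, h.mul, kW _ m, mul_one] at this
    exact a this
  have n0 : ∀ k : ℤ, (f : ℤ) ∣ k - 1 → k ≠ 0 := fun k d e => by
    rw [e, zero_sub, dvd_neg] at d
    have := Int.le_of_dvd one_pos d
    omega
  have od : ∀ P, Ov 2 P → ¬ Ideal.span {((f : ℤ) : 𝓞 ℚ)} ≤ below jQ P := fun P o k =>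
    (q2 (below jQ P) (bl jQ o).isMaximal (by simpa using (nat_mem (j := jQ) o).2 dvd_rfl) k).2
      (norm_Q o.2.1 o.1 o.2.2)
  have o2 : ¬ 2 ∣ f := fun d => let ⟨P, o⟩ := GW.Pl.ex_ov Nat.prime_two; od P o (le o d)
  have z : ∀ a : ℤ, ψ (Ideal.span {(a : 𝓞 ℚ)}) = 0 ↔ ¬ IsCoprime a f := fun a => by
    rw [r.zero, Ne, cop, or_iff_right_iff_imp, Ideal.span_singleton_eq_bot, Int.cast_eq_zero]
    rintro rfl k
    have := Int.isUnit_iff.1 (isCoprime_zero_left.1 k)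
    omega
  have mul : ∀ a b : ℤ, ψ (Ideal.span {((a * b : ℤ) : 𝓞 ℚ)}) =
      ψ (Ideal.span {(a : 𝓞 ℚ)}) * ψ (Ideal.span {(b : 𝓞 ℚ)}) := fun a b => by
    rw [Int.cast_mul, ← Ideal.span_singleton_mul_span_singleton, r.mul]
  refine ⟨f, fun d => ψ (Ideal.span {(d : 𝓞 ℚ)}), f1, Nat.not_even_iff_odd.1 fun k => o2 k.two_dvd,
    ⟨pr 1 one_ne_zero (by simp), mul, fun a b d => ?_, z⟩, fun q hq ⟨c, hc⟩ => ?_, fun d => cub _,
    fun l hl d => ?_, fun P o t i => by_contra fun n => ?_, un,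
    fun l hl n g ⟨P, x, y, fb⟩ t ht => ?_⟩
  · obtain ⟨c, hc⟩ := d
    obtain rfl : a = b + f * c := by linear_combination hc
    by_cases k : IsCoprime b f
    · obtain ⟨x, y, e⟩ := k
      have d1 : (f : ℤ) ∣ x * b - 1 := ⟨-y, by linear_combination e⟩
      have d2 : (f : ℤ) ∣ x * (b + f * c) - 1 := ⟨x * c - y, by linear_combination e⟩
      have e1 := pr _ (n0 _ d1) d1
      have e2 := pr _ (n0 _ d2) d2
      rw [mul] at e1 e2
      exact mul_left_cancel₀ (left_ne_zero_of_mul_eq_one e1) (e2.trans e1.symm)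
    · exact ((z _).2 fun m => k (IsCoprime.add_mul_left_left_iff.1 m)).trans ((z _).2 k).symm
  · obtain ⟨P, o⟩ := GW.Pl.ex_ov hq
    obtain ⟨x, a, b, -, d⟩ := p (Ideal.span {((q : ℤ) : 𝓞 ℚ)}) (Ideal.span {((c : ℤ) : 𝓞 ℚ)})
      (bel o ▸ (bl jQ o).isMaximal) (by
        rw [Ideal.span_singleton_mul_span_singleton, hc]; push_cast; rfl)
    obtain ⟨k, rfl⟩ := int x
    have a' : (c : ℤ) ∣ k - 1 := dvd.1 (by exact_mod_cast Ideal.mem_span_singleton.1 a)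
    refine ⟨k, by rwa [hc, Nat.mul_div_cancel_left _ hq.pos], (z k).not_left.2 ?_, d⟩
    rw [hc, Nat.cast_mul]
    refine IsCoprime.mul_right (((Nat.prime_iff_prime_int.1 hq).irreducible.coprime_iff_not_dvd.2
      fun m => b (Ideal.mem_span_singleton.2 (dvd.2 m))).symm) ?_
    obtain ⟨y, hy⟩ := a'
    exact ⟨1, -y, by linear_combination hy⟩
  · obtain ⟨P, o⟩ := GW.Pl.ex_ov hl
    exact rm_in h E hj o (rm l P o (le o d))
  · refine r2 P o ((rm_iff E hj).2 ⟨t, h3 t, i, n⟩) ?_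
    rw [show (2 : 𝓞 ℚ) = ((2 : ℕ) : ℤ) by simp, cop, Nat.isCoprime_iff_coprime]
    exact ((Nat.prime_two.coprime_iff_not_dvd).2 o2).symm
  · have c := G.pow g (mem_Q g)
    simp only [un l P g ⟨hl, x, y⟩ (fun t => unr h ⟨hl, x, y⟩ n) fb]
    refine par E (h3 g) c ?_ ht
    rw [Complex.mul_conj, Complex.normSq_eq_norm_sq,
      Complex.norm_eq_one_of_pow_eq_one c three_ne_zero]
    simp

end Vale.Agent.P004C.Tp
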