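import Vale.Agent.P004C.Tp.Prim

/-!
# P004 C, top: rows DIH and DIC
-/

set_option linter.all false

open NumberField IsDedekindDomain Module
open scoped ComplexConjugate Pointwise

noncomputable section

namespace Vale.Agent.P004C.Tp

open Vale.Agent.P022 Vale.Agent.P022K
open Vale.Agent.P027M.S (Pr Inert)
open Vale.Agent.P027M.M (ze)
open Vale.Agent.P022E.GW (Ov Fb)
open Vale.Agent.P004F (M2)
open Vale.Agent.P004R.Gl (jQ mem_Q norm_Q below_pr)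
open Al Al.Rc
open Wa (RC Pm co)
open Ln (HEX Dh At2 Cr Cp)

namespace Dq

theorem a1 : ∀ a b : M2 (ZMod 2), a ^ 3 = 1 → b ^ 3 = 1 → (a * b) ^ 3 = 1 := by decide +kernel

theorem a2 : ∀ a b : M2 (ZMod 2), a * b = 1 → b ^ 3 = 1 → a ^ 3 = 1 := by decide +kernel

theorem a3 : ∀ a b : M2 (ZMod 2), a * b = 1 → a ^ 6 = 1 := by decide +kernel

theorem a4 : ∀ a b : M2 (ZMod 2), a ^ 6 = 1 → b ^ 6 = 1 → a ^ 3 ≠ 1 → b ^ 3 ≠ 1 →
    (a * b) ^ 3 = 1 := by decide +kernel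

theorem a5 : ∀ a b : M2 (ZMod 2), a ^ 6 = 1 → a ^ 3 ≠ 1 → b ^ 3 = 1 → a * b * a * b = 1 := by
  decide +kernel

theorem a6 : ∀ a : M2 (ZMod 2), a ^ 6 = 1 → a ^ 3 ≠ 1 → a * a = 1 ∧ a.trace = 0 := by
  decide +kernel

theorem a7 : ∀ a : M2 (ZMod 2), a ^ 3 = 1 → (a = 1 → a.trace = 0) ∧ (a ≠ 1 → a.trace = 1) := by
  decide +kernel

open scoped Classical

variable {ρ : GQ → M2 (ZMod 2)} {S : Finset ℕ} {e₃ : GQ → ZMod 3} {g : GQ} {l : ℕ}
  {P : Ideal (𝓞 Qb)} {L : Type} [Field L] [NumberField L] {j : L →+* Qb}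

theorem inv (h : Rh ρ S) (g : GQ) : ρ g * ρ g⁻¹ = 1 := by rw [← h.mul, mul_inv_cancel, h.one]

theorem six (h : Rh ρ S) (g : GQ) : ρ g ^ 6 = 1 := a3 _ _ (inv h g)

theorem conj_one (h : Rh ρ S) (t : GQ) (k : ρ (g * t * g⁻¹) = 1) : ρ t = 1 := by
  rw [show t = g⁻¹ * (g * t * g⁻¹) * g by group, h.mul, h.mul, k, mul_one, ← h.mul,
    inv_mul_cancel, h.one]

/-- the elements of order dividing three -/
def A3 (h : Rh ρ S) : Subgroup GQ where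
  carrier := {g | ρ g ^ 3 = 1}
  mul_mem' {a b} p q := by
    show ρ _ ^ 3 = 1
    rw [h.mul]; exact a1 _ _ p q
  one_mem' := by
    show ρ _ ^ 3 = 1
    rw [h.one, one_pow]
  inv_mem' {a} p := a2 _ _ (by simpa using inv h a⁻¹) p

theorem two (h : Rh ρ S) {a b : GQ} (p : a ∉ A3 h) (q : b ∉ A3 h) : a * b ∈ A3 h := by
  show ρ _ ^ 3 = 1
  rw [h.mul]; exact a4 _ _ (six h a) (six h b) p q

theorem normal (h : Rh ρ S) : (A3 h).Normal := ⟨fun t m g => by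
  by_cases k : g ∈ A3 h
  · exact mul_mem (mul_mem k m) (inv_mem k)
  · exact two h (fun z => k (by simpa using mul_mem z (inv_mem m))) fun z => k (inv_mem_iff.1 z)⟩

theorem t3_one (E : E3 ρ e₃) (k : ρ g ^ 3 = 1) : t3 e₃ g = 1 ↔ ρ g = 1 :=
  (Bc.ze3 _).trans (E.ker g k)

theorem gc (h : Rh ρ S) (E : E3 ρ e₃) (hj : ∀ g ∈ GK j, ρ g ^ 3 = 1) : Gc j (t3 e₃) 3 := by
  have M := Bc.mc_cub (Γ := GK j) fun a p b q => E.add a b (hj a p) (hj b q)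
  refine ⟨M.mul, three_pos, fun a p => ?_, h.opn.imp fun W k => ⟨k.1, fun a p m =>
    (t3_one E (hj a p)).2 (k.2 a m)⟩⟩
  rw [t3, Bc.ze_nat, ← pow_mul, mul_comm, pow_mul,
    (P027M.M.ze_prim (N := 3) three_pos).pow_eq_one, one_pow]

theorem rm_iff (E : E3 ρ e₃) (hj : ∀ g, g ∈ GK j ↔ ρ g ^ 3 = 1) :
    Rm j (t3 e₃) P ↔ ∃ t, ρ t ^ 3 = 1 ∧ Inert P t ∧ ρ t ≠ 1 :=
  exists_congr fun t => by
    rw [hj]
    exact and_congr_right fun k => and_congr_right fun _ => (t3_one E k).not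

theorem unr (h : Rh ρ S) (o : Ov l P) (n : l ∉ S) (i : Inert P g) : ρ g = 1 :=
  h.unr g ⟨l, by simpa using n, P, o, i⟩

theorem rm_in (h : Rh ρ S) (E : E3 ρ e₃) (hj : ∀ g, g ∈ GK j ↔ ρ g ^ 3 = 1) (o : Ov l P)
    (r : Rm j (t3 e₃) P) : l ∈ S :=
  let ⟨_, _, b, c⟩ := (rm_iff E hj).1 r
  by_contra fun n => c (unr h o n b)

theorem sym (h : Rh ρ S) (E : E3 ρ e₃) (hj : ∀ g, g ∈ GK j ↔ ρ g ^ 3 = 1) (P P' : Ideal (𝓞 Qb))
    (o : Ov l P) (o' : Ov l P') (r : Rm j (t3 e₃) P) : Rm j (t3 e₃) P' := by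
  obtain ⟨t, a, b, c⟩ := (rm_iff E hj).1 r
  obtain ⟨g, rfl⟩ := GW.Pl.ov_trans o o'
  exact (rm_iff E hj).2 ⟨_, (normal h).conj_mem t a g, GW.Pl.inert_conj b g,
    fun z => c (conj_one h t z)⟩

theorem fb_conj (f : Fb l P g) (t : GQ) : Fb l (t • P) (t * g * t⁻¹) := fun x => by
  rw [GW.Pl.mem_smul, smul_sub, ← mul_smul, show t⁻¹ * (t * g * t⁻¹) = g * t⁻¹ by group, mul_smul,
    smul_pow']
  exact f _

theorem below_smul {t : GQ} (m : t ∈ GK j) : below j (t • P) = below j P := by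
  ext x
  rw [below, below, Ideal.mem_comap, Ideal.mem_comap, GW.Pl.mem_smul,
    show t⁻¹ • RingOfIntegers.mapRingHom j x = RingOfIntegers.mapRingHom j x from
      RingOfIntegers.ext (inv_mem m x)]

/-- the trace modulo two -/
theorem par (E : E3 ρ e₃) (k : ρ g ^ 3 = 1) {z : ℂ} (c : t3 e₃ g ^ 3 = 1) (e : t3 e₃ g * z = 1)
    {t : ℤ} (ht : (t : ZMod 2) = (ρ g).trace) : ∃ k : ℤ, t3 e₃ g + z = t + 2 * k := by
  by_cases u : ρ g = 1
  · obtain ⟨a, rfl⟩ := (ZMod.intCast_zmod_eq_zero_iff_dvd t 2).1 (ht.trans ((a7 _ k).1 u))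
    rw [(t3_one E k).2 u] at e ⊢
    exact ⟨1 - a, by push_cast; linear_combination e⟩
  · obtain ⟨a, ha⟩ := (ZMod.intCast_zmod_eq_zero_iff_dvd (t - 1) 2).1 (by
      rw [Int.cast_sub, ht, (a7 _ k).2 u, Int.cast_one, sub_self])
    have n := sub_ne_zero.2 ((t3_one E k).not.2 u)
    have q : (t : ℂ) - 1 = 2 * a := by exact_mod_cast ha
    generalize t3 e₃ g = y at c e n
    have s : y ^ 2 + y + 1 = 0 := mul_left_cancel₀ n (by linear_combination c)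
    exact ⟨-1 - a, by push_cast; linear_combination s + y ^ 2 * e - z * c - q⟩

/-- good primes -/
theorem good (h : Rh ρ S) (E : E3 ρ e₃) (hj : ∀ g, g ∈ GK j ↔ ρ g ^ 3 = 1) (h2 : finrank ℚ L = 2)
    {ψ : Ideal (𝓞 L) → ℂ} (c : Cm ψ) (u : ∀ l P, Ov l P → ¬ Rm j (t3 e₃) P → ∀ g ∈ GK j,
      (∀ x : 𝓞 Qb, g • x - x ^ Ideal.absNorm (below j P) ∈ P) → ψ (below j P) = t3 e₃ g)
    (o : Ov l P) (n : l ∉ S) (f : Fb l P g) : ¬ l ∣ (discr L).natAbs ∧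
      ψ (Ideal.span {(l : 𝓞 L)}) = 1 ∧
      ∀ t : ℤ, (t : ZMod 2) = (ρ g).trace → ∃ k : ℤ, co ψ l = t + 2 * k := by
  have G := gc h E fun g => (hj g).1
  have eA : GK j = A3 h := Subgroup.ext hj
  have d : ¬ l ∣ (discr L).natAbs := fun z => P004R.Gl.ndisc (eA ▸ normal h) o.2.1 o.1 o.2.2
    (fun t i => (hj t).2 (by rw [unr h o n i, one_pow])) (Int.natCast_dvd.2 z)
  have q : (below j P).IsMaximal := (bl j o).isMaximal
  have m : (l : 𝓞 L) ∈ below j P := (nat_mem o).2 dvd_rfl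
  have v : ∀ {P g}, Ov l P → Fb l P g → g ∈ GK j → ψ (below j P) = t3 e₃ g := fun o f k =>
    u l _ o (fun r => n (rm_in h E hj o r)) _ k (by rw [Sx.deg_one o.2.1 o.1 o.2.2 f k]; exact f)
  have sp : ∀ Q', Wa.Co.Spl l (below j P) Q' → ψ (Ideal.span {(l : 𝓞 L)}) = 1 ∧
      ∀ t : ℤ, (t : ZMod 2) = (ρ g).trace → ∃ k : ℤ, co ψ l = t + 2 * k := fun Q' s => by
    obtain ⟨g', a, b⟩ := Bc.ex_fb j o
    rw [s.n] at b
    have k : g ∈ GK j := by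
      have := (hj (g * g'⁻¹)).2 (by
        rw [unr h o n fun x => ?_, one_pow]
        obtain ⟨y, rfl⟩ : ∃ y : 𝓞 Qb, x = g' • y := ⟨g'⁻¹ • x, by rw [smul_inv_smul]⟩
        rw [mul_smul, inv_smul_smul]
        simpa using P.sub_mem (f y) (b y))
      simpa using mul_mem this a
    obtain ⟨l', P', o', e⟩ := ex_ab j (mx s.m')
    obtain rfl : l' = l := (Nat.prime_dvd_prime_iff_eq o'.1 o.1).1
      ((nat_mem (j := j) o').1 (e ▸ s.symm.mem))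
    obtain ⟨t, rfl⟩ := GW.Pl.ov_trans o o'
    have nt : t ∉ GK j := fun z => s.ne ((below_smul z).symm.trans e)
    have k' : t * g * t⁻¹ ∈ GK j := eA ▸ (normal h).conj_mem g (eA ▸ k) t
    have e1 : ψ Q' = t3 e₃ (t * g * t⁻¹) := (congrArg ψ e).symm.trans (v o' (fb_conj f t) k')
    have e2 : t3 e₃ g * ψ Q' = 1 := by
      have n3 := (hj t).not.1 nt
      rw [e1, mul_comm, ← G.mul _ k' _ k, t3_one E ((hj _).1 (mul_mem k' k)), h.mul, h.mul, h.mul,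
        show ρ t⁻¹ = ρ t by rw [← one_mul (ρ t⁻¹), ← (a6 _ (six h t) n3).1, mul_assoc, inv h,
          mul_one]]
      exact a5 _ _ (six h t) n3 ((hj g).1 k)
    refine ⟨by rw [s.mul, c.mul, v o f k, e2], fun x hx => ?_⟩
    rw [(Wa.Co.quad h2 c o.1 (Or.inl ⟨_, _, s, rfl, rfl⟩)).1, v o f k]
    exact par E ((hj g).1 k) (G.pow g k) e2 hx
  refine ⟨d, ?_⟩
  rcases Wa.Co.dec h2 o.1 with ⟨Q, Q', s⟩ | s | ⟨Q, s⟩
  · rcases s.two q m with e | e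
    · exact sp Q' (e ▸ s)
    · exact sp Q (e ▸ s.symm)
  · have e : below j P = _ := Wa.Co.ine_one s q m
    have k : g ∉ GK j := fun k => by
      have := Sx.deg_one o.2.1 o.1 o.2.2 f k
      rw [e, Wa.Co.nm_span h2] at this
      nlinarith [o.1.two_le]
    obtain ⟨a, b⟩ := a6 _ (six h g) ((hj g).not.1 k)
    have a' : ρ (g ^ 2) = 1 := by rw [pow_two, h.mul, a]
    have k2 : ρ (g ^ 2) ^ 3 = 1 := by rw [a', one_pow]
    refine ⟨?_, fun t ht => ?_⟩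
    · rw [← e, u l P o (fun r => n (rm_in h E hj o r)) _ ((hj _).2 k2) (by
        rw [e, Wa.Co.nm_span h2]
        exact P004R.Gl.frob_pow o.2.1 o.1.ne_zero f 2), (t3_one E k2).2 a']
    · obtain ⟨x, rfl⟩ := (ZMod.intCast_zmod_eq_zero_iff_dvd t 2).1 (ht.trans b)
      exact ⟨-x, by rw [(Wa.Co.quad h2 c o.1 (Or.inr (Or.inl ⟨s, rfl, rfl⟩))).1]; push_cast; ring⟩
  · exact absurd (s.dvd o.1) d

theorem ex_fb (hl : l.Prime) : ∃ P g, Ov l P ∧ Fb l P g := by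
  obtain ⟨P, o⟩ := GW.Pl.ex_ov hl
  obtain ⟨g, -, f⟩ := Bc.ex_fb jQ o
  exact ⟨P, g, o, norm_Q o.2.1 o.1 o.2.2 ▸ f⟩

theorem ex_dvd (j : L →+* Qb) {f : Ideal (𝓞 L)} (hl : l.Prime) (d : l ∣ Ideal.absNorm f) :
    ∃ P, Ov l P ∧ f ≤ below j P := by
  obtain ⟨Q, q, m, h⟩ := Wa.Co.ex_max hl d
  obtain ⟨l', P, o, e⟩ := ex_ab j (mx q)
  obtain rfl : l' = l := (Nat.prime_dvd_prime_iff_eq o.1 hl).1 ((nat_mem (j := j) o).1 (e ▸ m))
  exact ⟨P, o, e ▸ Ideal.dvd_iff_le.1 h⟩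

end Dq

open Dq

/-- **row DIH** -/
theorem dih (hX : HEX) (hR : RAM) : DIH := by
  intro ρ S e₃ h E ⟨σ, hσ⟩
  obtain ⟨W, oW, kW⟩ := h.opn
  obtain ⟨L, iF, iN, j, eA⟩ : ∃ (L : Type) (_ : Field L) (_ : NumberField L) (j : L →+* Qb),
      GK j = A3 h :=
    let ⟨L, a, b, _, _, j, _, _, e, _⟩ := H916.exists_fld jQ (A3 h)
      (Subgroup.isOpen_mono (H₁ := W) (fun g m => show ρ g ^ 3 = 1 by rw [kW g m, one_pow]) oW)
      (fun g _ => mem_Q g) fun g _ u m => (normal h).conj_mem u m g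
    ⟨L, a, b, j, e⟩
  refine ⟨L, iF, iN, j, ?_⟩
  have hj : ∀ g, g ∈ GK j ↔ ρ g ^ 3 = 1 := fun g => by rw [eA]; rfl
  have h2 : finrank ℚ L = 2 := by
    obtain ⟨_, r, D⟩ := P004R.Gl.ex_Q (jL := j) (eA ▸ normal h)
    have s2 : σ ^ 2 ∈ GK j := eA ▸ pow_two σ ▸ two h hσ hσ
    rw [← IsGalois.card_aut_eq_finrank]
    refine (P004R.Gl.card_eq D (mem_Q σ) (fun i => ?_) fun g _ => ?_).2
    · obtain ⟨k, rfl | rfl⟩ := Nat.even_or_odd' i
      · exact iff_of_true (pow_mul σ 2 k ▸ pow_mem s2 k) ⟨k, rfl⟩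
      · refine iff_of_false (fun z => hσ ((hj σ).1 ?_)) (by omega)
        rw [pow_succ, pow_mul] at z
        simpa using mul_mem (inv_mem (pow_mem s2 k)) z
    · by_cases k : g ∈ GK j
      · exact ⟨0, by simpa using k⟩
      · exact ⟨1, by rw [pow_one, eA]; exact two h (fun z => k (eA ▸ inv_mem_iff.1 z)) hσ⟩
  obtain ⟨f, ψ, r, p, cub, rm, u, q2, r2⟩ := Pq.prim hX hR h2.le (gc h E fun g => (hj g).1)
    (fun l P => rm_in h E hj) (sym h E hj)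
  have c : Cm ψ := ⟨r.one, r.mul⟩
  have at2 : f ⊔ Ideal.span {2} ≠ ⊤ → (Ideal.span {(2 : 𝓞 L)}).IsMaximal ∧ f ≤ Ideal.span {2} :=
    fun z => by
      obtain ⟨Q, q, le⟩ := Ideal.exists_le_maximal _ z
      have m : ((2 : ℕ) : 𝓞 L) ∈ Q := by
        simpa using (Ideal.span_singleton_le_iff_mem _).1 (le_sup_right.trans le)
      have n := (q2 Q q (by simpa using m) (le_sup_left.trans le)).2
      rcases Wa.Co.dec h2 Nat.prime_two with ⟨A, A', s⟩ | s | ⟨A, s⟩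
      · exact (n ((s.two q m).elim (· ▸ s.n) (· ▸ s.n'))).elim
      · have e := Wa.Co.ine_one s q m
        rw [Nat.cast_ofNat] at s e
        exact ⟨s, e ▸ le_sup_left.trans le⟩
      · exact (n (s.one q m ▸ s.n)).elim
  refine ⟨f, ψ, hj, ⟨h2, r, p, cub, fun n => or_iff_not_imp_left.2 fun z => ?_,
    or_iff_not_imp_left.2 fun z => ?_⟩, fun P o k => ?_, u, fun S' h' => ⟨fun l hl d => ?_,
    fun l hl n g ⟨P, a, b, f⟩ => (good h' E hj h2 c u ⟨hl, a, b⟩ n f).2.2⟩⟩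
  · rw [r.zero, not_or, not_not] at z
    have f0 : Ideal.absNorm f ≠ 0 := Ideal.absNorm_eq_zero_iff.not.2 r.ne
    have : NeZero (Ideal.absNorm f) := ⟨f0⟩
    have co : n.Coprime (Ideal.absNorm f) := Nat.Coprime.symm <|
      Nat.coprime_of_dvd fun l hl d d' => by
        obtain ⟨P, o, k⟩ := ex_dvd j hl d
        exact (below_pr j o.2.1).ne_top (top_unique (z.2 ▸ sup_le
          ((Ideal.span_singleton_le_iff_mem _).2 ((nat_mem o).2 d')) k))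
    obtain ⟨l, gt, hl, e⟩ := Nat.forall_exists_prime_gt_and_eq_mod
      (ZMod.unitOfCoprime n co)⁻¹.isUnit (S.sup id)
    obtain ⟨P, g, o, fb⟩ := ex_fb hl
    have k := (good h E hj h2 c u o (fun m => gt.not_ge (Finset.le_sup (f := id) m)) fb).2.1
    have n0 : (n : 𝓞 L) ≠ 0 := Ideal.span_singleton_eq_bot.not.1 z.1
    have d : ((Ideal.absNorm f : ℕ) : ℤ) ∣ n * l - 1 := by
      rw [← ZMod.intCast_zmod_eq_zero_iff_dvd]
      push_cast
      rw [e, ← ZMod.coe_unitOfCoprime n co, Units.mul_inv, sub_self]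
    have := r.prn (n * l) (mul_ne_zero n0 (Nat.cast_ne_zero.2 hl.ne_zero))
      (f.mem_of_dvd (by exact_mod_cast Int.cast_dvd_cast (α := 𝓞 L) _ _ d) (Ideal.absNorm_mem f))
    rwa [← Ideal.span_singleton_mul_span_singleton, r.mul, k, mul_one] at this
  · obtain ⟨a, b⟩ := at2 z
    obtain ⟨f', rfl⟩ := Ideal.dvd_iff_le.2 b
    refine ⟨a.isPrime, f', rfl, ?_⟩
    rw [sup_comm]
    exact a.out.2 _ (left_lt_sup.2 fun y => (q2 _ a (Ideal.mem_span_singleton_self _) b).1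
      (by rw [pow_two]; exact Ideal.mul_mono_right y))
  · obtain ⟨a, b⟩ := at2 (r2 P o k)
    refine (r.zero _).2 (Or.inr fun z => (below_pr j o.2.1).ne_top (top_unique (z ▸ sup_le le_rfl
      (b.trans ((Ideal.span_singleton_le_iff_mem _).2 ?_)))))
    simpa using (nat_mem (j := j) o).2 dvd_rfl
  · by_contra n
    rcases hl.dvd_mul.1 d with d | d
    · obtain ⟨P, g, o, fb⟩ := ex_fb hl
      exact (good h' E hj h2 c u o n fb).1 d
    · obtain ⟨P, o, k⟩ := ex_dvd j hl d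
      exact n (rm_in h' E hj o (rm l P o k))

end Vale.Agent.P004C.Tp
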