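import Vale.Agent.P004C.Tp.Flm
import Vale.Agent.P004C.Al.Dis0
import Vale.Agent.P004C.Al.Umf
import Vale.Agent.P004C.Al.Icx

/-!
# P004 C, block TOP: the discriminant in the cubic step
-/

set_option linter.all false

open NumberField Module IsDedekindDomain
open scoped Classical

noncomputable section

namespace Vale.Agent.P004C.Tp

open Vale.Agent.P022 Vale.Agent.P022K Vale.Agent.P022.H916
open Vale.Agent.P027M.S (Inert)
open Vale.Agent.P022E.GW (Ov Fb)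
open Al Al.Fx Al.Rc Al.Gx Al.Ds Fm
open Ln (DVL)

namespace Dz

variable {K M M₃ L : Type} [Field K] [NumberField K] [Field M] [NumberField M] [Field M₃]
  [NumberField M₃] [Field L] [NumberField L] {j : K →+* Qb} {jM : M →+* Qb} {j₃ : M₃ →+* Qb}
  {jL : L →+* Qb} {ρ : GQ → Fx.M2} {S : Finset ℕ} {e₃ : GQ → ZMod 3} {ι : ℂ →+* ℂ_[2]}
  {J : K →+* ℂ} {Ω : ℝ} {P : Ideal (𝓞 Qb)}

theorem half (B : Base ι J Ω) {x : 𝓞 K} (h : x ∈ vv ι J) : ‖ι (J x)‖ ≤ 1 / 2 := by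
  obtain ⟨r, e⟩ := kv K ι J Ω B
  have k := mem_vv.1 h
  rw [e, norm_algebraMap'] at k ⊢
  have := (Padic.norm_le_pow_iff_norm_lt_pow_add_one (r x) (-1)).2 (by simpa using k)
  simpa using this

theorem pow_le (B : Base ι J Ω) (n : ℕ) {x : 𝓞 K} (h : x ∈ vv ι J ^ n) :
    ‖ι (J x)‖ ≤ (1 / 2) ^ n := by
  induction n generalizing x with
  | zero => simpa using nm_le x
  | succ n ih =>
    rw [pow_succ] at h
    refine Submodule.mul_induction_on h (fun a p b q => ?_) fun a b p q => ?_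
    · simp only [map_mul, norm_mul, pow_succ]
      exact mul_le_mul (ih p) (half B q) (norm_nonneg _) (by positivity)
    · simp only [map_add]
      exact (IsUltrametricDist.norm_add_le_max _ _).trans (max_le p q)

theorem od (I : Ideal (𝓞 L)) (h : I ⊔ Ideal.span {2} = ⊤) : ‖(Ideal.absNorm I : ℂ_[2])‖ = 1 := by
  obtain ⟨k, e⟩ : Odd (Ideal.absNorm I) := Nat.not_even_iff_odd.1 fun n => by
    obtain ⟨P, hP, e, d⟩ := Ideal.exists_isMaximal_dvd_of_dvd_absNorm' Nat.prime_two I n.two_dvd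
    refine hP.ne_top (top_unique (h.ge.trans (sup_le (Ideal.dvd_iff_le.1 d) ?_)))
    have : ((2 : ℕ) : ℤ) ∈ P.under ℤ := e ▸ Ideal.mem_span_singleton_self _
    rw [Ideal.span_singleton_le_iff_mem]
    simpa using Ideal.mem_comap.1 this
  have h : ‖(2 : ℂ_[2]) * k‖ < 1 := by
    rw [norm_mul, nm_two]
    have := IsUltrametricDist.norm_natCast_le_one ℂ_[2] k
    linarith
  rw [e]
  push_cast
  rw [IsUltrametricDist.norm_add_eq_max_of_norm_ne_norm (by rw [norm_one]; exact h.ne), norm_one,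
    max_eq_right h.le]

theorem gc3 (h : Rh ρ S) (E : E3 ρ e₃) (k : ∀ g ∈ GK j, ρ g ^ 3 = 1) : Gc j (t3 e₃) 3 := by
  have G : Bc.Mc (GK j) (t3 e₃) := Bc.mc_cub fun g a t b => E.add g t (k g a) (k t b)
  refine ⟨G.mul, three_pos, fun g _ => ?_, _, ker_open h, fun g a b => (t3_one E (k g a)).2 b⟩
  rw [t3, Bc.ze_nat, pow_right_comm, (P027M.M.ze_prim three_pos).pow_eq_one, one_pow]

variable [Algebra K M]

theorem av (c : Co j jM) (a : Ab ι J j P) : Av ι J (below jM P) :=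
  ⟨(P004R.Gl.below_pr jM a.1.2.1).isMaximal (P004R.Gl.below_ne jM two_ne_zero a.1.2.2),
    fun ⟨s, p, q⟩ => ((a.2 s).1 (by rw [below_dw c]; exact q)).ne p⟩

theorem int_nm (x : 𝓞 M) :
    Algebra.norm K (x : M) = (Algebra.intNorm (𝓞 K) (𝓞 M) x : 𝓞 K) :=
  (Algebra.algebraMap_intNorm (A := 𝓞 K) (K := K) (L := M) (B := 𝓞 M) x).symm

variable [Algebra M M₃]

theorem dif (h : Rh ρ S) (E : E3 ρ e₃) (C : Cb j ρ jM j₃ e₃) {l : ℕ} (o : Ov l P)
    (r : Rm jM (t3 e₃) P) : differentIdeal (𝓞 M) (𝓞 M₃) ≤ below j₃ P ^ 2 := by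
  have G := gc3 (j := jM) h E fun g m => ((C.gM g).1 m).2
  obtain ⟨t, m, i, n⟩ := r
  obtain ⟨⟨p, q⟩, e⟩ := ram_deg (θ := G.hom) (v := bl jM o) C.c3 (fun g => by
    rw [G.eq_one, t3_one E ((C.gM _).1 g.2).2, ker3 C, and_iff_right g.2]) o.2.1 rfl fun g => by
      obtain ⟨a, k⟩ := m5 _ _ ((C.gM _).1 (inv_mem g.2)).2 ((C.gM t).1 m).2
        (mt (t3_one E ((C.gM t).1 m).2).2 n)
      refine ⟨⟨t ^ a, pow_mem m a⟩, (H443.inP P).pow_mem i a, ?_⟩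
      rw [eq_comm, ← inv_mul_eq_one, ← map_inv, ← map_mul, G.eq_one]
      have z : ρ (g.1⁻¹ * t ^ a) = 1 := by rw [h.mul, pw h, k]
      exact (t3_one E (by
        show ρ (g.1⁻¹ * t ^ a) ^ 3 = 1
        rw [z, one_pow])).2 z
  have := (bl jM o).isMaximal
  have n0 : (bl jM o).asIdeal.map (algebraMap (𝓞 M) (𝓞 M₃)) ≠ ⊥ :=
    (Ideal.map_eq_bot_iff_of_injective (FaithfulSMul.algebraMap_injective _ _)).not.2 (bl jM o).ne_bot
  rw [rk3 h C, Ideal.IsDedekindDomain.ramificationIdx_eq_multiplicity (bl jM o).asIdeal _ n0] at e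
  exact Ideal.dvd_iff_le.1 (pow_sub_one_dvd_differentIdeal (𝓞 M) (below j₃ P) 3 (bl jM o).ne_bot
    (e ▸ pow_multiplicity_dvd _ _))

end Dz

open Dz

/-- **DS3** -/
theorem ds3 (hD : DVL) : DS3 := fun K _ _ ι J Ω B => by
  refine ⟨fun M _ _ _ n b hb => ?_, ?_⟩
  · obtain ⟨g, -, k⟩ := dg_ex (ι := ι) (J := J) (M := K) (N := M)
    rw [dv_eq hb k]
    exact ⟨by simpa using k.1, by rw [int_nm]; exact nm_le _⟩
  intro M M₃ L _ _ _ _ _ _ _ _ _ _ _ j jM j₃ jL ρ S e₃ f ψ ⟨P, a⟩ h E C D c r2 _ ri b b₃ hb hb₃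
  obtain ⟨⟨b', hb', d⟩, hv⟩ := (hD K ι J Ω B).2 L D.dh.two M r2 ri
  obtain ⟨g', -, k'⟩ := dg_ex (ι := ι) (J := J) (M := K) (N := M)
  obtain ⟨g, ⟨m, -⟩, k⟩ := dg_ex (ι := ι) (J := J) (M := M) (N := M₃)
  rw [dv_eq hb' k', ← dv_eq hb k'] at d
  have e : ‖((discr L).natAbs : ℂ_[2])‖ = dv ι J b := by
    rw [d, ← Int.cast_natCast, Int.natCast_natAbs]
    rcases abs_choice (discr L) with z | z <;> simp [z]
  have d0 : 0 ≤ dv ι J b := norm_nonneg _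
  suffices s : ‖ι (J (Algebra.norm K (g : M₃)))‖ ≤ ‖(Ideal.absNorm f : ℂ_[2])‖ ^ 2 by
    rw [dv_tower hb hb₃ k, rk3 h C, Nat.cast_mul, norm_mul, e, mul_pow, ← mul_assoc, ← pow_succ',
      mul_comm]
    exact mul_le_mul_of_nonneg_left s (pow_nonneg d0 _)
  rcases D.dh.at2 with u | ⟨p, f', rfl, u⟩
  · rw [od f u, one_pow, int_nm]
    exact nm_le _
  have a2 : (2 : 𝓞 L) ∈ below jL P := by
    exact_mod_cast (H651.natCast_mem_below jL).2 a.1.2.2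
  have bL : below jL P = Ideal.span {2} := ((p.isMaximal (by simp)).eq_of_le
    (P004R.Gl.below_pr jL a.1.2.1).ne_top ((Ideal.span_singleton_le_iff_mem _).2 a2)).symm
  have rm : Rm jL (t3 e₃) P := by
    by_contra n
    obtain ⟨φ, mφ, fr⟩ := Bc.ex_fb jL a.1
    refine (Bc.Mc.of (gc3 h E fun g m => (D.gL g).1 m)).ne φ mφ ?_
    rw [← D.unr 2 P a.1 n φ mφ fr, bL]
    exact (D.dh.rc.zero _).2 (.inr (by rw [sup_eq_left.2 Ideal.mul_le_left]; exact p.ne_top))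
  obtain ⟨t, mt, i, n⟩ := rm
  have df := dif h E C a.1 (Bc.rm_cub (Γ := GK jL) (fun g p t q => E.add g t ((D.gL g).1 p)
    ((D.gL t).1 q)) mt ((C.gM _).2 ⟨sq_mem B.two j t, (D.gL _).1 (mul_mem mt mt)⟩) i n)
  have vK : below j P = vv ι J := Ideal.ext a.2
  have q := ((hv p).2 _ (av (jM := j) (fun _ => rfl) a)).1 _ |>.1 (av C.cM a)
  have m1 : Algebra.intNorm (𝓞 M) (𝓞 M₃) g ∈ ((vv ι J ^ 2).map (algebraMap (𝓞 K) (𝓞 M))) := by
    have := Ideal.intNorm_mem_spanNorm (𝓞 M) (df m)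
    rw [Ideal.spanNorm_eq, map_pow] at this
    rw [Ideal.map_pow, ← vK, ← q, below_dw C.c3]
    exact Ideal.pow_right_mono (Ideal.relNorm_le_comap _ _) 2 this
  have m2 := Ideal.intNorm_mem_spanNorm (𝓞 K) m1
  rw [Ideal.spanNorm_eq, Ideal.relNorm_algebraMap, ← pow_mul,
    show finrank (𝓞 K) (𝓞 M) = 2 from (IsFractionRing.finrank_eq (𝓞 K) K (𝓞 M) M).symm.trans r2] at m2
  have n2 : Ideal.absNorm (Ideal.span {(2 : 𝓞 L)}) = 2 ^ 2 := by
    simpa [RingOfIntegers.rank, D.dh.two] using Ideal.absNorm_span_natCast (S := 𝓞 L) 2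
  rw [← Algebra.norm_norm (S := M), int_nm, int_nm, map_mul, Nat.cast_mul, norm_mul, od f' u, n2]
  refine (pow_le B _ m2).trans_eq ?_
  rw [Nat.cast_pow, norm_pow, Nat.cast_ofNat, nm_two]
  norm_num

end Vale.Agent.P004C.Tp
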