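import Vale.Agent.P004C.Defs
import Vale.Agent.P027M.M.Defs

/-! # P004 C, top: inequalities -/

set_option autoImplicit false

open Filter Topology

noncomputable section

namespace Vale.Agent.P004C.Tp.Iq

open Vale.Agent.P027M.M (ze)

/-- the size of `ζ - 1` -/
theorem vz {V : AbsoluteValue ℂ ℝ} (n : IsNonarchimedean V) (h2 : V 2 = 1 / 2) (k : ℕ) :
    ∀ u : ℂ, u ^ 2 ^ k = -1 → V (u - 1) ^ 2 ^ k = 1 / 2 := by
  induction k with
  | zero =>
    intro u h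
    rw [pow_zero, pow_one] at h ⊢
    rw [h, ← V.map_neg, ← h2]
    norm_num
  | succ k ih =>
    intro u h
    have a := ih (u ^ 2) (by rw [← pow_mul, ← pow_succ', h])
    rw [show u ^ 2 - 1 = (u - 1) * (u + 1) by ring, map_mul] at a
    have b := n (u - 1) 2
    have c := n (u + 1) (-2)
    rw [show u - 1 + 2 = u + 1 by ring, h2] at b
    rw [show u + 1 + -2 = u - 1 by ring, V.map_neg, h2] at c
    have p := V.nonneg (u - 1)
    have q := V.nonneg (u + 1)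
    have e : V (u + 1) = V (u - 1) := by_contra fun e => by
      have : V (u - 1) * V (u + 1) ≤ 1 / 4 := by
        rcases le_max_iff.1 b with b | b <;> rcases le_max_iff.1 c with c | c
        · exact absurd (le_antisymm b c) e
        all_goals nlinarith
      have d := pow_le_of_le_one (mul_nonneg p q) (this.trans (by norm_num)) (n := 2 ^ k)
        (by positivity)
      linarith
    rw [pow_succ', pow_mul, sq, ← a, e]

theorem ze_odd (k i : ℕ) : ze (2 * 2 ^ k) (2 * i + 1 : ℕ) ^ 2 ^ k = -1 := by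
  rw [ze, ← Complex.exp_nat_mul, ← Complex.exp_pi_mul_I, Complex.exp_eq_exp_iff_exists_int]
  refine ⟨i, ?_⟩
  push_cast
  field_simp
  ring

/-- one of the factors is large -/
theorem pick {k a : ℕ} {x : ℕ → ℝ} {v : ℝ} (h : v ^ 2 ^ k = 1 / 2) (hx : ∀ i, 0 ≤ x i)
    (l : 1 < 2 ^ a * ∏ i ∈ Finset.range (2 ^ k), x i) : ∃ i < 2 ^ k, v ^ a < x i := by
  by_contra! c
  have := Finset.prod_le_prod (s := Finset.range (2 ^ k)) (fun i _ => hx i)
    fun i hi => c i (Finset.mem_range.1 hi)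
  rw [Finset.prod_const, Finset.card_range, ← pow_mul, mul_comm, pow_mul, h] at this
  have := l.trans_le (mul_le_mul_of_nonneg_left this (by positivity))
  rw [← mul_pow] at this
  norm_num at this

/-- `2 ^ (-1 / 2 ^ k)` tends to one -/
theorem big {δ : ℝ} (h : δ < 1) (a : ℕ) :
    ∀ᶠ k in atTop, ∀ v : ℝ, 0 ≤ v → v ^ 2 ^ k = 1 / 2 → δ < v ^ a := by
  obtain h0 | h0 := lt_or_ge δ 0
  · exact .of_forall fun k v hv _ => h0.trans_le (by positivity)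
  filter_upwards [((tendsto_pow_atTop_nhds_zero_of_lt_one h0 h).comp
    (tendsto_pow_atTop_atTop_of_one_lt one_lt_two)).eventually_lt_const
    (show (0 : ℝ) < (1 / 2) ^ a by positivity)] with k hk v hv e
  refine lt_of_pow_lt_pow_left₀ (2 ^ k) (by positivity) ?_
  rwa [← pow_mul, mul_comm, pow_mul, e]

theorem sc_eq (Ω : ℝ) {d : ℝ} (hd : 0 < d) (n k : ℕ) :
    sc Ω d n k = (‖((k - 1).factorial : ℂ_[2])‖ / Ω ^ k) ^ n * √d ^ (2 * (k : ℤ) - 1) := by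
  have := (Real.sqrt_pos.2 hd).ne'
  rw [sc, zpow_sub₀ this, zpow_one, zpow_mul, zpow_natCast, zpow_ofNat, Real.sq_sqrt hd.le]

/-- the scale of the composite field -/
theorem sc_le {Ω d₁ d d₃ : ℝ} (hΩ : 0 < Ω) (h1 : 0 < d₁) (h : 0 < d) (h3 : 0 < d₃)
    (le : d₃ ≤ d₁ * d ^ 2) (n : ℕ) {k : ℕ} (hk : 0 < k) :
    sc Ω d₃ (3 * n) k ≤ sc Ω d₁ n k * sc Ω d n k ^ 2 := by
  have a : √d₃ ≤ √d₁ * √d ^ 2 := by
    rw [Real.sq_sqrt h.le, ← Real.sqrt_sq h.le, ← Real.sqrt_mul h1.le]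
    exact Real.sqrt_le_sqrt le
  have b := zpow_le_zpow_left₀ (n := 2 * (k : ℤ) - 1) (by omega) (Real.sqrt_nonneg _) a
  rw [sc_eq Ω h1, sc_eq Ω h, sc_eq Ω h3]
  refine (mul_le_mul_of_nonneg_left b (by positivity)).trans_eq ?_
  rw [sq, mul_zpow, mul_zpow]
  ring

theorem sc_pos {Ω d : ℝ} (hΩ : 0 < Ω) (hd : 0 < d) (n k : ℕ) : 0 < sc Ω d n k := by
  have : 0 < ‖((k - 1).factorial : ℂ_[2])‖ :=
    norm_pos_iff.2 (Nat.cast_ne_zero.2 (Nat.factorial_ne_zero _))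
  rw [sc]
  positivity

/-- from the export of the class number formula to one pair of factors -/
theorem pick2 {k a : ℕ} {y y' : ℕ → ℝ} {v s₁ s s₃ : ℝ} (h : v ^ 2 ^ k = 1 / 2) (h1 : 0 < s₁)
    (hs : 0 ≤ s) (h3 : 0 ≤ s₃) (le : s₃ ≤ s₁ * s ^ 2) (hy : ∀ i, 0 ≤ y i) (hy' : ∀ i, 0 ≤ y' i)
    (l : s₁ ^ 2 ^ k < 2 ^ a * s₃ ^ 2 ^ k * ∏ i ∈ Finset.range (2 ^ k), y i * y' i) :
    ∃ i < 2 ^ k, v ^ a < s * y i * (s * y' i) := by
  have p := Finset.prod_nonneg (s := Finset.range (2 ^ k)) fun i _ => mul_nonneg (hy i) (hy' i)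
  refine pick h (fun i => mul_nonneg (mul_nonneg hs (hy i)) (mul_nonneg hs (hy' i)))
    (lt_of_mul_lt_mul_left ?_ (pow_pos h1 (2 ^ k)).le)
  simp only [mul_mul_mul_comm s (y _), Finset.prod_mul_distrib (f := fun _ => s * s),
    Finset.prod_const, Finset.card_range]
  refine (mul_one _).trans_lt (l.trans_le ((mul_le_mul_of_nonneg_right (mul_le_mul_of_nonneg_left
    (pow_le_pow_left₀ h3 le _) (by positivity)) p).trans_eq ?_))
  rw [mul_pow, sq]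
  ring

theorem one_of {t x y : ℝ} (h : t < x * y) : t < x ^ 2 ∨ t < y ^ 2 := by
  by_contra! c
  nlinarith [sq_nonneg (x - y)]

/-- the two inequalities for `ρ` -/
theorem rho {v ρ : ℝ} {a b : ℕ} (h0 : 0 ≤ v) (h1 : v ≤ 1) (hρ : 0 ≤ ρ) (h : v ^ a < ρ ^ 2)
    (le : a ≤ 2 * b) : v ^ b < ρ :=
  lt_of_pow_lt_pow_left₀ 2 hρ ((pow_mul v b 2).ge.trans_lt
    ((pow_le_pow_of_le_one h0 h1 (by omega)).trans_lt h))

theorem v_le {v : ℝ} {k : ℕ} (h : v ^ 2 ^ k = 1 / 2) : v ≤ 1 := by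
  by_contra! c
  have := one_le_pow₀ (n := 2 ^ k) c.le
  linarith

theorem v_eq {v w : ℝ} {k : ℕ} (h0 : 0 ≤ v) (h1 : 0 ≤ w) (h : v ^ 2 ^ k = 1 / 2)
    (h' : w ^ 2 ^ k = 1 / 2) : v = w :=
  (pow_left_inj₀ h0 h1 (by positivity)).1 (h.trans h'.symm)

end Vale.Agent.P004C.Tp.Iq
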