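import Vale.Agent.P004C.Tp.St
import Vale.Agent.P004C.Tp.Ine
import Vale.Agent.P022.H916.Fld

/-!
# P004 C, top: the Euler factors at the odd primes of `S`
-/

set_option linter.all false

open NumberField Module
open scoped Classical

noncomputable section

namespace Vale.Agent.P004C.Tp

open Vale.Agent.P022 (Qb GQ GK below)
open Vale.Agent.P027M.M (ze)
open Vale.Agent.P022E.GW (Ov Fb)
open Vale.Agent.P004K (RC2 Cop Ar)
open P004F (Crv Fld)
open Ln (Jc Pl V2 Xi IOT LVX)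

namespace Eu

variable {V : AbsoluteValue ℂ ℝ}

theorem add_eq (n : IsNonarchimedean V) {x y : ℂ} (h : V y < V x) : V (x + y) = V x := by
  refine le_antisymm ((n x y).trans (max_le le_rfl h.le)) ?_
  have := n (x + y) (-y)
  rw [add_neg_cancel_right, V.map_neg] at this
  exact (le_max_iff.1 this).resolve_right h.not_ge

theorem rt {u : ℂ} {m : ℕ} (m0 : m ≠ 0) (h : u ^ m = 1) : V u = 1 :=
  (pow_eq_one_iff_of_nonneg (V.nonneg u) m0).1 (by rw [← map_pow, h, map_one])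

theorem pw (n : IsNonarchimedean V) {u : ℂ} {r : ℝ} (h1 : V u = 1) (h : V (u - 1) ≤ r) (m : ℕ) :
    V (u ^ m - 1) ≤ r := by
  induction m with
  | zero => simpa using (V.nonneg _).trans h
  | succ m ih =>
    rw [show u ^ (m + 1) - 1 = u * (u ^ m - 1) + (u - 1) by ring]
    exact (n _ _).trans (max_le (by rwa [map_mul, h1, one_mul]) h)

theorem cub (h : V2 V) {y : ℂ} (h3 : y ^ 3 = 1) (h1 : y ≠ 1) : V (1 - y) = 1 := by
  have e : (1 - y) * (1 - y ^ 2) = 1 + 2 := by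
    have : (y - 1) * (y ^ 2 + y + 1) = 0 := by linear_combination h3
    linear_combination h3 - (mul_eq_zero.1 this).resolve_left (sub_ne_zero.2 h1)
  have a : ∀ z : ℂ, z ^ 3 = 1 → V (1 - z) ≤ 1 := fun z k => by
    simpa [sub_eq_add_neg, rt three_ne_zero k] using h.1 1 (-z)
  have b := congrArg V e
  rw [map_mul, add_eq h.1 (by rw [h.2, map_one]; norm_num), map_one] at b
  have c := a (y ^ 2) (by rw [pow_right_comm, h3, one_pow])
  have d := a y h3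
  nlinarith [V.nonneg (1 - y), V.nonneg (1 - y ^ 2)]

/-- the numerical part -/
theorem num (h : V2 V) {k f : ℕ} {ζ u lam y : ℂ} (hk : 2 ≤ k) (hζ : ζ ^ 2 ^ k = -1)
    (hu : u ^ 2 ^ k = -1) (f0 : 0 < f) (f2 : f ≤ 2) (hl : V (lam - 1) ≤ 1 / 2)
    (hy : y = 0 ∨ y ^ 3 = 1) : V (ζ - 1) ^ 2 ≤ V (1 - y * (u ^ f * lam)) := by
  obtain ⟨k, rfl⟩ : ∃ k', k = k' + 2 := ⟨k - 2, by omega⟩
  have a := Iq.vz h.1 h.2 _ ζ hζ
  have e : V (u - 1) = V (ζ - 1) := Iq.v_eq (V.nonneg _) (V.nonneg _) (Iq.vz h.1 h.2 _ u hu) a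
  have e2 : V (u ^ 2 - 1) = V (ζ - 1) ^ 2 := Iq.v_eq (k := k + 1) (V.nonneg _) (by positivity)
    (Iq.vz h.1 h.2 _ _ (by rw [← pow_mul, ← pow_succ', hu])) (by rw [← pow_mul, ← pow_succ', a])
  set v := V (ζ - 1)
  have v0 : 0 ≤ v := V.nonneg _
  have v1 : v < 1 := lt_of_le_of_ne (Iq.v_le a) fun z => by norm_num [z] at a
  have v2 : 1 / 2 < v ^ 2 := by
    by_contra c
    have := pow_le_of_le_one (a := v ^ 2 * v ^ 2) (by positivity) (by nlinarith) (n := 2 ^ k)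
      (by positivity)
    rw [← pow_add, ← pow_mul, show (2 + 2) * 2 ^ k = 2 ^ (k + 2) by ring, a, pow_add] at this
    nlinarith
  have w : v ^ 2 ≤ V (u ^ f - 1) ∧ V (u ^ f - 1) < 1 := by
    interval_cases f
    · rw [pow_one, e]
      exact ⟨by nlinarith, v1⟩
    · rw [e2]
      exact ⟨le_rfl, by nlinarith⟩
  have u1 : V u = 1 := rt (m := 2 ^ (k + 2) * 2) (by positivity) (by rw [pow_mul, hu]; norm_num)
  have z : V (1 - u ^ f * lam) = V (u ^ f - 1) := by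
    rw [show 1 - u ^ f * lam = -(u ^ f - 1 + u ^ f * (lam - 1)) by ring, V.map_neg,
      add_eq h.1 (by rw [map_mul, map_pow, u1, one_pow, one_mul]; linarith [w.1])]
  rcases hy with rfl | hy
  · rw [zero_mul, sub_zero, map_one]
    nlinarith
  by_cases y1 : y = 1
  · rw [y1, one_mul, z]
    exact w.1
  · rw [show 1 - y * (u ^ f * lam) = 1 - y + y * (1 - u ^ f * lam) by ring, add_eq h.1 (by
      rw [map_mul, rt three_ne_zero hy, one_mul, z, cub h hy y1]; exact w.2), cub h hy y1]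
    nlinarith

theorem deg {K M : Type} [Field K] [NumberField K] [Field M] [NumberField M] [Algebra K M]
    (w : Ideal (𝓞 M)) (hw : w.IsMaximal) : ∃ f, 0 < f ∧ f ≤ finrank K M ∧
      Ideal.relNorm (𝓞 K) w = w.under (𝓞 K) ^ f := by
  have : NoZeroSMulDivisors (𝓞 K) (𝓞 M) := ⟨fun {c x} h => by
    rw [Algebra.smul_def, mul_eq_zero] at h
    exact h.imp_left fun h0 => FaithfulSMul.algebraMap_injective (𝓞 K) (𝓞 M)
      (by rw [h0, map_zero])⟩
  have m : (w.under (𝓞 K)).IsMaximal := inferInstance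
  refine ⟨_, w.inertiaDeg_pos (𝓞 K), ?_, Al.Eu.norm_max w⟩
  rw [← Ideal.inertiaDeg'_eq_inertiaDeg (p := w.under (𝓞 K))]
  exact Ideal.inertiaDeg_le_finrank (𝓞 M) K M w
    (Ring.ne_bot_of_isMaximal_of_not_isField m (RingOfIntegers.not_isField K))

theorem ex_p {R : Type} [CommRing R] {P : Ideal R} (h : P.IsPrime) (n : ℕ) :
    n ≠ 0 → (n : R) ∈ P → ∃ p : ℕ, p.Prime ∧ p ∣ n ∧ (p : R) ∈ P := by
  induction n using induction_on_primes with
  | zero => exact fun k => absurd rfl k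
  | one => exact fun _ k => absurd ((Ideal.eq_top_iff_one _).2 (by simpa using k)) h.ne_top
  | prime_mul p a hp ih =>
    intro n0 k
    rw [Nat.cast_mul] at k
    rcases h.mem_or_mem k with k | k
    · exact ⟨p, hp, dvd_mul_right _ _, k⟩
    · obtain ⟨q, q1, q2, q3⟩ := ih (right_ne_zero_of_mul n0) k
      exact ⟨q, q1, q2.mul_left _, q3⟩

end Eu

open Eu in
/-- **the Euler factors** -/
theorem eul (r2 : RC2) (hI : IOT) (hL : LVX) {e : Crv} {b : Fld e} {ι V} (hP : Pl ι V (e.P 2))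
    {k c χ} (L : Lz b k c χ) {i : ℕ} {ζ} (hζ : ζ = ze (2 * 2 ^ k) (2 * i + 1 : ℕ)) {ξ}
    (hξ : Xi b.j c (fun g => (χ g).val) ζ ξ) : ∀ h κ lam, 0 < h → 0 < κ →
    La (Jc b.j) h κ lam → 2 ≤ k → ∀ (M : Type) [Field M] [NumberField M] [Algebra b.K M],
    finrank b.K M ≤ 2 → ∀ w : Ideal (𝓞 M), w.IsMaximal → ((e.S.prod / 2 : ℕ) : 𝓞 M) ∈ w →
    ∀ y : ℂ, y = 0 ∨ y ^ 3 = 1 → V (ζ - 1) ^ 2 ≤
      V (1 - y * (ξ (Ideal.relNorm (𝓞 b.K) w) * lam (Ideal.relNorm (𝓞 b.K) w))) := by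
  intro h κ lam h0 _ hl hk M _ _ _ r w hw m y hy
  obtain ⟨kd, od, s2, s3, -⟩ := hL e b
  obtain ⟨hV, k2⟩ := (hI _ (e.ov 2 e.two)).2 ι V hP
  obtain ⟨-, k3, -⟩ := k2 b.K b.j _ _ kd
  obtain ⟨f, f0, f2, ef⟩ := deg (K := b.K) w hw
  have z : ζ ^ 2 ^ k = -1 := hζ ▸ Iq.ze_odd k i
  have z1 : ζ ^ 2 ^ (k + 1) = 1 := by rw [pow_succ, pow_mul, z]; norm_num
  have mx : (w.under (𝓞 b.K)).IsMaximal := inferInstance
  obtain ⟨P, pP, eP⟩ := P022.H916.exists_above b.j _ mx.isPrime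
  have mb : ∀ n : ℕ, (n : 𝓞 b.K) ∈ below b.j P ↔ (n : 𝓞 Qb) ∈ P := fun n => by
    rw [below, Ideal.mem_comap, map_natCast]
  have m1 : ((e.S.prod / 2 : ℕ) : 𝓞 Qb) ∈ P := (mb _).1 (by
    rw [eP, Ideal.under, Ideal.mem_comap, map_natCast]; exact m)
  obtain ⟨p, pp, pd, pm⟩ := ex_p pP _ od.pos.ne' m1
  have o : Ov p P := ⟨pp, pP, pm⟩
  have pS : p ∈ e.S := (s3 p pp).1 (pd.trans ⟨2, by omega⟩)
  obtain ⟨g, hg⟩ := P022D.W.exists_phi pp pP pm
  obtain ⟨d1, d2⟩ := L.fro p pS P o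
  have gm : g ∈ GK b.j := d1 (P022D.W.phi_mem pp pP hg)
  have nm := P022.H20.norm_of_frob_mem kd.two pp b.j pP pm hg gm
  have c0 : 0 < c := zero_lt_one.trans L.one
  have pc : (c : 𝓞 Qb) ∉ P := fun k => (L.out p pp (by
    exact_mod_cast P004S.ov_dvd o (a := c) (by exact_mod_cast k))).1 pS
  have P0 : P ≠ ⊥ := fun z => pp.ne_zero (by simpa [z] using pm)
  have R := r2 b.K b.j b.iq c c0
  have ar := R.2.2.2.2.2.2 P pP P0 pc g gm 1 (by rw [nm, pow_one]; exact hg)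
  rw [pow_one] at ar
  have b0 : below b.j P ≠ ⊥ := fun z => pp.ne_zero (by simpa [z] using (mb p).2 pm)
  have cp : ∀ n, Cop c (below b.j P ^ n) := fun n => ⟨pow_ne_zero _ b0,
    Ideal.isCoprime_iff_sup_eq.1 (IsCoprime.pow_left (Ideal.isCoprime_iff_sup_eq.2 (by
      by_contra t
      exact pc ((mb c).1 ((Ideal.span_singleton_le_iff_mem _).1
        (le_sup_right.trans ((eP ▸ mx).eq_of_le t le_sup_left).ge))))))⟩
  have gp : ∀ n : ℕ, Ar b.j c (below b.j P ^ (n + 1)) (g ^ (n + 1)) ∧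
      ζ ^ (χ (g ^ (n + 1))).val = (ζ ^ (χ g).val) ^ (n + 1) := fun n => by
    induction n with
    | zero => simpa using ar
    | succ n ih =>
      rw [pow_succ _ (n + 1), pow_succ g (n + 1), pow_succ _ (n + 1), ← ih.2, ← pow_add]
      refine ⟨R.2.2.1 _ _ _ _ (cp _) (by simpa using cp 1) ih.1 ar, ?_⟩
      rw [pow_eq_pow_mod _ z1, L.ad.add _ (pow_mem gm _) g gm, ← pow_eq_pow_mod _ z1]
  obtain ⟨f, rfl⟩ : ∃ f', f = f' + 1 := ⟨f - 1, by omega⟩
  rw [ef, ← eP, hξ.1 _ _ (cp _) (gp f).1, (gp f).2]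
  obtain ⟨α, a1, a2⟩ := hl.2 _ (cp (f + 1)).1
  have a3 : V (Jc b.j α) = 1 := by
    refine (k3 α).1.eq_of_not_lt fun t => ?_
    have q2 := e.ov 2 e.two
    have pr : (below b.j (e.P 2)).IsPrime := by
      have := q2.2.1
      exact Ideal.IsPrime.comap _
    have t1 := (Ideal.span_singleton_le_iff_mem _).2 ((k3 α).2.1.1 t)
    rw [a1, ← pow_mul] at t1
    have t2 : (p : 𝓞 b.K) ∈ below b.j (e.P 2) :=
      pr.mem_of_pow_mem _ (t1 (Ideal.pow_mem_pow ((mb p).2 pm) _))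
    rw [below, Ideal.mem_comap, map_natCast] at t2
    have t3 : (2 : ℕ) ∣ p := by
      exact_mod_cast P004S.ov_dvd q2 (a := p) (by exact_mod_cast t2)
    exact (Nat.not_even_iff_odd.2 od) (even_iff_two_dvd.2 (t3.trans pd))
  refine num hV hk z ?_ f0 (f2.trans r) ?_ hy
  · have t := (ZMod.isUnit_iff_coprime (χ g).val (2 * 2 ^ k)).1 (by
      rw [ZMod.natCast_zmod_val]; exact d2 g hg)
    rw [pow_right_comm, z, (Nat.coprime_two_right.1 (t.coprime_dvd_right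
      (dvd_mul_right _ _))).neg_one_pow]
  · have a0 : Jc b.j α ≠ 0 := fun z => by simp [z] at a3
    rw [a2]
    refine pw hV.1 (by rw [map_inv₀, a3, inv_one]) ?_ _
    rw [show (Jc b.j α)⁻¹ - 1 = -(Jc b.j α)⁻¹ * (Jc b.j α - 1) by field_simp; ring, map_mul,
      V.map_neg, map_inv₀, a3, inv_one, one_mul]
    exact (k3 α).2.2 a3

end Vale.Agent.P004C.Tp
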