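import Vale.Agent.P004C.Tp.Lay0
import Vale.Agent.P004C.Tp.Eul

/-!
# P004 C, top: the row `LAY`
-/

set_option linter.all false

noncomputable section

namespace Vale.Agent.P004C.Tp

/-- **the layer in the words of the two blocks** -/
theorem lay (r1 : P004K.RC1) (r2 : P004K.RC2) (hI : Ln.IOT) (hV : Ln.LVX) (hR : RHO) : LAY :=
  fun e b ι V h => by
  obtain ⟨A, A'⟩ := Ly.ab hI hV h b
  obtain ⟨s, s1, s2, s3⟩ := Ly.ex_s hV b
  refine ⟨A, Ly.ex_la _, s, s1, fun k c χ k1 L => ⟨Ly.lw r1 r2 L, Ly.ts (hR e).1 k1 L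
    (le_antisymm (A' s) (not_lt.1 (mt (A.2 s).2 s2))) s3, fun i ζ z => ⟨?_, fun ξ x =>
      ⟨?_, eul r2 hI hV h L z x⟩⟩⟩⟩
  · have v := ((hI _ (e.ov 2 e.two)).2 ι V h).1
    exact Iq.vz v.1 v.2 k ζ (z ▸ Iq.ze_odd k i)
  · subst z
    exact Ly.lay L i x

end Vale.Agent.P004C.Tp
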