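import Vale.Agent.P004C.Tp.St
import Vale.Agent.P004C.Tp.Ine

/-!
# P004 C, block TOP: image `S₃`
-/

open NumberField Module Filter
open scoped Classical ComplexConjugate

noncomputable section

namespace Vale.Agent.P004C.Tp

open Vale.Agent.P022 (Qb GQ GK below IsFrob)
open Vale.Agent.P027M.M (ze)
open P004F (Crv Fld M2)
open Wa (Sp co)
open Al (Gc Rm Ic Lw Zc Ab Ts Cb Ls ALX ICX GBX)
open Ln (Jc Pl V2 Dh Xi Lay tS Dp IOT XI LVX ANA3)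

namespace O3

/-- the conjugate character -/
theorem dh {L : Type} [Field L] [NumberField L] {f : Ideal (𝓞 L)} {ψ : Ideal (𝓞 L) → ℂ}
    (h : Dh f ψ) : Dh f fun I => conj (ψ I) where
  two := h.two
  rc := ⟨h.rc.ne, by rw [h.rc.one, map_one], fun I I' => by rw [h.rc.mul, map_mul],
    fun I => by rw [map_eq_zero, h.rc.zero], fun x a b => by rw [h.rc.prn x a b, map_one]⟩
  pm := fun P f' a b => by
    obtain ⟨x, c, d, e, g⟩ := h.pm P f' a b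
    exact ⟨x, c, d, e, fun k => g ((map_eq_one_iff _ (RingHom.injective _)).1 k)⟩
  cub := fun I => (h.cub I).imp (fun k => by rw [k, map_zero]) fun k => by
    rw [← map_pow, k, map_one]
  rat := fun p => (h.rat p).imp (fun k => by rw [k, map_zero]) fun k => by rw [k, map_one]
  at2 := h.at2

theorem co_conj {L : Type} [Field L] [NumberField L] (ψ : Ideal (𝓞 L) → ℂ) (n : ℕ) :
    co (fun I => conj (ψ I)) n = conj (co ψ n) := by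
  have (ι : Type) (f : ι → ℂ) : conj (∑ᶠ i, f i) = ∑ᶠ i, conj (f i) :=
    (starRingEnd ℂ).toAddMonoidHom.map_finsum_of_injective (RingHom.injective _) f
  have (p : Prop) (f : p → ℂ) : conj (∑ᶠ i, f i) = ∑ᶠ i, conj (f i) :=
    (starRingEnd ℂ).toAddMonoidHom.map_finsum_of_injective (RingHom.injective _) f
  simp only [co, *]

theorem ls_eq {K M : Type} [Field K] [NumberField K] [Field M] [NumberField M] [Algebra K M]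
    {s : 𝓞 K} {t : Ideal (𝓞 M)}
    (hs : ∀ I, I ⊔ Ideal.span {algebraMap (𝓞 K) (𝓞 M) s} = ⊤ ↔ I ⊔ t = ⊤) {lam} {η a}
    (h : ∀ I, I ⊔ t = ⊤ → η I * lam (Ideal.relNorm (𝓞 K) I) = a I) :
    Ls s lam η = ∑' I, Dp t a I :=
  tsum_congr fun I => if_ctx_congr (hs I) (h I) fun _ => rfl

theorem gb (hG : GBX) {K : Type} [Field K] [NumberField K] {ι : ℂ →+* ℂ_[2]} {J : K →+* ℂ} {Ω : ℝ}
    (h : Base ι J Ω) (L : Type) [Field L] [NumberField L] [Algebra K L] {n : ℕ}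
    (e : finrank K L = n) : ∃ b : Basis (Fin n) K L, Vb ι J b := by
  subst e
  exact (hG K ι J Ω h L).1

/-- the numbers -/
theorem core {N B a k : ℕ} {δ v s₁ s s₃ : ℝ} {y y' : ℕ → ℝ} (hN : N ≤ 2 ^ B) (ha : 2 ^ a ≤ N ^ 2)
    (h0 : 0 ≤ v) (h : v ^ 2 ^ k = 1 / 2) (hδ : δ < v ^ (B + 2)) (h1 : 0 < s₁) (hs : 0 ≤ s)
    (h3 : 0 ≤ s₃) (le : s₃ ≤ s₁ * s ^ 2) (hy : ∀ i, 0 ≤ y i) (hy' : ∀ i, 0 ≤ y' i)
    (l : s₁ ^ 2 ^ k < 2 ^ (a + 1) * s₃ ^ 2 ^ k * ∏ i ∈ Finset.range (2 ^ k), y i * y' i) :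
    δ < v ^ 2 ∧ ∃ l i, 2 ^ (2 * l) ≤ N ∧ (δ < s * y i ∧ v ^ (2 * l + 2) < s * y i ∨
      δ < s * y' i ∧ v ^ (2 * l + 2) < s * y' i) := by
  have v1 := Iq.v_le h
  obtain ⟨i, -, hi⟩ := Iq.pick2 h h1 hs h3 le hy hy' l
  have aB : a ≤ B * 2 := (pow_le_pow_iff_right₀ (one_lt_two (α := ℕ))).1
    (ha.trans ((Nat.pow_le_pow_left hN 2).trans_eq (pow_mul _ _ _).symm))
  refine ⟨hδ.trans_le (pow_le_pow_of_le_one h0 v1 (by omega)), a / 4, i, ?_, ?_⟩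
  · refine (pow_le_pow_iff_left₀ (by positivity) (by positivity) two_ne_zero).1 (le_trans ?_ ha)
    rw [← pow_mul]
    exact Nat.pow_le_pow_right two_pos (by omega)
  · refine (Iq.one_of hi).imp (fun c => ?_) fun c => ?_
    · exact ⟨hδ.trans (Iq.rho h0 v1 (mul_nonneg hs (hy i)) c (by omega)),
        Iq.rho h0 v1 (mul_nonneg hs (hy i)) c (by omega)⟩
    · exact ⟨hδ.trans (Iq.rho h0 v1 (mul_nonneg hs (hy' i)) c (by omega)),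
        Iq.rho h0 v1 (mul_nonneg hs (hy' i)) c (by omega)⟩

end O3

/-- **image `S₃`** -/
theorem on3 (hA : ALX) (hI : ICX) (hG : GBX) (hD : DS3) (hO : IOT) (hX : XI) (hV : LVX) (hR : RHO)
    (hH : DIH) (hF : FLM) (hB : BCH) (hL : LAY) (h3 : ANA3) : ON3 := by
  intro ρ S e₃ rh e3 ne
  obtain ⟨L, _, _, jL, f, ψ, dd⟩ := hH ρ S e₃ rh e3 ne
  obtain ⟨l₀, p₀, a₀⟩ := h3 L f ψ dd.dh
  obtain ⟨l₁, p₁, a₁⟩ := h3 L f _ (O3.dh dd.dh)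
  refine ⟨{l₀, l₁}, by simp [p₀, p₁], ?_⟩
  rintro e rfl hS
  obtain ⟨rh, fr, -, hb⟩ := hR e
  obtain ⟨o1, o2⟩ := dd.out _ rh
  replace o1 := fun p hp h => List.mem_toFinset.1 (o1 p hp h)
  have o3 (p : ℕ) (hp : p.Prime) (h : p ∉ e.S) : ∃ k : ℤ, co ψ p = e.a p + 2 * k := by
    obtain ⟨⟨g, hg⟩, t⟩ := fr p hp h
    exact o2 p hp (by simpa using h) g hg _ (t g hg)
  obtain ⟨⟨ι, V, pl⟩, io⟩ := hO _ (e.ov 2 e.two)
  obtain ⟨T₀, a₀⟩ := a₀ e (hS _ (by simp)) o1 o3 ι V pl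
  obtain ⟨T₁, a₁⟩ := a₁ e (hS _ (by simp)) o1 (fun p hp h => (o3 p hp h).imp fun k hk => by
    rw [O3.co_conj, hk, map_add, map_mul, map_intCast, map_intCast, map_ofNat]) ι V pl
  refine ⟨max T₀ T₁, fun b hT B => ?_⟩
  obtain ⟨⟨Ω, ba⟩, -⟩ := (io ι V pl).2 b.K b.j _ _ (hV e b).1
  obtain ⟨M, M₃, _, _, _, _, _, _, _, _, _, jM, j₃, cb, cL, f2, f6, int, sm⟩ :=
    (hF b.K b.j ba.two _ _ e₃ rh e3).2 L jL f ψ dd ((hb b).1 ne)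
  obtain ⟨δ₀, d₀, a₀⟩ := a₀ b (le_of_max_le_left hT) Ω ba M f2 int sm
  obtain ⟨δ₁, d₁, a₁⟩ := a₁ b (le_of_max_le_right hT) Ω ba M f2 int fun t ht => by
    obtain ⟨s, l, x, y, z⟩ := sm t ht
    exact ⟨s, l, x, y, fun k => z ((map_eq_one_iff _ (RingHom.injective _)).1 k)⟩
  obtain ⟨β, vb⟩ := O3.gb hG ba M f2
  obtain ⟨β₃, vb₃⟩ := O3.gb hG ba M₃ f6
  obtain ⟨ab, ⟨h, h0, la⟩, s, hs, ly⟩ := hL e b ι V pl
  obtain ⟨dp, ds⟩ := hD b.K ι _ Ω ba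
  replace ds := ds M M₃ L b.j jM j₃ jL _ _ e₃ f ψ ⟨_, ab⟩ rh e3 cb dd cL f2 f6 int β β₃ vb vb₃
  obtain ⟨g3, sq, lz, bc⟩ := (hB e b e₃ e3).1 M M₃ jM j₃ cb
  obtain ⟨ψM, iψ⟩ := (hI M jM _ _ g3).1
  replace bc := bc L jL f ψ ψM dd cL iψ
  obtain ⟨k₀, hk₀⟩ := eventually_atTop.1 (Iq.big (max_lt d₀ d₁) (B + 2))
  refine ⟨max k₀ (2 * B + 2), fun k hk c χ z fin card => ?_⟩
  have k2 := le_of_max_le_right hk
  obtain ⟨lw, ts, ly⟩ := ly k c χ (by omega) z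
  obtain ⟨gχ, bx⟩ := lz k c χ z
  obtain ⟨χM, iχ⟩ := (hI M jM _ _ gχ).1
  rw [(hb b).2] at fin card ⊢
  obtain ⟨a, e0, ha, al⟩ := hA b.K M M₃ ι _ Ω ba b.j jM j₃ _ _ c k χ e₃ _ s ab lw ts cb 2 β 6 β₃
    vb vb₃ χM ψM iχ iψ fin ((Nat.pow_le_pow_left card 2).trans_lt (by
      rw [← pow_mul]
      have := Nat.lt_two_pow_self (n := k)
      exact Nat.pow_lt_pow_right one_lt_two (by omega))) h h0
  obtain ⟨lam, hl⟩ := la (2 ^ (e0 + 1))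
  have w3 : 3 ≤ 2 * h * 2 ^ (e0 + 1) := by
    have := Nat.two_pow_pos e0
    rw [pow_succ]
    nlinarith
  have dn : 0 < ‖(((discr L).natAbs * Ideal.absNorm f : ℕ) : ℂ_[2])‖ :=
    norm_pos_iff.2 (Nat.cast_ne_zero.2 (mul_ne_zero (Int.natAbs_ne_zero.2 (discr_ne_zero L))
      (Ideal.absNorm_eq_zero_iff.not.2 dd.dh.rc.ne)))
  have v0 := (ly 0 _ rfl).1
  obtain ⟨d2, l, i, hl', c2⟩ := O3.core card ha (V.nonneg _) v0
    (hk₀ k (le_of_max_le_left hk) _ (V.nonneg _) v0) (Iq.sc_pos ba.pos (dp M 2 β vb).1 _ _)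
    (Iq.sc_pos ba.pos dn _ _).le (Iq.sc_pos ba.pos (dp M₃ 6 β₃ vb₃).1 _ _).le
    (Iq.sc_le ba.pos (dp M 2 β vb).1 dn (dp M₃ 6 β₃ vb₃).1 ds 2 (two_pos.trans_le (w3.trans' (by norm_num))))
    (fun _ => norm_nonneg _) (fun _ => norm_nonneg _) (al _ (Nat.le_succ _) lam hl)
  refine ⟨l, hl', ?_⟩
  obtain ⟨vi, ly⟩ := ly i _ rfl
  rw [Iq.v_eq (V.nonneg _) (V.nonneg _) v0 vi] at d2 c2
  obtain ⟨ξ, xi⟩ := (hX.1 e b (k + 1) c _ (ze (2 * 2 ^ k) (2 * i + 1 : ℕ)) z.ad z.sq (by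
    rw [pow_succ, pow_mul, Iq.ze_odd, neg_one_sq])).1
  obtain ⟨lay, eu⟩ := ly ξ xi
  replace eu := eu h _ lam h0 (Nat.two_pow_pos _) hl (by omega) M f2.le
  replace bx := bx χM ξ i iχ xi
  rw [← map_natCast ι, ← pl.eq, ← pl.eq, ← pl.eq] at c2
  rcases c2 with ⟨x, y⟩ | ⟨x, y⟩
  · refine a₀ _ c _ _ ξ lay z.spl h _ lam hl w3 _ (fun _ => rfl) _ l (max_lt_iff.1 x).1
      (le_of_eq ?_) (fun w u u' => (max_lt_iff.1 d2).1.trans_le (eu w u u' _ (dd.dh.cub _))) y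
    rw [O3.ls_eq (hs M) fun I hI => ?_]
    rw [bx, bc I hI]
    ring
  · refine a₁ _ c _ _ ξ lay z.spl h _ lam hl w3 _ (fun _ => rfl) _ l (max_lt_iff.1 x).2
      (le_of_eq ?_) (fun w u u' => (max_lt_iff.1 d2).2.trans_le
        (eu w u u' _ ((O3.dh dd.dh).cub _))) y
    rw [O3.ls_eq (hs M) fun I hI => ?_]
    rw [bx, sq ψM iψ, bc I hI]
    ring

end Vale.Agent.P004C.Tp
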