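import Vale.Agent.P004C.Tp.St
import Vale.Agent.P004C.Tp.Ine
import Vale.Agent.P004C.Al.Dis
import Vale.Agent.P004C.Al.Gbx
import Vale.Agent.P004C.Al.Icx

/-!
# P004 C, top: the case of a cyclic residual image
-/

set_option linter.all false

open NumberField Module Filter
open scoped Classical ComplexConjugate

noncomputable section

namespace Vale.Agent.P004C.Tp

open Vale.Agent.P027M.M (ze)
open Al (ALX Ls icx dis)
open Ln (Jc DVL IOT XI LVX ANAC Dp tS)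

namespace Oc

variable {K : Type} [Field K] [NumberField K]

/-- the algebra structure which is induced from the field -/
abbrev al (K : Type) [Field K] : Algebra (𝓞 K) (𝓞 K) := NumberField.inst_ringOfIntegersAlgebra K K

theorem mp (I : Ideal (𝓞 K)) : I.map (@algebraMap _ _ _ _ (al K)) = I := by
  rw [show @algebraMap _ _ _ _ (al K) = RingHom.id _ from RingHom.ext fun _ => rfl, Ideal.map_id]

/-- the norm in the trivial extension -/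
def rn (M : Type) [Field M] [NumberField M] [Algebra K M] (I : Ideal (𝓞 M)) : Ideal (𝓞 K) :=
  Ideal.relNorm (𝓞 K) I

theorem rn_map (M : Type) [Field M] [NumberField M] [Algebra K M] (I : Ideal (𝓞 K)) :
    rn M (I.map (algebraMap (𝓞 K) (𝓞 M))) = I ^ finrank K M := by
  rw [rn, Ideal.relNorm_algebraMap, ← IsFractionRing.finrank_eq (𝓞 K) K (𝓞 M) M]

theorem rn_eq (I : Ideal (𝓞 K)) : rn (K := K) K I = I := by
  have := rn_map K I
  rwa [mp, finrank_self, pow_one] at this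

theorem cr_conj {ψ : ℤ → ℂ} (h : ∀ d, ψ d = 0 ∨ ψ d ^ 3 = 1) (d : ℤ) :
    conj (ψ d) = 0 ∨ conj (ψ d) ^ 3 = 1 :=
  (h d).imp (fun z => by rw [z, map_zero]) fun z => by rw [← map_pow, z, map_one]

end Oc

open Oc

/-- **image `C₃`** -/
theorem onc (alx : ALX) (dvl : DVL) (iot : IOT) (xi : XI) (lvx : LVX) (hR : RHO) (dic : DIC)
    (flm : FLM) (bch : BCH) (lay : LAY) (ana : ANAC) : ONC := fun e e₃ E c3 => by
  obtain ⟨R, fr, -, zz⟩ := hR e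
  obtain ⟨f, ψ, D⟩ := dic _ _ e₃ R E c3
  obtain ⟨⟨ι, V, pl⟩, io⟩ := iot _ (e.ov 2 e.two)
  obtain ⟨v2, io⟩ := io ι V pl
  obtain ⟨T, hT⟩ := ana f ψ D.one D.odd D.cr D.cp D.cub e
    (fun p hp d => List.mem_toFinset.1 (D.inS p hp d)) (fun p hp n =>
      let ⟨⟨g, hg⟩, k⟩ := fr p hp n
      D.tr p hp (mt List.mem_toFinset.1 n) g hg _ (k g hg)) ι V pl
  refine ⟨T, fun b hb B => ?_⟩
  obtain ⟨⟨Ω, Bs⟩, -⟩ := io b.K b.j b.δ' b.θ (lvx e b).1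
  obtain ⟨δ, δ1, an⟩ := hT b hb Ω Bs
  obtain ⟨ab, ⟨h, h0, la⟩, s, hs, ly⟩ := lay e b ι V pl
  obtain ⟨M₃, _, _, _, j₃, cb, d3⟩ := (flm b.K b.j b.iq.two _ _ e₃ R E).1 c3
  obtain ⟨b₁, v₁, d₁⟩ := (dvl b.K ι _ Ω Bs).1
  obtain ⟨b₃, v₃⟩ := Al.Gx.vb_ex (ι := ι) (J := Jc b.j) d3
  have dd : dv ι (Jc b.j) b₃ = 1 := by
    have c : j₃.comp (algebraMap b.K M₃) = b.j := RingHom.ext cb.c3
    rw [(dis b.K b.K M₃ ι _ Ω Bs j₃ fun P o g hg i => (cb.g3 g).2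
      ⟨c ▸ hg, D.two P o.1 g i⟩).1 1 b₁ 3 b₃ v₁ v₃, d₁, one_pow]
  obtain ⟨g3, sq3, bl, -⟩ := (bch e b e₃ E).1 b.K M₃ b.j j₃ cb
  obtain ⟨ψK, iK⟩ := (icx _ _ _ _ g3).1
  have eK := (bch e b e₃ E).2 f ψ ψK D iK
  obtain ⟨k₀, big⟩ := eventually_atTop.1 (Iq.big δ1 (B + 2))
  refine ⟨k₀ + B + 2, fun k hk c χ L fin le => ?_⟩
  obtain ⟨lw, ts, lz⟩ := ly k c χ (by omega) L
  obtain ⟨gχ, bx⟩ := bl k c χ L
  obtain ⟨χK, iχ⟩ := (icx _ _ _ _ gχ).1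
  rw [(zz b).2] at fin le ⊢
  obtain ⟨a, e0, a1, a2⟩ := alx b.K b.K M₃ ι _ Ω Bs b.j b.j j₃ _ _ c k χ e₃ _ s ab lw ts cb 1 b₁ 3
    b₃ v₁ v₃ χK ψK iχ iK fin ((pow_one _).trans_lt (le.trans_lt (Nat.pow_lt_pow_right one_lt_two
      ((show B < k by omega).trans Nat.lt_two_pow_self)))) h h0
  rw [pow_one] at a1
  have aB : a ≤ B := (Nat.pow_le_pow_iff_right one_lt_two).1 (a1.trans le)
  obtain ⟨lam, hl⟩ := la (2 ^ (e0 + 1))
  have a3 := a2 (e0 + 1) (by omega) lam hl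
  have κ3 : 3 ≤ 2 * h * 2 ^ (e0 + 1) := by
    have := Nat.one_le_two_pow (n := e0)
    nlinarith [pow_succ 2 e0]
  rw [d₁, dd] at a3
  have sp := fun n => Iq.sc_pos Bs.pos one_pos n (2 * h * 2 ^ (e0 + 1))
  have z0 := (lz 0 _ rfl).1
  obtain ⟨i, -, hi⟩ := Iq.pick2 z0 (sp 1) (sp 1).le (sp 3).le
    (Iq.sc_le Bs.pos one_pos one_pos one_pos (by norm_num) 1 (by omega))
    (fun _ => norm_nonneg _) (fun _ => norm_nonneg _) a3
  obtain ⟨zi, li⟩ := lz i _ rfl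
  rw [Iq.v_eq (V.nonneg _) (V.nonneg _) z0 zi] at hi
  set ζ := ze (2 * 2 ^ k) (2 * i + 1 : ℕ)
  obtain ⟨ξ, hξ⟩ := (xi.1 e b _ c _ ζ L.ad L.sq (by
    rw [pow_succ, pow_mul, Iq.ze_odd]; norm_num)).1
  obtain ⟨lay, eu⟩ := li ξ hξ
  have v1 := Iq.v_le zi
  have v0 := V.nonneg (ζ - 1)
  have lt : V (ζ - 1) < 1 := v1.lt_of_ne fun z => by rw [z, one_pow] at zi; norm_num at zi
  have dl : ∀ n ≤ B + 2, δ < V (ζ - 1) ^ n := fun n hn =>
    (big k (by omega) _ v0 zi).trans_le (pow_le_pow_of_le_one v0 v1 hn)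
  have ls : ∀ (η : Ideal (𝓞 b.K) → ℂ) (φ : ℤ → ℂ), (∀ I, I ⊔ tS b = ⊤ → η I = φ (Ideal.absNorm I)) →
      ‖ι (Ls s lam fun I => χK I ^ (2 * i + 1) * η I)‖ =
        V (∑' I, Dp (tS b) (fun I => φ (Ideal.absNorm I) * (ξ I * lam I)) I) := fun η φ k => by
    rw [pl.eq, Ls]
    refine congrArg (fun z => ‖ι z‖) (tsum_congr fun I => ?_)
    have t := hs b.K I
    rw [mp] at t
    rw [Dp]
    by_cases u : I ⊔ tS b = ⊤
    · rw [if_pos u, if_pos (t.2 u), bx χK ξ i iχ hξ, k I u]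
      change ξ (rn _ I) * _ * lam (rn _ I) = _
      rw [rn_eq]; ring
    · rw [if_neg u, if_neg (mt t.1 u)]
  rw [ls ψK ψ eK, ls (fun I => ψK I ^ 2) (fun d => conj (ψ d)) fun I u => by
    rw [sq3 ψK iK, eK I u]] at hi
  have p1 : V (ζ - 1) ^ (a + 1) < 1 := pow_lt_one₀ v0 lt a.succ_ne_zero
  refine ⟨a / 2, (Nat.pow_le_pow_right two_pos (by omega)).trans a1,
    an _ c _ ζ ξ lay h _ lam hl κ3 _ _ (fun _ => rfl) (fun _ => rfl) _ _
      ((dl _ (by omega)).trans (lt_min hi p1)) (min_le_right _ _) (min_le_left _ _)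
      (fun w hw m => ?_) ((pow_le_pow_of_le_one v0 v1 (by omega)).trans_lt (lt_min hi p1))⟩
  have eu := eu h _ lam h0 (by positivity) hl (by omega) b.K (by simp) w hw m
  change ∀ y, _ → _ ≤ V (1 - y * (ξ (rn _ w) * lam (rn _ w))) at eu
  rw [rn_eq] at eu
  exact ⟨(dl 2 (by omega)).trans_le (eu _ (D.cub _)),
    (dl 2 (by omega)).trans_le (eu _ (cr_conj D.cub _))⟩

end Vale.Agent.P004C.Tp
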