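import Vale.Agent.P004C.Tp.St
import Vale.Agent.P004R.Top

/-!
# P004 C, block TOP, row RHO: the residual representation of the curve
-/

set_option linter.all false

noncomputable section

namespace Vale.Agent.P004C.Tp

open Vale.Agent.P022 (Qb GQ GK IsFrob)
open Vale.Agent.P027M.S (Inert)
open Vale.Agent.P022E.GW (Ov)
open P004F (Crv Fld M2)
open P004R (Mu.ex_st Mu.ex_pl)
open P004R.Tp (rb rb_mul rb_one rb_kn kd rep tr_frob)

namespace Ro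

theorem m3 : ∀ A : Matrix (Fin 2) (Fin 2) (ZMod 2), A.trace = 1 → A.det = 1 →
    A ≠ 1 ∧ A ^ 3 = 1 := by decide +kernel

/-- the exponent -/
def ex (A B : Matrix (Fin 2) (Fin 2) (ZMod 2)) : ZMod 3 :=
  if B = 1 then 0 else if B = A then 1 else 2

theorem cl : ∀ A B : Matrix (Fin 2) (Fin 2) (ZMod 2), A ≠ 1 → A ^ 3 = 1 → B ^ 3 = 1 →
    ∃ i : Fin 3, B = A ^ i.1 := by
  decide +kernel

theorem ex_pow : ∀ A : Matrix (Fin 2) (Fin 2) (ZMod 2), A ≠ 1 → A ^ 3 = 1 → ∀ i j : Fin 3,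
    ex A (A ^ i.1 * A ^ j.1) = ex A (A ^ i.1) + ex A (A ^ j.1) := by
  decide +kernel

theorem ex_add {A B C : Matrix (Fin 2) (Fin 2) (ZMod 2)} (h : A ≠ 1) (a : A ^ 3 = 1)
    (b : B ^ 3 = 1) (c : C ^ 3 = 1) : ex A (B * C) = ex A B + ex A C := by
  obtain ⟨i, rfl⟩ := cl A B h a b
  obtain ⟨j, rfl⟩ := cl A C h a c
  exact ex_pow A h a i j

theorem ex_ker (A B : Matrix (Fin 2) (Fin 2) (ZMod 2)) : ex A B = 0 ↔ B = 1 := by
  unfold ex
  split_ifs with h k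
  · simp [h]
  · simp [h]
  · simpa [h] using by decide

variable {e : Crv}

theorem unr {l : ℕ} {P : Ideal (NumberField.RingOfIntegers Qb)} (o : Ov l P) (h : l ∉ e.S) {g : GQ}
    (i : Inert P g) : rb e g = 1 :=
  rb_kn e ((rep e).Kn_uns 1 l P o (mt List.mem_toFinset.1 h) g i)

theorem det (g : GQ) : (rb e g).det = 1 := by
  have := congrArg Matrix.det (rb_mul e g g⁻¹)
  rw [mul_inv_cancel, rb_one, Matrix.det_one, Matrix.det_mul] at this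
  exact (P004S.z2 _).resolve_left fun z => by simp [z] at this

theorem fr {p : ℕ} (hp : p.Prime) : ∃ g, IsFrob p g := by
  obtain ⟨P, o⟩ := Mu.ex_pl hp
  obtain ⟨-, φ, -, f, -⟩ := Mu.ex_st o
  exact ⟨φ, P, o.2.1, o.2.2, f⟩

theorem gam (b : Fld e) (g : GQ) : ∃ h ∈ b.Γ, rb e h = rb e g := by
  by_cases k : g ∈ GK b.j
  · exact ⟨g, k, rfl⟩
  obtain ⟨l, hl, d⟩ := Nat.exists_prime_and_dvd (show b.δ' ≠ 1 by have := b.adm.m8; omega)
  obtain ⟨P, o⟩ := Mu.ex_pl hl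
  obtain ⟨τ, -, t, -⟩ := Mu.ex_st o
  have t1 := P004S.nu_tau o (P004R.Tp.out b hl d).1 (d := -(b.δ' : ℤ))
    (Int.squarefree_natAbs.1 (by simpa using b.adm.sq)) (dvd_neg.2 (Int.natCast_dvd_natCast.2 d)) t
  refine ⟨g * τ, ((kd b).gk _).2 ?_, by rw [rb_mul, unr o (P004R.Tp.out b hl d).2 t.1, mul_one]⟩
  rw [P004S.nu_mul, t1, (P004S.z2 _).resolve_left fun z => k (((kd b).gk _).2 z)]
  rfl

end Ro

/-- **row RHO** -/
theorem rho_row : RHO := fun e => by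
  refine ⟨⟨rb_one e, rb_mul e, ⟨(rep e).Kn 1, (rep e).Kn_open 1, fun g => rb_kn e⟩, ?_⟩,
    fun p hp h => ⟨Ro.fr hp, fun g f => (tr_frob e hp h f).symm⟩, fun h => ?_, fun b =>
    ⟨fun ⟨g, hg⟩ => ?_, fun J c χ => ?_⟩⟩
  · rintro g ⟨l, hl, P, o, i⟩
    exact Ro.unr o (fun z => hl (List.mem_toFinset.2 z)) i
  · obtain ⟨p, ⟨hp, o⟩, n⟩ := h.exists_notMem_finset e.S.toFinset
    obtain ⟨g, f⟩ := Ro.fr hp
    have t := Ro.m3 (rb e g) ((tr_frob e hp (mt List.mem_toFinset.2 n) f).trans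
      ((ZMod.intCast_eq_one_iff_odd).2 o)) (Ro.det g)
    refine ⟨fun x => Ro.ex (rb e g) (rb e x), fun x y a b => ?_, fun x _ => Ro.ex_ker _ _, g, t⟩
    rw [rb_mul]
    exact Ro.ex_add t.1 t.2 a b
  · obtain ⟨h, m, k⟩ := Ro.gam b g
    exact ⟨h, m, fun z => hg (by rw [show rho e g = rb e h from k.symm]; exact z)⟩
  · rfl

end Vale.Agent.P004C.Tp
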