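import Vale.Agent.P004C.Al.Ext
import Vale.Agent.P004C.Al.Kin

/-!
# P004 C, block TOP: ramification at two of cubic characters is visible on the units
-/

set_option linter.all false

noncomputable section

namespace Vale.Agent.P004C.Tp.R2

open NumberField IsDedekindDomain
open scoped Pointwise nonZeroDivisors
open Vale.Agent.P022 Vale.Agent.P022.C Vale.Agent.P022.H916 Vale.Agent.P022K Vale.Agent.P022K.Exi
open Vale.Agent.P027M.S (Pr Inert)
open Vale.Agent.P022D.W (dec)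
open Vale.Agent.P022D.Sel (ov Big)
open Vale.Agent.P022E.GW (Ov Fb)
open Vale.Agent.P022E.GW.Kc (ex_below nat_mem prime_mem not_ov fin_ord)
open Vale.Agent.P004C.Al.Xt

variable {K : Type} [Field K] [NumberField K] {j : K →+* Qb} {N : ℕ} [NeZero N] {Q : Finset ℕ}
  {f : Pr K → ZMod N}

/-- **existence** when the roots of unity are in the field -/
theorem kum3 [IsEmpty (K →+* ℝ)] {ζ : Qb} (hζ : IsPrimitiveRoot ζ N) (hz : ∀ g : GK j, g.1 ζ = ζ)
    (hQ : ∀ l : ℕ, l.Prime → l ∣ 3 * N → l ∉ Q) (hf : Rc Q f) : ∃ b : Kˣ,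
      Al Q fun v => Un (ka hζ hz b) v ∧ (ka hζ hz b (fr j v)).toAdd = f v := by
  classical
  obtain ⟨m₀, m₀0, mQ, hf⟩ := hf
  have N0 := NeZero.ne N
  obtain ⟨A₀, a1, a2⟩ := big (K := K) Q
  let A := A₀ ∪ (3 * N * m₀).primeFactors
  have hA' : ∀ l ∈ A, l.Prime ∧ l ∉ Q := fun l hl => (Finset.mem_union.1 hl).elim (a1 l) fun h =>
    have p := Nat.prime_of_mem_primeFactors h
    ⟨p, (p.dvd_mul.1 (Nat.dvd_of_mem_primeFactors h)).elim (hQ l p) (mQ l p)⟩
  have hA : ∀ l ∈ A, l.Prime := fun l hl => (hA' l hl).1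
  have h4 : ∀ l : ℕ, l.Prime → l ∣ 3 * N * m₀ → l ∈ A := fun l hl d =>
    Finset.mem_union_right _ (Nat.mem_primeFactors.2 ⟨hl, d, by positivity⟩)
  have hN : ∀ l : ℕ, l.Prime → l ∣ N → l ∈ A := fun l hl d => h4 l hl ((d.mul_left _).mul_right _)
  have hB := a2 A Finset.subset_union_left
  obtain ⟨z, rfl⟩ := fixed j hz
  have hz' : IsPrimitiveRoot z N := hζ.of_map_of_injective j.injective
  have a0 : ∏ l ∈ A, l ≠ 0 := Finset.prod_ne_zero_iff.2 fun l hl => (hA l hl).ne_zero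
  have fin : (ov K A).Finite := (Ideal.finite_factors (I := Ideal.span {((∏ l ∈ A, l : ℕ) : 𝓞 K)})
    (by simpa only [Ne, Ideal.zero_eq_bot, Ideal.span_singleton_eq_bot, Nat.cast_eq_zero])).subset
    fun v ⟨l, hl, _, k⟩ => Ideal.dvd_span_singleton.2
      (v.asIdeal.mem_of_dvd (Nat.cast_dvd_cast (Finset.dvd_prod_of_mem _ hl)) k)
  obtain ⟨u, hu, ind⟩ := ex_ind hz' fin.toFinset
  rw [fin.coe_toFinset] at hu
  have up : ∀ a : _ → ℤ, ∏ i, u i ^ a i ∈ ES (ov K A) := fun a =>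
    prod_mem fun i _ => zpow_mem (hu i) _
  choose m m0 m1 m2 using fun i => recip (ka hζ hz (u i)) (ka_open hζ hz _)
  have out : ∀ {x} (_ : x ∈ ES (ov K A)) {p P} (_ : Ov p P) (_ : p ∉ A) (g : GK j),
      Inert P g → ka hζ hz x g = 1 := fun {x} hx {p P} hP hp g hg => by
    obtain ⟨v, hv, k⟩ := ex_below j hP.1.ne_zero hP.2.1 hP.2.2
    have o := not_ov (fun l h => Or.inr (hA l h)) hP.1 hp k
    exact un_out hζ hz hN o (mem_ES.1 hx v o) P hP.2.1 hv g hg
  set M := N * ((∏ l ∈ A, l) * (m₀ * ∏ i, m i)) with hM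
  have M0 : M ≠ 0 := mul_ne_zero N0 (mul_ne_zero a0 (mul_ne_zero m₀0
    (Finset.prod_ne_zero_iff.2 fun i _ => m0 i)))
  have dM : ∀ l ∈ A, l * N * N ∣ N * M := fun l hl => by
    rw [mul_comm]
    exact mul_dvd_mul_left _ (by
      rw [mul_comm]; exact mul_dvd_mul_left _ ((Finset.dvd_prod_of_mem _ hl).mul_right _))
  have hS : ∀ v : Pr K, ((N * M : ℕ) : 𝓞 K) ∈ v.asIdeal ↔ v ∈ ov K A := fun v => by
    refine ⟨fun k => ?_, fun ⟨l, hl, _, k⟩ => v.asIdeal.mem_of_dvd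
      (Nat.cast_dvd_cast (((dvd_mul_right _ _).mul_right _).trans (dM l hl))) k⟩
    obtain ⟨l, hl, k'⟩ := prime_mem v
    refine ⟨l, ?_, hl.ne_zero, k'⟩
    have d := dvd_of_mem hl k' k
    simp only [hM, hl.dvd_mul, hl.prime.dvd_finsetProd_iff] at d
    rcases d with d | d | ⟨p, hp, d⟩ | d | ⟨i, -, d⟩
    · exact hN l hl d
    · exact hN l hl d
    · exact (Nat.prime_dvd_prime_iff_eq hl (hA p hp)).1 d ▸ hp
    · exact h4 l hl (d.mul_left _)
    · obtain ⟨P, hP, g, h1, h2⟩ := m1 i l hl d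
      exact by_contra fun k => h2 (out (hu i) hP k g h1)
  choose π π0 π1 π2 using hB
  let ct : (Pr K → ZMod N) → Kˣ →* Multiplicative (ZMod N) := fun h =>
    art fun v => if v ∈ ov K A then 0 else h v
  let Φ : Kˣ →* Multiplicative (_ → ZMod N) := MonoidHom.mk' (fun x => Multiplicative.ofAdd fun i =>
    (ct (fun v => (ka hζ hz (u i) (fr j v)).toAdd) x).toAdd) fun x y =>
      congrArg Multiplicative.ofAdd (funext fun i => by rw [map_mul]; rfl)
  have sg : ∀ {h : Pr K → ZMod N}, (∀ v ∈ ov K A, h v = 0) → ∀ w hw,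
      (art h (Units.mk0 _ (π0 w hw))).toAdd = h w := fun h w hw =>
    art_single (π1 w hw) fun v hv => (em (v ∈ ov K A)).elim (fun k => Or.inr (h v k))
      fun k => Or.inl (π2 w hw v k hv)
  have cπ : ∀ h w hw, (ct h (Units.mk0 _ (π0 w hw))).toAdd = h w :=
    fun h w hw => (sg (fun v hv => if_pos hv) w hw).trans (if_neg hw)
  have cE : ∀ h, ∀ x ∈ ES (ov K A), ct h x = 1 := fun h x hx =>
    (art_congr (f' := 0) fun v => (em (v ∈ ov K A)).elim (fun k => Or.inr (if_pos k))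
      fun k => Or.inl (mem_ES.1 hx v k)).trans (by simp [art])
  have cB : ∀ h (n : ℕ), n ∣ M → (∀ (x : Kˣ) (a : 𝓞 K), (x : K) = a → (n : 𝓞 K) ∣ a - 1 →
      art h x = 1) → Bs K N (N * M) ≤ (ct h).ker := fun h n d k => (Subgroup.closure_le _).2 (by
    rintro x (⟨y, rfl⟩ | ⟨a, h1, h2⟩)
    · exact (map_pow (ct h) y N).trans (pow_self _)
    · exact (art_congr fun v => (em (v ∈ ov K A)).imp (fun c => unit_of h1 h2 ((hS v).2 c))
        fun c => if_neg c).trans (k x a h1 ((Nat.cast_dvd_cast (d.mul_left _)).trans h2)))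
  have lin : ∀ (a : _ → ZMod N) g, (ka hζ hz (∏ i, u i ^ ((a i).val : ℤ)) g).toAdd =
      ∑ i, a i * (ka hζ hz (u i) g).toAdd := fun a g => by
    rw [map_prod, MonoidHom.finsetProd_apply, toAdd_prod]
    refine Finset.sum_congr rfl fun i _ => ?_
    rw [map_zpow, MonoidHom.zpow_apply, toAdd_zpow, zsmul_eq_mul, Int.cast_natCast,
      ZMod.natCast_zmod_val]
  have hs : Function.Surjective Φ := by
    have := dual (Subgroup.toAddSubgroup' Φ.range) fun a ha => funext fun i => by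
      obtain ⟨y, hy⟩ := kill hζ hz hA hN (up fun i => (a i).val) fun w hw =>
        (lin a _).trans ((Finset.sum_congr rfl fun i _ => congrArg _ (cπ _ w hw).symm).trans
          (ha (Φ (Units.mk0 _ (π0 w hw))).toAdd ⟨_, rfl⟩))
      have := (ZMod.intCast_zmod_eq_zero_iff_dvd _ _).2 (ind _ y hy i)
      rwa [Int.cast_natCast, ZMod.natCast_zmod_val] at this
    exact fun y => (show y.toAdd ∈ Subgroup.toAddSubgroup' Φ.range from this ▸ trivial)
  have hI : ∀ a : _ → ℤ, ∏ i, u i ^ a i ∈ Bs K N (N * M) → ∀ i, (N : ℤ) ∣ a i := fun a ha => by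
    obtain ⟨m, -, h1, h2⟩ := recip (ka hζ hz (∏ i, u i ^ a i)) (ka_open hζ hz _)
    obtain rfl : m = 1 := Nat.eq_one_iff_not_exists_prime_dvd.2 fun p hp d => by
      obtain ⟨P, hP, g, k1, k2⟩ := h1 p hp d
      exact k2 ((em (p ∈ A)).elim (fun k => dec_Bs hζ hz (dM p k) ha hP (GW.Pl.inert_dec k1))
        fun k => out (up a) hP k g k1)
    obtain ⟨y, hy⟩ := kill hζ hz hA hN (up a) fun w hw => by
      refine (sg (h := fun v => (ka hζ hz _ (fr j v)).toAdd) (fun v hv => ?_) w hw).symm.trans ?_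
      · obtain ⟨l, hl, -, k⟩ := hv
        obtain ⟨P, hP⟩ := fr_spec (j := j) v
        exact dec_Bs hζ hz (dM l hl) ha ⟨hA l hl, hP.1, (nat_mem j hP.2.1 l).1 k⟩ (fri_dec hP)
      · obtain ⟨c, d, hd, e⟩ := IsFractionRing.div_surjective (A := 𝓞 K) (π w hw)
        have d0 : (d : K) ≠ 0 := RingOfIntegers.coe_ne_zero_iff.2 (nonZeroDivisors.ne_zero hd)
        have k1 := h2 (Units.mk0 _ (π0 w hw) * Units.mk0 _ d0) c
          (by rw [Units.val_mul, Units.val_mk0, Units.val_mk0, ← e]; exact div_mul_cancel₀ _ d0)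
          (by simp)
        rwa [map_mul, h2 (Units.mk0 _ d0) d rfl (by simp), mul_one] at k1
    exact ind a y hy
  obtain ⟨P₀, hP₀⟩ := GW.Pl.ex_ov Nat.prime_three
  obtain ⟨v₀, -, k₀⟩ := ex_below j three_ne_zero hP₀.2.1 hP₀.2.2
  obtain ⟨i0, i1⟩ := index_Bs hz' fin.toFinset M0 (fun v => (hS v).trans fin.mem_toFinset.symm)
    ⟨v₀, fin.mem_toFinset.2 ⟨3, h4 3 Nat.prime_three ((dvd_mul_right _ _).mul_right _),
      three_ne_zero, k₀⟩⟩
  haveI : IsTotallyComplex K := ⟨fun w => InfinitePlace.not_isReal_iff_isComplex.1 fun h =>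
    isEmptyElim (InfinitePlace.embedding_of_isReal h)⟩
  have key := squeeze _ u Φ hs (fun x hx => funext fun i => cB _ (m i) ((((Finset.dvd_prod_of_mem m
    (Finset.mem_univ i)).mul_left _).mul_left _).mul_left _) (m2 i) hx)
    (fun i => funext fun _ => cE _ _ (hu i)) hI i0 (i1.trans_eq (by
      have h1 : Units.rank K + 1 = InfinitePlace.nrComplexPlaces K := by
        rw [Units.rank, Nat.sub_add_cancel Fintype.card_pos,
          InfinitePlace.card_eq_nrRealPlaces_add_nrComplexPlaces,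
          IsTotallyComplex.nrRealPlaces_eq_zero, zero_add]
      rw [IsTotallyComplex.finrank, Fintype.card_fin, h1]
      ring))
  obtain ⟨a, ha⟩ := fac Φ hs (ct f) (key.trans (sup_le (cB f m₀
    (((dvd_mul_right _ _).mul_left _).mul_left _) hf) ((Subgroup.closure_le _).2 (by
      rintro _ ⟨i, rfl⟩
      exact cE f _ (hu i)))))
  exact ⟨_, A, hA', fun w hw => ⟨un_out hζ hz hN hw (mem_ES.1 (up _) w hw), (lin a _).trans
    ((Finset.sum_congr rfl fun i _ => congrArg _ (cπ _ w hw).symm).trans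
      ((ha _).symm.trans (cπ f w hw)))⟩⟩

open Ideal in
/-- extension to the primes over two -/
theorem ext_two (j : K →+* Qb) {m : ℕ} (o : Odd m) (h : ∀ x : 𝓞 K, (m : 𝓞 K) ∣ x - 1 →
    span {x} ⊔ span {2} = ⊤ → ai f (span {x}) = 0) :
    ∃ f' : Pr K → ZMod N, Rc {2} f' ∧ ∀ v, 2 ∉ v.asIdeal → f' v = f v := by
  classical
  have c2 : IsCoprime (2 : 𝓞 K) m := by
    exact_mod_cast Nat.Coprime.cast (R := 𝓞 K) (Nat.coprime_two_left.2 o)
  have m0 : (m : 𝓞 K) ≠ 0 := Nat.cast_ne_zero.2 o.pos.ne'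
  -- a cofactor which is prime to `2`, with a generator which is one modulo `m`
  have co : ∀ I : Ideal (𝓞 K), I ≠ ⊥ → I ⊔ span {(m : 𝓞 K)} = ⊤ → ∃ (a : 𝓞 K) (C : Ideal (𝓞 K)),
      (m : 𝓞 K) ∣ a - 1 ∧ C ⊔ span {2} = ⊤ ∧ span {a} = I * C := fun I I0 hI => by
    obtain ⟨b, hb⟩ := IsDedekindDomain.exists_sup_span_eq (I := I * span {2}) (J := I)
      mul_le_left (mul_ne_zero I0 (by simp))
    obtain ⟨y, y1, z, z1, e⟩ := Submodule.mem_sup.1 ((eq_top_iff_one _).1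
      (isCoprime_iff_sup_eq.1 ((isCoprime_iff_sup_eq.2 hI).mul_left
        ((isCoprime_span_singleton_iff _ _).2 c2))))
    have bI : b ∈ I := hb.le (mem_sup_right (mem_span_singleton_self b))
    have e1 : I * span {2} ⊔ span {y + b * z} = I := by
      refine le_antisymm (sup_le mul_le_left ((span_singleton_le_iff_mem _).2
        (I.add_mem (mul_le_left y1) (I.mul_mem_right _ bI)))) (hb.ge.trans (sup_le le_sup_left
          ((span_singleton_le_iff_mem _).2 ?_)))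
      have := add_mem (mem_sup_left (mul_mem_left _ (b - 1) y1))
        (mem_sup_right (mem_span_singleton_self (y + b * z)))
      rwa [show (b - 1) * y + (y + b * z) = b by linear_combination b * e] at this
    obtain ⟨C, hC⟩ : I ∣ span {y + b * z} := dvd_iff_le.2 (le_sup_right.trans e1.le)
    refine ⟨y + b * z, C, ?_, ?_, hC⟩
    · rw [show y + b * z - 1 = (b - 1) * z by linear_combination e]
      exact (mem_span_singleton.1 z1).mul_left _
    · rw [hC, ← Ideal.mul_sup] at e1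
      rw [sup_comm, mul_left_cancel₀ I0 (e1.trans (mul_one I).symm), one_eq_top]
  have n0 : ∀ C : Ideal (𝓞 K), C ⊔ span {2} = ⊤ → C ≠ ⊥ := fun C k e => by
    rw [e, bot_sup_eq, span_singleton_eq_top] at k
    obtain ⟨P, hP⟩ := GW.Pl.ex_ov Nat.prime_two
    exact (H20.below_prime j hP.2.1).ne_top (eq_top_of_isUnit_mem _ (H20.l_mem_below j hP.2.2) k)
  choose! a C h1 h2 h3 using co
  -- the extended function on the ideals prime to `m`
  have key : ∀ I I' x, I ≠ ⊥ → I ⊔ span {(m : 𝓞 K)} = ⊤ → I' ⊔ span {2} = ⊤ →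
      (m : 𝓞 K) ∣ x - 1 → span {x} = I * I' → ai f I' = ai f (C I) := fun I I' x I0 hI k d e => by
    have c1 : C I ⊔ span {(m : 𝓞 K)} = ⊤ := top_unique ((eq_top_iff_one _).2 (by
      obtain ⟨r, hr⟩ := h1 I I0 hI
      rw [show (1 : 𝓞 K) = a I - m * r by linear_combination -hr]
      exact sub_mem (mem_sup_left (mul_le_right ((h3 I I0 hI).le (mem_span_singleton_self _))))
        (mem_sup_right (mul_mem_right _ _ (mem_span_singleton_self _))))).ge
    have c0 := n0 _ (h2 I I0 hI)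
    have a0 : a I ≠ 0 := fun k => mul_ne_zero I0 c0 ((h3 I I0 hI).symm.trans (by simp [k]))
    have e2 : span {x * a (C I)} = span {a I} * (I' * C (C I)) := by
      rw [← span_singleton_mul_span_singleton, e, h3 I I0 hI, h3 _ c0 c1]
      ring
    obtain ⟨u, hu⟩ := span_singleton_le_span_singleton.1 (e2.le.trans mul_le_left)
    rw [hu, ← span_singleton_mul_span_singleton] at e2
    replace e2 := mul_left_cancel₀ (by simpa using a0) e2
    have k1 := h u (by
      obtain ⟨r, hr⟩ := h1 I I0 hI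
      obtain ⟨s, hs⟩ := h1 _ c0 c1
      obtain ⟨t, ht⟩ := d
      exact ⟨t * a (C I) + s - r * u, by linear_combination -hu + a (C I) * ht + hs - u * hr⟩)
      (by
        rw [e2, ← isCoprime_iff_sup_eq]
        exact (isCoprime_iff_sup_eq.2 k).mul_left (isCoprime_iff_sup_eq.2 (h2 _ c0 c1)))
    have k2 := h _ (h1 _ c0 c1) (by
      rw [h3 _ c0 c1, ← isCoprime_iff_sup_eq]
      exact (isCoprime_iff_sup_eq.2 (h2 I I0 hI)).mul_left (isCoprime_iff_sup_eq.2 (h2 _ c0 c1)))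
    rw [e2, ai_mul (n0 _ k) (n0 _ (h2 _ c0 c1))] at k1
    rw [h3 _ c0 c1, ai_mul c0 (n0 _ (h2 _ c0 c1))] at k2
    exact add_right_cancel (k1.trans k2.symm)
  have ad : ∀ I I', I ≠ ⊥ → I' ≠ ⊥ → I ⊔ span {(m : 𝓞 K)} = ⊤ → I' ⊔ span {(m : 𝓞 K)} = ⊤ →
      -ai f (C (I * I')) = -ai f (C I) + -ai f (C I') := fun I I' a0 b0 a1 b1 => by
    rw [← neg_add, ← ai_mul (n0 _ (h2 I a0 a1)) (n0 _ (h2 I' b0 b1))]
    refine congrArg _ (key _ _ (a I * a I') (mul_ne_zero a0 b0) (isCoprime_iff_sup_eq.1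
      ((isCoprime_iff_sup_eq.2 a1).mul_left (isCoprime_iff_sup_eq.2 b1))) (isCoprime_iff_sup_eq.1
      ((isCoprime_iff_sup_eq.2 (h2 I a0 a1)).mul_left (isCoprime_iff_sup_eq.2 (h2 I' b0 b1))))
      ?_ ?_).symm
    · rw [show a I * a I' - 1 = (a I - 1) * a I' + (a I' - 1) by ring]
      exact dvd_add ((h1 I a0 a1).mul_right _) (h1 I' b0 b1)
    · rw [← span_singleton_mul_span_singleton, h3 I a0 a1, h3 I' b0 b1, mul_mul_mul_comm]
  refine ⟨fun v => if (m : 𝓞 K) ∈ v.asIdeal then f v else -ai f (C v.asIdeal), ⟨m, o.pos.ne',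
    fun l hl d k => ?_, fun x y e d => ?_⟩, fun v hv => ?_⟩
  · rw [Finset.mem_singleton.1 k] at d
    exact Nat.not_even_iff_odd.2 o (even_iff_two_dvd.2 d)
  · have y0 : span {y} ≠ ⊥ := fun k => x.ne_zero (by rw [e, span_singleton_eq_bot.1 k]; rfl)
    have y1 : span {y} ⊔ span {(m : 𝓞 K)} = ⊤ := by
      obtain ⟨r, hr⟩ := d
      exact (sup_eq_top_iff_isCoprime _ _).2 ⟨1, -r, by linear_combination hr⟩
    refine (ai_span e).trans ((ai_eq (ψ := fun I => -ai f (C I)) ad (fun v k => if_neg fun c =>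
      v.isPrime.ne_top (top_unique (k ▸ sup_le le_rfl ((span_singleton_le_iff_mem _).2 c))))
      _ y0 y1).trans ?_)
    rw [← key _ ⊤ y y0 y1 (top_sup_eq _) d (mul_top _).symm, ai_top, neg_zero]
    rfl
  · show ite _ _ _ = _
    split_ifs with k
    · rfl
    · have c : ∀ y : 𝓞 K, y ∉ v.asIdeal → v.asIdeal ⊔ span {y} = ⊤ := fun y k =>
        v.isMaximal.out.2 _ (left_lt_sup.2 (mt (span_singleton_le_iff_mem _).1 k))
      have := h _ (h1 _ v.ne_bot (c _ k)) (by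
        rw [h3 _ v.ne_bot (c _ k), ← isCoprime_iff_sup_eq]
        exact (isCoprime_iff_sup_eq.2 (c _ hv)).mul_left
          (isCoprime_iff_sup_eq.2 (h2 _ v.ne_bot (c _ k))))
      rw [h3 _ v.ne_bot (c _ k), ai_mul v.ne_bot (n0 _ (h2 _ v.ne_bot (c _ k))), ai_pr] at this
      exact neg_eq_of_add_eq_zero_left this

/-- cubic characters with an odd conductor are unramified at two -/
theorem unr_two {θ : GK j →* Multiplicative (ZMod 3)} (ho : IsOpen {g | θ g = 1})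
    {f : Pr K → ZMod 3} (hf : Rc {2} f) (h : Al ∅ fun v => (θ (fr j v)).toAdd = f v)
    {P : Ideal (𝓞 Qb)} (hP : Ov 2 P) {g : GK j} (hg : Inert P g) : θ g = 1 := by
  obtain ⟨ζ, hζ⟩ := HasEnoughRootsOfUnity.exists_primitiveRoot Qb 3
  obtain ⟨L, _, _, _, _, jL, ρ, D, hL, -⟩ := exists_fld j (GK j ⊓ MulAction.stabilizer GQ ζ)
    ((isOpen_GK j).inter (P022E.GW.Kc.stab_open ζ)) inf_le_left fun g hg u hu =>
      ⟨(GK j).mul_mem ((GK j).mul_mem hg hu.1) ((GK j).inv_mem hg), by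
        obtain ⟨e, -, he⟩ := hζ.eq_pow_of_pow_eq_one (ξ := g⁻¹ ζ)
          (by rw [← map_pow, hζ.pow_eq_one, map_one])
        show g (u (g⁻¹ ζ)) = ζ
        rw [← he, map_pow, show u ζ = ζ from hu.2, he]
        exact g.apply_symm_apply ζ⟩
  have hz : ∀ g : GK jL, g.1 ζ = ζ := fun g =>
    (show g.1 ∈ GK j ⊓ MulAction.stabilizer GQ ζ from hL ▸ g.2).2
  haveI : IsEmpty (L →+* ℝ) := ⟨fun φ => by
    obtain ⟨y, hy⟩ := fixed jL hz
    have : y ^ 2 + y + 1 = 0 := jL.injective (by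
      have := hζ.geom_sum_eq_zero (by norm_num)
      simp only [Finset.sum_range_succ, Finset.range_zero, Finset.sum_empty] at this
      rw [map_add, map_add, map_pow, hy, map_one, map_zero]
      linear_combination this)
    have := congrArg φ this
    rw [map_add, map_add, map_pow, map_one, map_zero] at this
    nlinarith [sq_nonneg (2 * φ y + 1)]⟩
  obtain ⟨b, hb⟩ := kum3 hζ hz (Q := {2}) (fun l hl d k => by
    rw [Finset.mem_singleton.1 k] at d
    omega) (hf.up (L := L))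
  let θ' : GK jL →* Multiplicative (ZMod 3) := θ.comp (Subgroup.inclusion (le_L D))
  have m : g.1 ∈ GK jL := hL ▸ ⟨g.2, (Al.Kn.fr_root (q := 1) hP.2.1 (fun k => absurd
    (GW.Pl.ov_uniq hP ⟨Nat.prime_three, hP.2.1, k⟩) (by norm_num)) hζ.pow_eq_one
    fun x => (pow_one x).symm ▸ hg x).trans (pow_one ζ)⟩
  have := triv (θ := θ' / ka hζ hz b) (Subgroup.isOpen_mono (H₁ := θ'.ker ⊓ (ka hζ hz b).ker)
    (H₂ := (θ' / ka hζ hz b).ker)
    (fun g a => by simp [show θ' g = 1 from a.1, show ka hζ hz b g = 1 from a.2])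
    ((ho.preimage (continuous_inclusion (le_L D))).inter (ka_open hζ hz b)))
    ((hb.weak.and (h.and (al_un ho)).up).mono fun w a => by
      rw [MonoidHom.div_apply, div_eq_one]
      refine (fr_up D a.2.2).trans (Multiplicative.toAdd.injective ?_)
      rw [a.1.2, toAdd_pow, a.2.1]) ⟨g, m⟩
  obtain ⟨A, hA, hb⟩ := hb
  rwa [MonoidHom.div_apply, un_of (fun l k => (hA l k).1) (fun v k => (hb v k).1)
    (fun k => (hA 2 k).2 (Finset.mem_singleton_self 2)) hP (g := ⟨g, m⟩) hg, div_one] at this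

theorem ram0 {θ : GQ → ℂ} {ψ : Ideal (𝓞 K) → ℂ}
    (mul : ∀ g ∈ GK j, ∀ h ∈ GK j, θ (g * h) = θ g * θ h) (pw : ∀ g ∈ GK j, θ g ^ 3 = 1)
    (opn : ∃ W : Subgroup GQ, IsOpen (W : Set GQ) ∧ ∀ g ∈ GK j, g ∈ W → θ g = 1)
    {P : Ideal (𝓞 Qb)} (hP : Ov 2 P) (hr : ∃ g ∈ GK j, Inert P g ∧ θ g ≠ 1) (p1 : ψ 1 = 1)
    (pm : ∀ I I', ψ (I * I') = ψ I * ψ I')
    (unr : ∀ l P, Ov l P → ¬ (∃ g ∈ GK j, Inert P g ∧ θ g ≠ 1) → ∀ g ∈ GK j,
      (∀ x : 𝓞 Qb, g • x - x ^ Ideal.absNorm (below j P) ∈ P) → ψ (below j P) = θ g)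
    {n : ℕ} (o : Odd n) : ∃ x : 𝓞 K,
      (n : 𝓞 K) ∣ x - 1 ∧ Ideal.span {x} ⊔ Ideal.span {2} = ⊤ ∧ ψ (Ideal.span {x}) ≠ 1 := by
  classical
  by_contra! H
  obtain ⟨g, g1, g2, g3⟩ := hr
  obtain ⟨W, hW, w1⟩ := opn
  have hω := Complex.isPrimitiveRoot_exp 3 three_ne_zero
  generalize Complex.exp _ = ω at hω
  have ad : ∀ a b : ZMod 3, ω ^ (a + b).val = ω ^ a.val * ω ^ b.val := fun a b => by
    rw [ZMod.val_add, ← pow_add]
    exact (pow_eq_pow_mod _ hω.pow_eq_one).symm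
  have inj : ∀ a b : ZMod 3, ω ^ a.val = ω ^ b.val → a = b := fun a b e =>
    ZMod.val_injective 3 (hω.pow_inj (ZMod.val_lt a) (ZMod.val_lt b) e)
  choose lg hlg using fun g : GK j => show ∃ a : ZMod 3, ω ^ a.val = θ g from
    (hω.eq_pow_of_pow_eq_one (pw g g.2)).elim fun i k => ⟨i, by rw [ZMod.val_natCast_of_lt k.1, k.2]⟩
  let θ' : GK j →* Multiplicative (ZMod 3) := MonoidHom.mk' (fun g => .ofAdd (lg g)) fun a b =>
    inj (lg _) (lg a + lg b) (by rw [ad, hlg, hlg, hlg]; exact mul _ a.2 _ b.2)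
  have t1 : ∀ g : GK j, θ' g = 1 ↔ θ g = 1 := fun g =>
    ⟨fun e => by rw [← hlg, show lg g = 0 from e]; simp, fun e => inj (lg g) 0 (by simp [hlg, e])⟩
  have ho : IsOpen {g | θ' g = 1} := Subgroup.isOpen_mono (H₁ := W.subgroupOf (GK j))
    (H₂ := θ'.ker) (fun g a => (t1 g).2 (w1 g g.2 a)) (hW.preimage continuous_subtype_val)
  obtain ⟨R, r1, r2⟩ := P022E.GW.Hy.ex_ram hW
  have od : Odd (n * ∏ l ∈ R.erase 2, l) := o.mul (Finset.prod_induction _ Odd (fun _ _ => Odd.mul)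
    odd_one fun l hl => (r1 l (Finset.mem_of_mem_erase hl)).odd_of_ne_two (Finset.ne_of_mem_erase hl))
  obtain ⟨f, f1, f2⟩ := ext_two j (f := fun v => lg (fr j v)) od fun x a b => by
    have x0 : Ideal.span {x} ≠ ⊥ := fun e => by
      rw [e, bot_sup_eq, Ideal.span_singleton_eq_top] at b
      exact (H20.below_prime j hP.2.1).ne_top
        (Ideal.eq_top_of_isUnit_mem _ (H20.l_mem_below j hP.2.2) b)
    have k : ∀ I : Ideal (𝓞 K), I ≠ ⊥ → x ∈ I → ω ^ (ai (fun v => lg (fr j v)) I).val = ψ I :=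
      fun I => UniqueFactorizationMonoid.induction_on_prime I (fun k => absurd rfl k)
        (fun I k _ _ => by rw [Ideal.isUnit_iff.1 k, ai_top, ← Ideal.one_eq_top, p1]; simp)
        fun I p I0 hp ih _ m => by
          let v : Pr K := ⟨p, Ideal.isPrime_of_prime hp, hp.ne_zero⟩
          obtain ⟨P, p1, p2, p3⟩ := fr_spec (j := j) v
          obtain ⟨l, hl, lv⟩ := prime_mem v
          have xv : x ∈ v.asIdeal := Ideal.mul_le_left m
          have ov : Ov l P := ⟨hl, p1, (nat_mem j p2 l).1 lv⟩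
          rw [ai_mul hp.ne_zero I0, ad, ih I0 (Ideal.mul_le_right m), pm, ai_pr v, hlg,
            ← unr l P ov (fun ⟨g, a1, a2, a3⟩ => a3 (w1 g a1 (r2 l (fun c => ?_) P ov g a2))) _
              (fr j v).2 (p2 ▸ p3), p2]
          by_cases e : l = 2
          · exact v.isPrime.ne_top (top_unique (b ▸ sup_le ((Ideal.span_singleton_le_iff_mem _).2 xv)
              ((Ideal.span_singleton_le_iff_mem _).2 (by simpa [e] using lv))))
          · exact v.isPrime.one_notMem (by simpa using v.asIdeal.sub_mem xv (v.asIdeal.mem_of_dvd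
              ((Nat.cast_dvd_cast ((Finset.dvd_prod_of_mem _
                (Finset.mem_erase.2 ⟨e, c⟩)).mul_left n)).trans a) lv))
    exact inj _ 0 (by
      rw [k _ x0 (Ideal.mem_span_singleton_self x),
        H x ((Nat.cast_dvd_cast (dvd_mul_right _ _)).trans a) b]; simp)
  exact g3 ((t1 ⟨g, g1⟩).1 (unr_two ho f1 ⟨{2}, by simp [Nat.prime_two], fun v k =>
    (f2 v fun c => k ⟨2, Finset.mem_singleton_self 2, two_ne_zero, c⟩).symm⟩ hP g2))

end Vale.Agent.P004C.Tp.R2
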