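import Vale.Agent.P004C.Tp.St
import Vale.Agent.P004C.Tp.Rm2a

/-!
# P004 C, block TOP: row RAM
-/

namespace Vale.Agent.P004C.Tp.R2

/-- **ramification at two is visible on the units** -/
theorem ram2 : RAM := fun _ _ _ _ _ _ _ G R I _ o =>
  (P022K.GW.Pl.ex_ov Nat.prime_two).elim fun P hP =>
    ram0 G.mul G.pow G.opn hP (R P hP) I.cm.one I.cm.mul I.unr o

end Vale.Agent.P004C.Tp.R2
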