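import Vale.Agent.P004C.Al.St2
import Vale.Agent.P004C.Al.Ic0
import Vale.Agent.P004C.Al.Smx
import Vale.Agent.P004C.Ln.St

/-!
# P004 C, top: base change of the primitive characters on ideals
-/

set_option linter.all false

open NumberField IsDedekindDomain
open scoped Classical

noncomputable section

namespace Vale.Agent.P004C.Tp.Bc

open Vale.Agent.P022 Vale.Agent.P022K
open Vale.Agent.P027M.S (Inert)
open Vale.Agent.P027M.M (ze)
open Vale.Agent.P022E.GW (Ov Fb)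
open Vale.Agent.P004K (RC2 Iq Cop Ar Hc)
open Al Al.Rc
open Ln (Xi Cr)

variable {K M : Type} [Field K] [NumberField K] [Field M] [NumberField M] {j : K →+* Qb}
  {jM : M →+* Qb} {θ : GQ → ℂ} {n : ℕ} {g : GQ} {P : Ideal (𝓞 Qb)} {Γ : Subgroup GQ}

/-- multiplicative without zeros on a subgroup -/
structure Mc (Γ : Subgroup GQ) (θ : GQ → ℂ) : Prop where
  mul : ∀ g ∈ Γ, ∀ h ∈ Γ, θ (g * h) = θ g * θ h
  ne : ∀ g ∈ Γ, θ g ≠ 0

theorem Mc.of (G : Gc j θ n) : Mc (GK j) θ := ⟨G.mul, fun g m e => by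
  simpa [e, G.pos.ne'] using G.pow g m⟩

theorem Mc.one (G : Mc Γ θ) : θ 1 = 1 := mul_left_cancel₀ (G.ne 1 (one_mem _)) (by
  rw [← G.mul 1 (one_mem _) 1 (one_mem _), mul_one, mul_one])

theorem Mc.pw (G : Mc Γ θ) (m : g ∈ Γ) (f : ℕ) : θ (g ^ f) = θ g ^ f := by
  induction f with
  | zero => rw [pow_zero, pow_zero, G.one]
  | succ f h => rw [pow_succ, pow_succ, G.mul _ (pow_mem m f) _ m, h]

theorem Mc.mono (G : Mc Γ θ) {Γ' : Subgroup GQ} (h : Γ' ≤ Γ) : Mc Γ' θ :=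
  ⟨fun a ha b hb => G.mul a (h ha) b (h hb), fun a ha => G.ne a (h ha)⟩

/-- an element which acts as a power of the Frobenius -/
theorem Mc.fr (G : Mc Γ θ) (hP : P.IsPrime) (u : ∀ t ∈ Γ, Inert P t → θ t = 1) {q f : ℕ}
    (q0 : q ≠ 0) {g' : GQ} (m : g ∈ Γ) (m' : g' ∈ Γ) (h : ∀ x : 𝓞 Qb, g • x - x ^ q ∈ P)
    (h' : ∀ x : 𝓞 Qb, g' • x - x ^ q ^ f ∈ P) : θ g' = θ g ^ f := by
  have k : g' * (g ^ f)⁻¹ ∈ Γ := mul_mem m' (inv_mem (pow_mem m f))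
  have e : θ (g' * (g ^ f)⁻¹) = 1 := u _ k fun x => by
    obtain ⟨y, rfl⟩ : ∃ y : 𝓞 Qb, x = (g ^ f) • y := ⟨(g ^ f)⁻¹ • x, by rw [smul_inv_smul]⟩
    have := P.sub_mem (h' y) (GW.Pl.pw (GW.Pl.fr_dec hP q0 h) h f y)
    rw [sub_sub_sub_cancel_right] at this
    rwa [mul_smul, inv_smul_smul]
  rw [← G.pw m, ← one_mul (θ (g ^ f)), ← e, ← G.mul _ k _ (pow_mem m f), inv_mul_cancel_right]

theorem un_of (u : ¬ Rm j θ P) (t : GQ) (m : t ∈ GK j) (i : Inert P t) : θ t = 1 :=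
  by_contra fun e => u ⟨t, m, i, e⟩

/-- roots of unity raised to an additive character -/
theorem mc_pow {N : ℕ} [NeZero N] {e : GQ → ZMod N} {ζ : ℂ} (hζ : ζ ^ N = 1)
    (add : ∀ g ∈ Γ, ∀ h ∈ Γ, e (g * h) = e g + e h) : Mc Γ fun g => ζ ^ (e g).val :=
  ⟨fun g m h m' => by rw [add g m h m', ZMod.val_add, ← pow_eq_pow_mod _ hζ, pow_add],
    fun g _ => pow_ne_zero _ fun z => by simp [z, NeZero.ne N] at hζ⟩

theorem ze_nat (N a : ℕ) : ze N a = ze N 1 ^ a := by rw [P027M.M.ze_zpow, zpow_natCast]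

theorem ex_fb (j : K →+* Qb) {l : ℕ} (h : Ov l P) :
    ∃ g ∈ GK j, ∀ x : 𝓞 Qb, g • x - x ^ Ideal.absNorm (below j P) ∈ P :=
  let ⟨g, hg⟩ := H916.exists_frob j h.2.1 h.1 h.2.2
  ⟨g, g.2, hg⟩

theorem ex_pl (j : K →+* Qb) (w : HeightOneSpectrum (𝓞 K)) :
    ∃ l P, Ov l P ∧ below j P = w.asIdeal := by
  obtain ⟨P, hP, e⟩ := H916.exists_above j w.asIdeal w.isPrime
  obtain ⟨l, hl, m⟩ := H565.exists_prime_mem w
  exact ⟨l, P, ⟨hl, hP, (H651.natCast_mem_below j).1 (e ▸ m)⟩, e⟩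

theorem nm_ne (w : HeightOneSpectrum (𝓞 K)) : Ideal.absNorm w.asIdeal ≠ 0 :=
  Ideal.absNorm_eq_zero_iff.not.2 w.ne_bot

theorem cm_rel [Algebra K M] {a : Ideal (𝓞 K) → ℂ} (h : Cm a) :
    Cm fun I : Ideal (𝓞 M) => a (Ideal.relNorm (𝓞 K) I) :=
  ⟨by rw [map_one, h.one], fun I J => by rw [map_mul, h.mul]⟩

/-- **base change** -/
theorem bc [Algebra K M] (e : ∀ x, jM (algebraMap K M x) = j x) (G : Mc (GK j) θ) {χ χ'} (h : Ic j θ χ)
    (h' : Ic jM θ χ') (r : ∀ l P, Ov l P → Rm j θ P → Rm jM θ P) (I : Ideal (𝓞 M)) :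
    χ' I = χ (Ideal.relNorm (𝓞 K) I) := by
  by_cases b : I = ⊥
  · rw [b, h'.bot, Ideal.relNorm_bot, h.bot]
  refine cm_ext h'.cm (cm_rel h.cm) b fun w _ => ?_
  obtain ⟨l, P, ho, hb⟩ := ex_pl jM w
  have hv : below j P = (dw K w).asIdeal := by rw [below_dw e, hb, dw_eq]
  have a := abs_pr (M := K) w
  show _ = χ _
  rw [rel_pr, h.cm.pow, ← hv, ← hb]
  rw [← hv, ← hb] at a
  have a0 : Ideal.absNorm (below j P) ≠ 0 := hv ▸ nm_ne _
  by_cases u : Rm j θ P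
  · rw [h'.ram l P ho (r l P ho u), h.ram l P ho u, zero_pow]
    intro z
    rw [z, pow_zero, Ideal.absNorm_eq_one_iff, hb] at a
    exact w.isPrime.ne_top a
  · obtain ⟨g, m, f⟩ := ex_fb j ho
    obtain ⟨g', m', f'⟩ := ex_fb jM ho
    rw [h'.unr l P ho (fun ⟨t, a, b⟩ => u ⟨t, gk_le e a, b⟩) g' m' f', h.unr l P ho u g m f]
    exact G.fr ho.2.1 (un_of u) a0 m (gk_le e m') f (a ▸ f')

/-- uniqueness -/
theorem ic_eq {χ χ'} (h : Ic j θ χ) (h' : Ic j θ χ') (I : Ideal (𝓞 K)) : χ I = χ' I := by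
  by_cases b : I = ⊥
  · rw [b, h'.bot, h.bot]
  refine cm_ext h.cm h'.cm b fun w _ => ?_
  obtain ⟨l, P, ho, hb⟩ := ex_pl j w
  rw [← hb]
  by_cases u : Rm j θ P
  · rw [h'.ram l P ho u, h.ram l P ho u]
  · obtain ⟨g, m, f⟩ := ex_fb j ho
    rw [h'.unr l P ho u g m f, h.unr l P ho u g m f]

/-- only the values on the group matter -/
theorem ic_congr {χ} {θ' : GQ → ℂ} (h : Ic j θ χ) (e : ∀ g ∈ GK j, θ g = θ' g) : Ic j θ' χ := by
  have r : ∀ P, Rm j θ' P ↔ Rm j θ P := fun P =>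
    exists_congr fun g => and_congr_right fun m => by rw [e g m]
  exact ⟨h.cm, h.bot, fun l P o u => h.ram l P o ((r P).1 u),
    fun l P o u g m f => e g m ▸ h.unr l P o (mt (r P).2 u) g m f⟩

/-- powers -/
theorem ic_pow {χ} (h : Ic j θ χ) {i : ℕ} (i0 : i ≠ 0) (hi : ∀ g ∈ GK j, θ g ^ i = 1 → θ g = 1) :
    Ic j (fun g => θ g ^ i) fun I => χ I ^ i := by
  have r : ∀ P, Rm j (fun g => θ g ^ i) P ↔ Rm j θ P := fun P =>
    exists_congr fun g => and_congr_right fun m => and_congr_right fun _ =>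
      not_congr ⟨hi g m, fun e => by simp only [e, one_pow]⟩
  exact ⟨⟨by simp only [h.cm.one, one_pow], fun I J => by simp only [h.cm.mul, mul_pow]⟩,
    by simp only [h.bot, zero_pow i0],
    fun l P o u => by simp only [h.ram l P o ((r P).1 u), zero_pow i0],
    fun l P o u g m f => by simp only [h.unr l P o (mt (r P).2 u) g m f]⟩

theorem cop_mul {O : Type} [CommRing O] [IsDomain O] {c : ℕ} {I J : Ideal O} :
    Cop c (I * J) ↔ Cop c I ∧ Cop c J := by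
  simp only [Cop, ← Ideal.isCoprime_iff_sup_eq, IsCoprime.mul_left_iff, Ne, Ideal.mul_eq_bot, not_or]
  tauto

theorem cop_below {c l : ℕ} (h : Ov l P) : Cop c (below j P) ↔ ¬ l ∣ c := by
  have p := P004R.Gl.below_pr j h.2.1
  have m : (l : 𝓞 K) ∈ below j P := (H651.natCast_mem_below j).2 h.2.2
  have z : below j P ≠ ⊥ := fun e => h.1.ne_zero (by simpa [e] using m)
  refine ⟨fun k ⟨d, e⟩ => p.ne_top ?_, fun k => ⟨z, ?_⟩⟩
  · rw [← k.2, left_eq_sup, Ideal.span_singleton_le_iff_mem, e, Nat.cast_mul]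
    exact Ideal.mul_mem_right _ _ m
  · obtain ⟨a, b, e⟩ := ((h.1.coprime_iff_not_dvd).2 k).cast (R := 𝓞 K)
    rw [Ideal.eq_top_iff_one, ← e]
    exact add_mem (Ideal.mem_sup_left (Ideal.mul_mem_left _ _ m))
      (Ideal.mem_sup_right (Ideal.mul_mem_left _ _ (Ideal.mem_span_singleton_self _)))

/-- **the ring class character is the primitive character** -/
theorem xi_ic (r2 : RC2) (q : Iq K) {c : ℕ} (hc : 0 < c) {χ : GQ → ℕ} {ζ : ℂ} {ξ}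
    (G : Mc (GK j) fun g => ζ ^ χ g) (ker : ∀ g ∈ Hc j c, ζ ^ χ g = 1)
    (ram : ∀ l P, Ov l P → l ∣ c → Rm j (fun g => ζ ^ χ g) P) (h : Xi j c χ ζ ξ) :
    Ic j (fun g => ζ ^ χ g) ξ := by
  obtain ⟨a1, -, a3, -, a5, -, a7⟩ := r2 K j q c hc
  have ar : ∀ l P, Ov l P → ¬ l ∣ c → ∀ g ∈ GK j, ∀ k : ℕ, (∀ x : 𝓞 Qb,
      g • x - x ^ Ideal.absNorm (below j P) ^ k ∈ P) → Ar j c (below j P ^ k) g :=
    fun l P o d => a7 P o.2.1 (fun e => o.1.ne_zero (by simpa [e] using o.2.2))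
      fun m => d (by exact_mod_cast P004S.ov_dvd o (a := c) (by exact_mod_cast m))
  have t : Cop c (⊤ : Ideal (𝓞 K)) := ⟨top_ne_bot, top_sup_eq _⟩
  have k1 : ∀ g, Ar j c ⊤ g → ζ ^ χ g = 1 := fun g a => ker g ((a5 _ g t a).2 ⟨1, 0, by simp⟩)
  refine ⟨⟨?_, fun I J => ?_⟩, h.2 _ fun k => k.1 rfl, fun l P o u => h.2 _ fun k => ?_,
    fun l P o u g m f => ?_⟩
  · obtain ⟨g, a⟩ := a1 _ t
    rw [Ideal.one_eq_top, h.1 _ g t a, k1 g a]
  · by_cases k : Cop c (I * J)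
    · obtain ⟨k1, k2⟩ := cop_mul.1 k
      obtain ⟨g, a⟩ := a1 _ k1
      obtain ⟨g', a'⟩ := a1 _ k2
      rw [h.1 _ _ k (a3 _ _ _ _ k1 k2 a a'), h.1 _ _ k1 a, h.1 _ _ k2 a']
      exact G.mul g a.1 g' a'.1
    · rw [h.2 _ k]
      rcases not_and_or.1 (cop_mul.not.1 k) with z | z <;> simp only [h.2 _ z, zero_mul, mul_zero]
  · obtain ⟨g, m, i, e⟩ := u
    have a := ar l P o ((cop_below o).1 k) g m 0 fun x => by rw [pow_zero, pow_one]; exact i x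
    rw [pow_zero, Ideal.one_eq_top] at a
    exact e (k1 g a)
  · have d : ¬ l ∣ c := fun d => u (ram l P o d)
    have a := ar l P o d g m 1 (by rwa [pow_one])
    rw [pow_one] at a
    exact h.1 _ g ((cop_below o).2 d) a

theorem nm_below (j : K →+* Qb) {l : ℕ} (h : Ov l P) :
    ∃ f, f ≠ 0 ∧ Ideal.absNorm (below j P) = l ^ f := by
  obtain ⟨f, -, hf⟩ := (Nat.dvd_prime_pow h.1).1
    (show Ideal.absNorm (below j P) ∣ l ^ Module.finrank ℤ (𝓞 K) by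
      rw [← Ideal.absNorm_span_natCast]
      exact Ideal.absNorm_dvd_absNorm_of_le ((Ideal.span_singleton_le_iff_mem _).2
        ((H651.natCast_mem_below j).2 h.2.2)))
  refine ⟨f, fun z => (P004R.Gl.below_pr j h.2.1).ne_top ?_, hf⟩
  rwa [z, pow_zero, Ideal.absNorm_eq_one_iff] at hf

theorem cr_pow {f : ℕ} {ψ : ℤ → ℂ} (C : Cr f ψ) (a : ℤ) (k : ℕ) : ψ (a ^ k) = ψ a ^ k := by
  induction k with
  | zero => rw [pow_zero, pow_zero, C.one]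
  | succ k h => rw [pow_succ, pow_succ, C.mul, h]

/-- **Dirichlet characters** -/
theorem dir_ic {f : ℕ} {ψ : ℤ → ℂ} (hf : 1 < f) (C : Cr f ψ) (G : Mc ⊤ θ)
    (unr : ∀ l P, Ov l P → ¬ l ∣ f → ∀ g, Inert P g → θ g = 1)
    (fr : ∀ l P φ, Ov l P → ¬ l ∣ f → Fb l P φ → ψ l = θ φ)
    (ram : ∀ l P, Ov l P → l ∣ f → Rm j θ P) : Ic j θ fun I => ψ (Ideal.absNorm I) := by
  refine ⟨⟨by simp only [map_one, Nat.cast_one, C.one], fun I J => by
    simp only [map_mul, Nat.cast_mul, C.mul]⟩, ?_, fun l P o ⟨t, _, i, e⟩ => ?_,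
    fun l P o u g _ a => ?_⟩
  · refine (C.zero _).2 fun k => hf.ne' ?_
    simpa [isCoprime_zero_left, Int.isUnit_iff_natAbs_eq] using k
  · obtain ⟨k, k0, hk⟩ := nm_below j o
    have d : l ∣ f := by_contra fun d => e (unr l P o d t i)
    show ψ _ = 0
    rw [hk, Nat.cast_pow, cr_pow C, (C.zero _).2 fun c => o.1.ne_one
      ((Nat.isCoprime_iff_coprime.1 c).eq_one_of_dvd d), zero_pow k0]
  · obtain ⟨k, k0, hk⟩ := nm_below j o
    have d : ¬ l ∣ f := fun d => u (ram l P o d)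
    obtain ⟨φ, hφ⟩ : ∃ φ, Fb l P φ := P022D.W.exists_phi o.1 o.2.1 o.2.2
    show ψ _ = _
    rw [hk, Nat.cast_pow, cr_pow C, fr l P φ o d hφ]
    exact (G.fr o.2.1 (fun t _ => unr l P o d t) o.1.ne_zero trivial trivial hφ (hk ▸ a)).symm

/-- **the characters of a layer** -/
theorem bch_xi [Algebra K M] (r2 : RC2) (q : Iq K) (em : ∀ x, jM (algebraMap K M x) = j x)
    {c k : ℕ} {e : GQ → ZMod (2 * 2 ^ k)} (L : Lw j c k e) (ker : ∀ g ∈ Hc j c, e g = 0)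
    (ur : ∀ l P, Ov l P → l ∣ c → ∀ g ∈ GK j, Inert P g → g ∈ GK jM) {χ ξ} {i : ℕ}
    (h : Ic jM (fun g => ze (2 * 2 ^ k) (e g).val) χ)
    (x : Xi j c (fun g => (e g).val) (ze (2 * 2 ^ k) (2 * i + 1 : ℕ)) ξ) (I : Ideal (𝓞 M)) :
    χ I ^ (2 * i + 1) = ξ (Ideal.relNorm (𝓞 K) I) := by
  have p := P027M.M.ze_prim (N := 2 * 2 ^ k) (by positivity)
  have co : (2 * i + 1).Coprime (2 * 2 ^ k) := by
    rw [← pow_succ']
    exact (Nat.coprime_two_right.2 (odd_two_mul_add_one i)).pow_right _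
  have p' := p.pow_of_coprime _ co
  rw [ze_nat] at x
  set ζ := ze (2 * 2 ^ k) 1 ^ (2 * i + 1) with hζ
  have G := mc_pow p'.pow_eq_one L.add
  have rm : ∀ l P, Ov l P → l ∣ c → ∃ t ∈ GK j, Inert P t ∧ ζ ^ (e t).val ≠ 1 := fun l P o d => by
    obtain ⟨t, m, i, a⟩ := L.ram l P o d
    have : Fact (1 < 2 * 2 ^ k) := ⟨by have := Nat.one_le_two_pow (n := k); omega⟩
    exact ⟨t, m, i, by rw [a, ZMod.val_one, pow_one]; exact p'.ne_one this.1⟩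
  refine bc em G (xi_ic r2 q (zero_lt_one.trans L.one) G (fun g m => by
    rw [ker g m, ZMod.val_zero, pow_zero]) rm x) (ic_congr (ic_pow h (2 * i).succ_ne_zero fun g _ z => ?_)
      fun g _ => by rw [ze_nat, pow_right_comm]) (fun l P o ⟨t, m, a, b⟩ => ⟨t, ur l P o ?_ t m a, a, b⟩) I
  · rw [ze_nat] at z ⊢
    rw [← pow_mul, p.pow_eq_one_iff_dvd] at z
    exact (p.pow_eq_one_iff_dvd _).2 (co.symm.dvd_of_dvd_mul_right z)
  · by_contra d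
    exact b (by simp only [L.unr l P o d t m a, ZMod.val_zero, pow_zero])

theorem mc_cub {e : GQ → ZMod 3} (add : ∀ g ∈ Γ, ∀ h ∈ Γ, e (g * h) = e g + e h) :
    Mc Γ fun g => ze 3 (e g).val := by
  simp only [ze_nat]
  exact mc_pow (P027M.M.ze_prim (N := 3) (by norm_num)).pow_eq_one add

theorem ze3 (a : ZMod 3) : ze 3 a.val = 1 ↔ a = 0 := by
  rw [ze_nat, (P027M.M.ze_prim (N := 3) (by norm_num)).pow_eq_one_iff_dvd]
  revert a
  decide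

theorem rm_cub {e : GQ → ZMod 3} (add : ∀ g ∈ Γ, ∀ h ∈ Γ, e (g * h) = e g + e h) {t : GQ}
    (m : t ∈ Γ) (sq : t * t ∈ GK jM) (i : Inert P t) (a : ze 3 (e t).val ≠ 1) :
    Rm jM (fun g => ze 3 (e g).val) P :=
  ⟨t * t, sq, (H443.inP P).mul_mem i i, by
    rw [Ne, ze3] at a ⊢
    rw [add t m t m]
    revert a
    generalize e t = z
    revert z
    decide⟩

/-- **the cubic character** -/
theorem bch_cub [Algebra K M] (em : ∀ x, jM (algebraMap K M x) = j x) {e : GQ → ZMod 3}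
    (add : ∀ g ∈ GK j, ∀ h ∈ GK j, e (g * h) = e g + e h) (sq : ∀ g ∈ GK j, g * g ∈ GK jM) {ψ ψ'}
    (h : Ic j (fun g => ze 3 (e g).val) ψ) (h' : Ic jM (fun g => ze 3 (e g).val) ψ')
    (I : Ideal (𝓞 M)) : ψ' I = ψ (Ideal.relNorm (𝓞 K) I) :=
  bc em (mc_cub add) h h' (fun _ _ _ ⟨t, m, i, a⟩ => rm_cub add m (sq t m) i a) I

/-- the cyclic case -/
theorem bch_dir {f : ℕ} {ψ : ℤ → ℂ} (hf : 1 < f) (C : Cr f ψ) {e : GQ → ZMod 3}
    (add : ∀ g h, e (g * h) = e g + e h) (sq : ∀ g, g * g ∈ GK j)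
    (ram : ∀ l P, Ov l P → (l ∣ f ↔ ∃ g, Inert P g ∧ e g ≠ 0))
    (fr : ∀ l P φ, Ov l P → ¬ l ∣ f → Fb l P φ → ψ l = ze 3 (e φ).val) {ψ'}
    (h : Ic j (fun g => ze 3 (e g).val) ψ') (I : Ideal (𝓞 K)) : ψ' I = ψ (Ideal.absNorm I) :=
  ic_eq h (dir_ic hf C (mc_cub fun g _ h _ => add g h)
    (fun l P o d g i => (ze3 _).2 (by_contra fun z => d ((ram l P o).2 ⟨g, i, z⟩))) fr
    fun l P o d => let ⟨t, i, a⟩ := (ram l P o).1 d
      rm_cub (Γ := ⊤) (fun g _ h _ => add g h) trivial (sq t) i (mt (ze3 _).1 a)) I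

end Vale.Agent.P004C.Tp.Bc
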