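import Vale.Agent.P004C.Tp.Prim
import Vale.Agent.P022K.Cheb.Main

/-!
# P004 C, top: the cyclic case
-/

set_option linter.all false

open NumberField Module
open scoped Classical ComplexConjugate Pointwise

noncomputable section

namespace Vale.Agent.P004C.Tp.D2

open Vale.Agent.P022 Vale.Agent.P022K
open Vale.Agent.P027M.S (Inert)
open Vale.Agent.P022E.GW (Ov Fb)
open P004F (M2)
open Al Al.Rc
open Wa (RC Pm)
open Ln (HEX Cr Cp)

theorem sur (x : 𝓞 ℚ) : ∃ k : ℤ, x = k :=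
  ⟨Rat.ringOfIntegersEquiv x, Rat.ringOfIntegersEquiv.injective (by simp)⟩

theorem nm (n : ℕ) : Ideal.absNorm (Ideal.span {(n : 𝓞 ℚ)}) = n := by
  rw [Ideal.absNorm_span_natCast, RingOfIntegers.rank, Module.finrank_self, pow_one]

theorem gen (I : Ideal (𝓞 ℚ)) : ∃ n : ℕ, I = Ideal.span {(n : 𝓞 ℚ)} := by
  have : IsPrincipalIdealRing (𝓞 ℚ) := .of_surjective _ Rat.ringOfIntegersEquiv.symm.surjective
  obtain ⟨x, rfl⟩ := (IsPrincipalIdealRing.principal I).principal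
  obtain ⟨k, rfl⟩ := sur x
  obtain ⟨n, rfl | rfl⟩ := k.eq_nat_or_neg
  · exact ⟨n, by simp⟩
  · exact ⟨n, by simp [Ideal.span_singleton_neg]⟩

theorem dv {a b : ℤ} : (a : 𝓞 ℚ) ∣ b ↔ a ∣ b := by
  rw [← map_dvd_iff Rat.ringOfIntegersEquiv, map_intCast, map_intCast, Int.cast_id, Int.cast_id]

theorem cp {a b : ℤ} : Ideal.span {(a : 𝓞 ℚ)} ⊔ Ideal.span {(b : 𝓞 ℚ)} = ⊤ ↔ IsCoprime a b := by
  rw [← Ideal.isCoprime_iff_sup_eq, Ideal.isCoprime_span_singleton_iff]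
  exact ⟨fun h => by simpa using h.map Rat.ringOfIntegersEquiv.toRingHom,
    fun h => by simpa using h.map (Int.castRingHom (𝓞 ℚ))⟩

theorem bl_eq {l : ℕ} {P : Ideal (𝓞 Qb)} (o : Ov l P) :
    below (algebraMap ℚ Qb) P = Ideal.span {(l : 𝓞 ℚ)} := by
  obtain ⟨n, e⟩ := gen (below (algebraMap ℚ Qb) P)
  have a : l ∣ n := (nat_mem (j := algebraMap ℚ Qb) o).1 (by
    rw [e]
    exact Ideal.mem_span_singleton_self _)
  have b := (nat_mem (j := algebraMap ℚ Qb) o).2 dvd_rfl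
  rw [e, Ideal.mem_span_singleton, ← Int.cast_natCast, ← Int.cast_natCast (R := 𝓞 ℚ) l, dv,
    Int.natCast_dvd_natCast] at b
  rw [e, Nat.dvd_antisymm b a]

theorem cr {n : ℕ} (n1 : 1 < n) {ψ : Ideal (𝓞 ℚ) → ℂ}
    (r : RC (fun _ => 1) (Ideal.span {(n : 𝓞 ℚ)}) ψ) :
    Cr n fun d => ψ (Ideal.span {(d : 𝓞 ℚ)}) := by
  have mul : ∀ a b : ℤ, ψ (Ideal.span {((a * b : ℤ) : 𝓞 ℚ)}) =
      ψ (Ideal.span {(a : 𝓞 ℚ)}) * ψ (Ideal.span {(b : 𝓞 ℚ)}) := fun a b => by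
    rw [← r.mul, Ideal.span_singleton_mul_span_singleton, Int.cast_mul]
  have zero : ∀ a : ℤ, ψ (Ideal.span {(a : 𝓞 ℚ)}) = 0 ↔ ¬ IsCoprime a (n : ℤ) := fun a => by
    rw [r.zero, ← Int.cast_natCast, Ne, cp, or_iff_right_iff_imp, Ideal.span_singleton_eq_bot,
      Int.cast_eq_zero]
    rintro rfl c
    rw [isCoprime_zero_left, Int.isUnit_iff] at c
    omega
  have one : ∀ a : ℤ, (n : ℤ) ∣ a - 1 → ψ (Ideal.span {(a : 𝓞 ℚ)}) = 1 := fun a h =>
    r.prn _ (Int.cast_ne_zero.2 fun z => by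
      rw [z, zero_sub, dvd_neg, ← isUnit_iff_dvd_one, Int.isUnit_iff] at h
      omega) (Ideal.mem_span_singleton.2 (by simpa using dv.2 h))
  refine ⟨one 1 (by simp), mul, fun a b ⟨k, h⟩ => ?_, zero⟩
  obtain rfl : a = b + n * k := by rw [← h]; ring
  by_cases c : IsCoprime b (n : ℤ)
  · obtain ⟨u, v, e⟩ := c
    have h1 := one (u * b) ⟨-v, by rw [← e]; ring⟩
    have h2 := one (u * (b + n * k)) ⟨u * k - v, by rw [← e]; ring⟩
    rw [mul] at h1 h2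
    exact mul_left_cancel₀ (left_ne_zero_of_mul_eq_one h1) (h2.trans h1.symm)
  · show ψ _ = ψ _
    rw [(zero b).2 c, (zero _).2 fun z => c (IsCoprime.of_add_mul_left_left z)]

theorem tr1 : ∀ a : M2 (ZMod 2), a ^ 3 = 1 → a ≠ 1 → a.trace = 1 := by decide +kernel

/-- **the cyclic case** -/
theorem dic2 (hX : HEX) (hR : RAM) : DIC := fun ρ S e₃ R E h3 => by
  have add : ∀ g h, e₃ (g * h) = e₃ g + e₃ h := fun g h => E.add g h (h3 g) (h3 h)
  have t1 : ∀ g, t3 e₃ g = 1 ↔ ρ g = 1 := fun g => (Bc.ze3 _).trans (E.ker g (h3 g))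
  have all : ∀ g : GQ, g ∈ GK (algebraMap ℚ Qb) := fun g x => g.commutes x
  have mc : Bc.Mc ⊤ (t3 e₃) := Bc.mc_cub fun g _ h _ => add g h
  have p3 : ∀ g, t3 e₃ g ^ 3 = 1 := fun g => by
    rw [t3, Bc.ze_nat, pow_right_comm, (P027M.M.ze_prim three_pos).pow_eq_one, one_pow]
  obtain ⟨W, oW, hW⟩ := R.opn
  have G : Gc (algebraMap ℚ Qb) (t3 e₃) 3 := ⟨fun g _ h _ => mc.mul g trivial h trivial, three_pos,
    fun g _ => p3 g, W, oW, fun g _ m => (t1 g).2 (hW g m)⟩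
  have hS : ∀ l P, Ov l P → Rm (algebraMap ℚ Qb) (t3 e₃) P → l ∈ S := fun l P o ⟨t, _, i, a⟩ =>
    by_contra fun m => a ((t1 t).2 (R.unr t ⟨l, m, P, o, i⟩))
  obtain ⟨f, ψ, r, p, cub, ram, unr, a2, b2⟩ := Pq.prim hX hR (by simp) G hS
    fun P P' o o' ⟨t, _, i, a⟩ => by
      obtain ⟨g, rfl⟩ := GW.Pl.ov_trans o o'
      refine ⟨_, all _, GW.Pl.inert_conj i g, fun z => a ?_⟩
      rwa [mc.mul _ trivial _ trivial, mc.mul _ trivial _ trivial, mul_right_comm,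
        ← mc.mul _ trivial _ trivial, mul_inv_cancel, mc.one, one_mul] at z
  obtain ⟨n, rfl⟩ := gen f
  have fr : ∀ l P g, Ov l P → ¬ Rm (algebraMap ℚ Qb) (t3 e₃) P → Fb l P g →
      ψ (Ideal.span {((l : ℤ) : 𝓞 ℚ)}) = t3 e₃ g := fun l P g o u b => by
    rw [Int.cast_natCast, ← bl_eq o]
    exact unr l P o u g (all g) (by rwa [bl_eq o, nm])
  have n1 : 1 < n := by
    have n0 : n ≠ 0 := fun z => r.ne (by simp [z])
    refine by_contra fun c => ?_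
    obtain rfl : n = 1 := by omega
    obtain ⟨g, a, -⟩ := E.ex
    obtain ⟨l, φ, pl, m, ⟨P, b⟩, c⟩ := Cheb.exists_fr (O := (g⁻¹ * ·) ⁻¹' W)
      (oW.preimage (continuous_const_mul _)) (g := g) (by simp) S
    have o : Ov l P := ⟨pl, b.1, b.2.1⟩
    have e := fr l P φ o (mt (hS l P o) m) b.2.2
    rw [r.prn _ (by simpa using pl.ne_zero) (by simp), ← mul_inv_cancel_left g φ,
      mc.mul _ trivial _ trivial, (t1 _).2 (hW _ c), mul_one] at e
    exact a ((t1 g).1 e.symm)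
  have od : Odd n := Nat.not_even_iff_odd.1 fun z => by
    obtain ⟨P, o⟩ := GW.Pl.ex_ov Nat.prime_two
    refine (a2 _ (bl (algebraMap ℚ Qb) o).isMaximal (Nat.cast_two (R := 𝓞 ℚ) ▸ (nat_mem o).2 dvd_rfl)
      ((Ideal.span_singleton_le_iff_mem _).2 ((nat_mem o).2 z.two_dvd))).2 ?_
    show Ideal.absNorm (below _ P) = 2
    rw [bl_eq o, nm]
  have C := cr n1 r
  refine ⟨n, _, n1, od, C, fun q pq ⟨m, e⟩ => ?_, fun d => cub _, fun q pq d => ?_,
    fun P o t i => by_contra fun z => b2 P o ⟨t, all t, i, mt (t1 t).1 z⟩ ?_,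
    fun l P g o u b => fr l P g o (fun ⟨t, _, i, a⟩ => a ((t1 t).2 (u t i))) b,
    fun q pq m g ⟨P, b⟩ t ht => ?_⟩
  · obtain ⟨P, o⟩ := GW.Pl.ex_ov pq
    obtain ⟨x, a, b, -, c⟩ := p _ (Ideal.span {(m : 𝓞 ℚ)}) (bl (algebraMap ℚ Qb) o).isMaximal (by
      show _ = below _ P * _
      rw [bl_eq o, Ideal.span_singleton_mul_span_singleton, e, Nat.cast_mul])
    obtain ⟨k, rfl⟩ := sur x
    have a' : (m : ℤ) ∣ k - 1 := dv.1 (by simpa using Ideal.mem_span_singleton.1 a)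
    refine ⟨k, by rwa [e, Nat.mul_div_cancel_left _ pq.pos], fun z => (C.zero k).1 z ?_, c⟩
    rw [e, Nat.cast_mul]
    refine IsCoprime.mul_right (((Nat.prime_iff_prime_int.1 pq).coprime_iff_not_dvd.2
      fun d => b ?_).symm) ?_
    · show _ ∈ below _ P
      rw [bl_eq o, Ideal.mem_span_singleton]
      simpa using dv.2 d
    · obtain ⟨u, hu⟩ := a'
      exact ⟨1, -u, by linear_combination hu⟩
  · obtain ⟨P, o⟩ := GW.Pl.ex_ov pq
    exact hS q P o (ram q P o ((Ideal.span_singleton_le_iff_mem _).2 ((nat_mem o).2 d)))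
  · simpa using cp.2 (Nat.isCoprime_iff_coprime.2 (Nat.coprime_two_right.2 od))
  · have o : Ov q P := ⟨pq, b.1, b.2.1⟩
    have e := fr q P g o (mt (hS q P o) m) b.2.2
    show ∃ k : ℤ, ψ _ + conj (ψ _) = _
    rw [e]
    by_cases z : ρ g = 1
    · rw [z, Matrix.trace_one, Fintype.card_fin, ZMod.natCast_self,
        ZMod.intCast_zmod_eq_zero_iff_dvd] at ht
      obtain ⟨u, rfl⟩ := ht
      exact ⟨1 - u, by rw [(t1 g).2 z, map_one]; push_cast; ring⟩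
    · rw [tr1 _ (h3 g) z, ← Int.cast_one, ZMod.intCast_eq_intCast_iff_dvd_sub] at ht
      obtain ⟨u, hu⟩ := ht
      have c := p3 g
      have n := Complex.mul_conj (t3 e₃ g)
      rw [Complex.normSq_eq_norm_sq, Complex.norm_eq_one_of_pow_eq_one c three_ne_zero] at n
      obtain rfl : t = 1 - 2 * u := by omega
      refine ⟨u - 1, mul_left_cancel₀ (sub_ne_zero.2 (mt (t1 g).1 z))
        (mul_left_cancel₀ (mc.ne g trivial) ?_)⟩
      push_cast at n ⊢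
      linear_combination c + (t3 e₃ g - 1) * n

end Vale.Agent.P004C.Tp.D2
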