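import Vale.Agent.P004C.Tp.St
import Vale.Agent.P004C.Tp.Bch
import Vale.Agent.P004C.Al.Alx0

/-!
# P004 C, block TOP: the fields of the residual representation
-/

set_option linter.all false

open NumberField Module IsDedekindDomain
open scoped Classical

noncomputable section

namespace Vale.Agent.P004C.Tp

open Vale.Agent.P022 Vale.Agent.P022K Vale.Agent.P022.H916
open Vale.Agent.P027M.S (Inert)
open Vale.Agent.P027M.M (ze)
open Vale.Agent.P022E.GW (Ov Fb)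
open P004F (M2)
open Al Al.Fx Al.Rc

namespace Fm

theorem m1 : ∀ a b : Fx.M2, a ^ 3 = 1 → b ^ 3 = 1 → (a * b) ^ 3 = 1 := by decide +kernel

theorem m2 : ∀ a b : Fx.M2, a * b = 1 → b ^ 3 = 1 → a ^ 3 = 1 := by decide +kernel

theorem m3 : ∀ a : Fx.M2, a ^ 3 = 1 → a ≠ 1 → a * a ≠ 1 ∧ (a * a) ^ 3 = 1 := by decide +kernel

theorem m5 (a b : Fx.M2) (p : a ^ 3 = 1) (q : b ^ 3 = 1) (r : b ≠ 1) : ∃ i : ℕ, a * b ^ i = 1 := by
  rcases m_c a b p q r with k | k | k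
  exacts [⟨0, by rw [k, pow_zero, mul_one]⟩, ⟨1, by rwa [pow_one]⟩, ⟨2, k⟩]

theorem m6 : ∀ a : Fx.M2, a ^ 3 = 1 → a ≠ 1 → ∀ i : Fin 3, a ^ (i : ℕ) = 1 → i = 0 := by
  decide +kernel

variable {K M M₃ L : Type} [Field K] [NumberField K] [Field M] [NumberField M] [Field M₃]
  [NumberField M₃] [Field L] [NumberField L] {j : K →+* Qb} {jM : M →+* Qb} {j₃ : M₃ →+* Qb}
  {jL : L →+* Qb} {ρ : GQ → Fx.M2} {S : Finset ℕ} {e₃ : GQ → ZMod 3} {g : GQ}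

/-- the representation as a homomorphism -/
def hom (h : Rh ρ S) : GQ →* Fx.M2 := ⟨⟨ρ, h.one⟩, h.mul⟩

theorem pw (h : Rh ρ S) (g : GQ) (i : ℕ) : ρ (g ^ i) = ρ g ^ i := map_pow (hom h) g i

theorem inv (h : Rh ρ S) (g : GQ) : ρ g⁻¹ * ρ g = 1 := by rw [← h.mul, inv_mul_cancel, h.one]

/-- the elements whose image has order dividing three -/
def A3 (h : Rh ρ S) : Subgroup GQ where
  carrier := {g | ρ g ^ 3 = 1}
  mul_mem' {a b} p q := by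
    show ρ _ ^ 3 = 1
    rw [h.mul]; exact m1 _ _ p q
  one_mem' := by
    show ρ _ ^ 3 = 1
    rw [h.one, one_pow]
  inv_mem' {a} p := m2 _ _ (inv h a) p

theorem ker_open (h : Rh ρ S) : IsOpen ((hom h).ker : Set GQ) :=
  let ⟨W, o, k⟩ := h.opn
  Subgroup.isOpen_mono (H₁ := W) (fun g m => k g m) o

theorem ex3 (h : Rh ρ S) (j : K →+* Qb) : ∃ (M₃ : Type) (_ : Field M₃) (_ : NumberField M₃)
    (j₃ : M₃ →+* Qb), ∀ g, g ∈ GK j₃ ↔ g ∈ GK j ∧ ρ g = 1 := by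
  obtain ⟨F, a, b, jF, e⟩ := P022E.GW.Hy.ex_fld (U := GK j ⊓ (hom h).ker)
    ((isOpen_GK j).inter (ker_open h))
  exact ⟨F, a, b, jF, fun g => by rw [e]; rfl⟩

theorem sq_mem (h2 : finrank ℚ K = 2) (j : K →+* Qb) (g : GQ) : g * g ∈ GK j := by
  by_cases m : g ∈ GK j
  exacts [mul_mem m m, H20.mul_mem' h2 m m]

theorem onto (h : Rh ρ S) (E : E3 ρ e₃) (h2 : finrank ℚ K = 2) (j : K →+* Qb) :
    ∃ g ∈ GK j, ρ g ≠ 1 ∧ ρ g ^ 3 = 1 :=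
  let ⟨g, a, b⟩ := E.ex
  ⟨g * g, sq_mem h2 j g, by rw [h.mul]; exact m3 _ b a⟩

variable [Algebra K M] [Algebra M M₃]

theorem ker3 (C : Cb j ρ jM j₃ e₃) : g ∈ GK j₃ ↔ g ∈ GK jM ∧ ρ g = 1 := by
  rw [C.g3, C.gM]
  exact ⟨fun ⟨a, b⟩ => ⟨⟨a, by rw [b, one_pow]⟩, b⟩, fun ⟨a, b⟩ => ⟨a.1, b⟩⟩

theorem rk3 (h : Rh ρ S) (C : Cb j ρ jM j₃ e₃) : finrank M M₃ = 3 := by
  obtain ⟨t, m, n⟩ := C.onto
  have t3 := ((C.gM t).1 m).2
  refine (cyc C.c3 (fun g a u b => (ker3 C).2 ⟨mul_mem (mul_mem a ((ker3 C).1 b).1) (inv_mem a), by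
    rw [h.mul, h.mul, ((ker3 C).1 b).2, mul_one, ← h.mul, mul_inv_cancel, h.one]⟩) m
    (fun i => ?_) fun g a => ?_).1
  · rw [ker3 C, and_iff_right (pow_mem m i), pw h, pow_eq_pow_mod i t3, Nat.dvd_iff_mod_eq_zero]
    exact ⟨fun k => congrArg Fin.val (m6 _ t3 n ⟨_, Nat.mod_lt i three_pos⟩ k),
      fun k => by rw [k, pow_zero]⟩
  · obtain ⟨i, k⟩ := m5 _ _ ((C.gM _).1 (inv_mem a)).2 t3 n
    exact ⟨i, (ker3 C).2 ⟨mul_mem (inv_mem a) (pow_mem m i), by rw [h.mul, pw h, k]⟩⟩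

theorem cb (h : Rh ρ S) (E : E3 ρ e₃) (h2 : finrank ℚ K = 2) (c : Co j jM) (c' : Co jM j₃)
    (gM : ∀ g, g ∈ GK jM ↔ g ∈ GK j ∧ ρ g ^ 3 = 1) (g3 : ∀ g, g ∈ GK j₃ ↔ g ∈ GK j ∧ ρ g = 1) :
    Cb j ρ jM j₃ e₃ :=
  ⟨c, c', gM, g3, fun g a t b => E.add g t ((gM g).1 a).2 ((gM t).1 b).2,
    fun g a => E.ker g ((gM g).1 a).2,
    let ⟨g, a, b, d⟩ := onto h E h2 j; ⟨g, (gM g).2 ⟨a, d⟩, b⟩⟩

theorem t3_one (E : E3 ρ e₃) (k : ρ g ^ 3 = 1) : t3 e₃ g = 1 ↔ ρ g = 1 :=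
  (Bc.ze3 _).trans (E.ker g k)

theorem not_rm (h : Rh ρ S) (E : E3 ρ e₃) (j : K →+* Qb) {l : ℕ} {P : Ideal (𝓞 Qb)} (o : Ov l P)
    (n : l ∉ S) : ¬ Rm j (t3 e₃) P := fun ⟨t, _, i, a⟩ =>
  have k := h.unr t ⟨l, by simpa using n, P, o, i⟩
  a ((t3_one E (by rw [k, one_pow])).2 k)

theorem smo [Algebra L M] (h : Rh ρ S) (E : E3 ρ e₃) (C : Cb j ρ jM j₃ e₃) {f ψ}
    (D : Dd ρ e₃ jL f ψ) (c : Co jL jM) (t : ℕ) (t0 : 0 < t) :
    ∃ (s : Ideal (𝓞 M)) (l : ℕ), Sm s l ∧ l.Coprime t ∧ ψ (Ideal.relNorm (𝓞 L) s) ≠ 1 := by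
  obtain ⟨g, m, n⟩ := C.onto
  obtain ⟨l, φ, hl, o, ⟨P, hP, lP, fr⟩, k⟩ := Cheb.exists_fr (O := {φ | g⁻¹ * φ ∈ GK j₃}) (g := g)
    ((isOpen_GK j₃).preimage (continuous_const.mul continuous_id)) (by simp)
    (S ∪ (2 * t * (discr M).natAbs).primeFactors)
  rw [Finset.mem_union, not_or, Nat.mem_primeFactors_of_ne_zero
    (by simp [t0.ne', discr_ne_zero]), and_iff_right hl] at o
  obtain ⟨k1, k2⟩ := (ker3 C).1 k
  have mφ : φ ∈ GK jM := by simpa using mul_mem m k1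
  have r : ρ φ = ρ g := by rw [← mul_inv_cancel_left g φ, h.mul, k2, mul_one]
  have a := Sx.deg_one hP hl lP fr mφ
  have a' := Sx.deg_one hP hl lP fr (c.le mφ)
  have ov : Ov l P := ⟨hl, hP, lP⟩
  refine ⟨below jM P, l, Sx.sm_of hl (fun e => o.2 (e ▸ (dvd_mul_right _ _).mul_right _)) a
    fun d => o.2 (d.mul_left _), hl.coprime_iff_not_dvd.2 fun d => o.2 ((d.mul_left _).mul_right _), ?_⟩
  let w : HeightOneSpectrum (𝓞 M) :=
    ⟨below jM P, P004R.Gl.below_pr jM hP, P004R.Gl.below_ne jM hl.ne_zero lP⟩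
  have hv : below jL P = (dw L w).asIdeal := below_dw c P
  have b := abs_pr (M := L) w
  have b' := rel_pr (M := L) w
  rw [← hv] at b b'
  rw [a', show Ideal.absNorm w.asIdeal = l from a] at b
  rw [← Nat.pow_right_injective hl.two_le ((pow_one l).trans b), pow_one] at b'
  rw [show Ideal.relNorm (𝓞 L) (below jM P) = _ from b',
    D.unr l P ov (not_rm h E jL ov o.1) φ (c.le mφ) (by rwa [a']), Ne,
    t3_one E ((C.gM φ).1 mφ).2, r]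
  exact n

end Fm

open Fm

/-- **FLM** -/
theorem flm : FLM := fun K _ _ j h2 ρ S e₃ h E => by
  obtain ⟨M₃, i1, i2, j₃, g3⟩ := ex3 h j
  obtain ⟨a3, c3⟩ := ex_alg (j := j) (jL := j₃) fun g m => ((g3 g).1 m).1
  refine ⟨fun k => ?_, fun L _ _ jL f ψ D ⟨t, m, n⟩ => ?_⟩
  · have C : Cb j ρ j j₃ e₃ := cb h E h2 (fun _ => rfl) c3 (fun g => (and_iff_left (k g)).symm) g3
    exact ⟨M₃, i1, i2, a3, j₃, C, rk3 h C⟩
  obtain ⟨M, i3, i4, jM, e⟩ := P022E.GW.Hy.ex_fld (U := GK j ⊓ GK jL)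
    ((isOpen_GK j).inter (isOpen_GK jL))
  have gM : ∀ g, g ∈ GK jM ↔ g ∈ GK j ∧ ρ g ^ 3 = 1 := fun g => by rw [e, ← D.gL]; rfl
  obtain ⟨a1, c1⟩ := ex_alg (j := j) (jL := jM) (e.le.trans inf_le_left)
  obtain ⟨a2, c2⟩ := ex_alg (j := jL) (jL := jM) (e.le.trans inf_le_right)
  obtain ⟨a4, c4⟩ := ex_alg (j := jM) (jL := j₃) fun g k =>
    (gM g).2 ⟨((g3 g).1 k).1, by rw [((g3 g).1 k).2, one_pow]⟩
  have T := tw c1 c4 c3
  have C := cb h E h2 c1 c4 gM g3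
  have o : t ∉ GK jL := fun k => n ((D.gL t).1 k)
  have l2 := D.dh.two
  have r2 : finrank K M = 2 := by
    refine (cyc c1 (fun g a u b => ?_) m (fun i => ?_) fun g a => ?_).1
    · rw [e, Subgroup.mem_inf] at b ⊢
      refine ⟨mul_mem (mul_mem a b.1) (inv_mem a), ?_⟩
      by_cases k : g ∈ GK jL
      · exact mul_mem (mul_mem k b.2) (inv_mem k)
      · exact H20.mul_mem' l2 (fun z => k (((GK jL).mul_mem_cancel_right b.2).1 z))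
          (mt (GK jL).inv_mem_iff.1 k)
    · have s : ∀ q, t ^ (2 * q) ∈ GK jL := fun q => by
        rw [pow_mul, pow_two]; exact pow_mem (sq_mem l2 jL t) q
      rw [e, Subgroup.mem_inf, and_iff_right (pow_mem m i)]
      obtain ⟨q, rfl | rfl⟩ := i.even_or_odd'
      · exact iff_of_true (s q) (dvd_mul_right _ _)
      · refine iff_of_false (fun z => o ?_) (by omega)
        rwa [pow_succ, (GK jL).mul_mem_cancel_left (s q)] at z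
    · simp only [e, Subgroup.mem_inf]
      by_cases k : g ∈ GK jL
      · exact ⟨0, by rw [pow_zero, mul_one]; exact ⟨inv_mem a, inv_mem k⟩⟩
      · exact ⟨1, by
          rw [pow_one]
          exact ⟨mul_mem (inv_mem a) m, H20.mul_mem' l2 (mt (GK jL).inv_mem_iff.1 k) o⟩⟩
  refine ⟨M, M₃, i3, i4, i1, i2, a1, a3, a4, T, a2, jM, j₃, C, c2, r2, by
    rw [← finrank_mul_finrank K M M₃, r2, rk3 h C], fun x y k => ?_, smo h E C D c2⟩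
  have z : jL x = j y := by rw [← c2, k, c1]
  obtain ⟨q, hq⟩ := fixed (algebraMap ℚ Qb) (x := jL x) fun ⟨g, _⟩ => by
    by_cases k : g ∈ GK jL
    · exact k x
    · have := H20.mul_mem' l2 k o x
      rwa [AlgEquiv.mul_apply, z, m y, ← z] at this
  exact ⟨q, jL.injective (by rw [← hq, map_ratCast]; rfl)⟩

end Vale.Agent.P004C.Tp
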