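import Vale.Agent.P004C.Ln.St2
import Vale.Agent.P004C.Mu.St
import Vale.Agent.P004C.Al.Alx0
import Vale.Agent.P004C.Al.Gb0
import Vale.Agent.P004C.Tp.Bch
import Vale.Agent.P004C.Tp.Ine
import Vale.Agent.P004R.Top

/-!
# P004 C, top: the data which are common to the two cases
-/

set_option linter.all false

open NumberField Module Ideal
open scoped Classical NumberTheorySymbols

noncomputable section

namespace Vale.Agent.P004C.Tp.Kt

open Vale.Agent.P022 (Qb GQ GK below)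
open Vale.Agent.P027M.S (Inert)
open Vale.Agent.P027M.M (ze)
open Vale.Agent.P022D.W (dec)
open Vale.Agent.P022E.GW (Ov Fb)
open P004K (Hc)
open P004F (Crv Fld)
open P004R (Mu.ex_st Mu.ex_pl Mu.nu_fb Mu.fb_two Mu.nd_of)
open P004R.Tp (rb rb_mul rb_one rb_kn kd nd_prod)
open Al (Lw Ts Ab Ls)
open Ln (Jc Pl IOT tS Lay Dp)

section

variable {K : Type} [Field K] [NumberField K]

theorem ex_h (K : Type) [Field K] [NumberField K] : ∃ h : ℕ, 0 < h ∧ ∀ I : Ideal (𝓞 K),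
    ∃ α : 𝓞 K, span {α} = I ^ h := by
  refine ⟨Fintype.card (ClassGroup (𝓞 K)), Fintype.card_pos, fun I => ?_⟩
  by_cases h : I = ⊥
  · exact ⟨0, by rw [h, ← zero_eq_bot, zero_pow Fintype.card_pos.ne']; simp⟩
  have m : I ∈ nonZeroDivisors (Ideal (𝓞 K)) := mem_nonZeroDivisors_of_ne_zero h
  have := (ClassGroup.mk0_eq_one_iff (pow_mem m (Fintype.card (ClassGroup (𝓞 K))))).1 (by
    rw [← pow_card_eq_one (x := ClassGroup.mk0 ⟨I, m⟩), ← map_pow]; rfl)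
  exact ⟨_, span_singleton_generator _⟩

/-- the characters `lam` exist -/
theorem ex_la (J : K →+* ℂ) : ∃ h : ℕ, 0 < h ∧ ∀ k, ∃ lam, La J h k lam := by
  obtain ⟨h, h0, H⟩ := ex_h K
  choose α hα using H
  exact ⟨h, h0, fun k => ⟨fun I => if I = ⊥ then 0 else (J (α I))⁻¹ ^ (2 * k), if_pos rfl,
    fun I hI => ⟨_, hα I, if_neg hI⟩⟩⟩

/-- the series of block AL is the series of block LN -/
theorem ls_eq {s : 𝓞 K} {t : Ideal (𝓞 K)} {h : ℕ} (h0 : 0 < h) (hs : span {s} = t ^ h) {M : Type}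
    [Field M] [NumberField M] [Algebra K M] (lam : Ideal (𝓞 K) → ℂ) {η a : Ideal (𝓞 M) → ℂ}
    (ha : ∀ I, a I = η I * lam (relNorm (𝓞 K) I)) :
    Ls s lam η = ∑' I, Dp (t.map (algebraMap (𝓞 K) (𝓞 M))) a I := by
  refine tsum_congr fun I => ?_
  have : span {algebraMap (𝓞 K) (𝓞 M) s} = t.map (algebraMap (𝓞 K) (𝓞 M)) ^ h := by
    rw [← Ideal.map_pow, ← hs, map_span, Set.image_singleton]
  rw [Dp, ha, this]
  simp only [← isCoprime_iff_sup_eq, IsCoprime.pow_right_iff h0]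

theorem m6 : ∀ a : Matrix (Fin 2) (Fin 2) (ZMod 2), a.det = 1 → a ^ 6 = 1 := by decide +kernel

theorem half {k : ℕ} {x : ZMod (2 * 2 ^ k)} (h : IsUnit x) : (3 * 2 ^ k : ℕ) * x = 2 ^ k := by
  obtain ⟨m, hm⟩ : Odd x.val := by
    rw [← ZMod.natCast_zmod_val x, ZMod.isUnit_iff_coprime] at h
    exact Nat.coprime_two_right.1 h.coprime_mul_right_right
  have z : ((2 * 2 ^ k : ℕ) : ZMod (2 * 2 ^ k)) = 0 := ZMod.natCast_self _
  rw [← ZMod.natCast_zmod_val x, hm]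
  push_cast at z ⊢
  linear_combination (3 * m + 1) * z

end

variable {e : Crv} (b : Fld e)

theorem rb_pow (g : GQ) (n : ℕ) : rb e (g ^ n) = rb e g ^ n := by
  induction n with
  | zero => rw [pow_zero, pow_zero, rb_one]
  | succ n h => rw [pow_succ, pow_succ, rb_mul, h]

theorem rb_det (g : GQ) : (rb e g).det = 1 := by
  have := congrArg Matrix.det (rb_mul e g g⁻¹)
  rw [mul_inv_cancel, rb_one, Matrix.det_one, Matrix.det_mul] at this
  exact (P004S.z2 _).resolve_left fun z => by simp [z] at this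

theorem rb_unr {l : ℕ} {P : Ideal (𝓞 Qb)} (o : Ov l P) (h : l ∉ e.S) {g : GQ} (i : Inert P g) :
    rb e g = 1 :=
  rb_kn e ((P004R.Tp.rep e).Kn_uns 1 l P o (mt List.mem_toFinset.1 h) g i)

/-- the primes of `S` split -/
theorem fb_mem {p : ℕ} (hp : p ∈ e.S) {Q : Ideal (𝓞 Qb)} {φ : GQ} (o : Ov p Q) (f : Fb p Q φ) :
    φ ∈ GK b.j := by
  rw [(kd b).gk]
  have m := b.adm.m8
  by_cases h2 : p = 2
  · subst h2
    exact (Mu.fb_two o (by omega) f).2 (by omega)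
  · have a := b.adm.spl p hp h2
    rw [Mu.nu_fb o h2 f (Mu.nd_of o.1 (.inr a))] at a
    by_contra c
    rw [if_neg c] at a
    exact absurd a (by decide)

theorem half_S : 2 * (e.S.prod / 2) = e.S.prod := Nat.mul_div_cancel' (List.dvd_prod e.two)

theorem odd_S : ¬ 2 ∣ e.S.prod / 2 := fun h => by
  have a : (e.S.erase 2).prod = e.S.prod / 2 := by
    rw [← List.prod_erase e.two, Nat.mul_div_cancel_left _ two_pos]
  rw [← a] at h
  obtain ⟨p, hp, d⟩ := (Prime.dvd_prod_iff Nat.prime_two.prime).1 h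
  obtain ⟨h1, h2⟩ := e.nd.mem_erase_iff.1 hp
  exact h1 ((Nat.prime_dvd_prime_iff_eq Nat.prime_two (P004R.Tp.pr e h2)).1 d).symm

theorem nat_mem {l c : ℕ} {P : Ideal (𝓞 Qb)} (o : Ov l P) (h : (c : 𝓞 b.K) ∈ below b.j P) :
    l ∣ c := by
  exact_mod_cast P004S.ov_dvd o (a := c) (by exact_mod_cast (P022.H651.natCast_mem_below b.j).1 h)

theorem two_Q : (2 : 𝓞 b.K) ∈ b.Q 2 := mul_le_right (I := below b.j (e.P 2)) (by
  rw [(b.ch.spl 2 e.two).mul]; exact mem_span_singleton_self _)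

/-- the primes which contain `tS` -/
theorem tS_le {l : ℕ} {P : Ideal (𝓞 Qb)} (o : Ov l P) (h : tS b ≤ below b.j P) :
    l ∈ e.S ∧ below b.j P ≠ below b.j (e.P 2) := by
  rcases (P004R.Gl.below_pr b.j o.2.1).mul_le.1 h with k | k
  · refine ⟨(Nat.prime_dvd_prime_iff_eq o.1 Nat.prime_two).1 (nat_mem b o (k (two_Q b))) ▸ e.two,
      fun z => (P004R.Gl.below_pr b.j o.2.1).ne_top ?_⟩
    rw [← (b.ch.spl 2 e.two).cop, ← z, left_eq_sup]
    exact k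
  · rw [span_singleton_le_iff_mem] at k
    exact ⟨(nd_prod o.1).1 (half_S (e := e) ▸ (nat_mem b o k).mul_left 2),
      fun z => odd_S (nat_mem b (e.ov 2 e.two) (z ▸ k))⟩

variable {ι : ℂ →+* ℂ_[2]} {V : AbsoluteValue ℂ ℝ} {c k : ℕ} {ε : GQ → ZMod (2 * 2 ^ k)}
  {ε' : GQ → ZMod (2 * 2 ^ (k + 1))}

/-- `v` lies below `P 2` -/
theorem ab (pl : Pl ι V (e.P 2))
    (h : ∀ x : 𝓞 b.K, V (Jc b.j x) < 1 ↔ x ∈ below b.j (e.P 2)) : Ab ι (Jc b.j) b.j (e.P 2) :=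
  ⟨e.ov 2 e.two, fun x => by rw [← h, pl.eq]⟩

/-- **the element `s`** -/
theorem ts (A : Ab ι (Jc b.j) b.j (e.P 2)) {s : 𝓞 b.K} {h : ℕ} (hs : span {s} = tS b ^ h)
    (L : Lw b.j c (k + 1) ε') (cop : ∀ l ∈ e.S, ¬ l ∣ c)
    (un : ∀ p ∈ e.S, ∀ Q φ, Ov p Q → Fb p Q φ → IsUnit (ε' φ)) :
    Ts ι (Jc b.j) b.j (rb e) c (k + 1) ε' e.S.toFinset s := by
  have le : ∀ {l P}, Ov l P → s ∈ below b.j P → tS b ≤ below b.j P := fun o m =>
    (P004R.Gl.below_pr b.j o.2.1).le_of_pow_le (hs ▸ (span_singleton_le_iff_mem _).2 m)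
  refine ⟨rb_one e, rb_mul e, List.mem_toFinset.2 e.two, fun l hl => cop l (List.mem_toFinset.1 hl),
    ?_, ?_, fun l Q o m => ?_⟩
  · rintro g ⟨l, hl, P, o, i⟩
    exact rb_unr o (fun z => hl (List.mem_toFinset.2 z)) i
  · exact (Al.Gx.nm_le s).eq_of_not_lt fun z => (tS_le b A.1 (le A.1 ((A.2 s).2 z))).2 rfl
  · have p := (tS_le b o (le o m)).1
    obtain ⟨-, φ, -, f, d⟩ := Mu.ex_st o
    have g := fb_mem b p o f
    refine ⟨List.mem_toFinset.2 p, φ ^ (3 * 2 ^ (k + 1)), pow_mem d _, pow_mem g _, ?_, ?_⟩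
    · rw [rb_pow, show 3 * 2 ^ (k + 1) = 6 * 2 ^ k by ring, pow_mul, m6 _ (rb_det φ), one_pow]
    · rw [Al.Fx.e_pow L g, half (un l p Q φ o f)]

theorem ad (L : Lw b.j c k ε) (ker : ∀ g ∈ Hc b.j c, ε g = 0) :
    b.Ad (k + 1) c fun g => (ε g).val :=
  ⟨fun g hg h hh => by
    beta_reduce
    rw [L.add g hg h hh, ZMod.val_add, pow_succ']
    exact Nat.mod_modEq _ _, fun g hg => by
    beta_reduce
    rw [ker g hg, ZMod.val_zero]; exact dvd_zero _⟩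

theorem rt {ζ : ℂ} (h : ζ ^ 2 ^ k = -1) : ζ ^ 2 ^ (k + 1) = 1 := by
  rw [pow_succ, pow_mul, h]; norm_num

/-- **one layer, one faithful character** -/
theorem lay (L : Lw b.j c k ε) (ker : ∀ g ∈ Hc b.j c, ε g = 0) (sq : Squarefree c)
    (out : ∀ q : ℕ, q.Prime → q ∣ c → q ∉ e.S ∧ ¬ q ∣ b.δ') {ζ : ℂ} (h : ζ ^ 2 ^ k = -1) {ξ}
    (x : Ln.Xi b.j c (fun g => (ε g).val) ζ ξ) : Lay b (k + 1) c (fun g => (ε g).val) ζ ξ :=
  ⟨ad b L ker, sq, out, rt h, x, fun q hq d => by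
    obtain ⟨P, o⟩ := Mu.ex_pl hq
    obtain ⟨t, m, i, a⟩ := L.ram q P o d
    have : Fact (1 < 2 * 2 ^ k) := ⟨by have := Nat.one_le_two_pow (n := k); omega⟩
    refine ⟨P, o, t, m, i, fun z => ?_⟩
    beta_reduce at z
    rw [a, ZMod.val_one, pow_one] at z
    rw [z, one_pow] at h
    norm_num at h⟩

/-- the Frobenius elements at the primes of `S` generate the layer -/
theorem tw_unit {D : Mu.Dt} (ok : D.Ok) {K : Type} [Field K] [NumberField K] {j : K →+* Qb}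
    {n c : ℕ} {Q ε} {x : GQ → ZMod (2 * 2 ^ (n + 1))} (t : D.Tw j n Q ε c x) {p : ℕ} (hp : p ∈ D.S)
    {P : Ideal (𝓞 Qb)} {φ : GQ} (o : Ov p P) (f : Fb p P φ) (m : φ ∈ GK j) :
    IsUnit (x φ) ∧ ¬ p ∣ c := by
  refine ⟨P004R.Lv.unit_of ((t.par φ m).trans ((P004S.z2 _).resolve_left fun k => ?_)),
    fun d => (t.cy p o.1 d).2.1 hp⟩
  by_cases h2 : p = 2
  · subst h2
    have c8 : c % 8 = 1 := by
      rw [← Nat.prod_primeFactors_of_squarefree t.ly.sq]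
      refine Finset.prod_induction _ (· % 8 = 1) (fun a b ha hb => by rw [Nat.mul_mod, ha, hb]) rfl
        fun q hq => ?_
      have := (t.cy q (Nat.prime_of_mem_primeFactors hq) (Nat.dvd_of_mem_primeFactors hq)).1
      rw [← Nat.mod_mod_of_dvd q (show 8 ∣ 2 ^ (n + 3) from ⟨2 ^ n, by ring⟩), this]
    have : D.d₁ * c % 8 = 5 := by rw [Nat.mul_mod, ok.cg.m1, c8]
    have := (Mu.fb_two o (by omega) f).1 k
    omega
  · have j1 : J(D.d₁ * c | p) = -1 := by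
      rw [jacobiSym.mul_left, (ok.cg.jc p hp h2).1, t.fr p hp h2]; rfl
    rw [Mu.nu_fb o h2 f (Mu.nd_of o.1 (Or.inl j1)), ← Nat.cast_mul, if_pos k] at j1
    exact absurd j1 (by decide)

end Vale.Agent.P004C.Tp.Kt
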