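import Vale.Agent.P004C.Tp.St
import Vale.Agent.P004C.Tp.Bch
import Vale.Agent.P004C.Tp.Ine
import Vale.Agent.P004C.Al.Gbx
import Mathlib.LinearAlgebra.Matrix.GeneralLinearGroup.Card

/-!
# P004 C, top: the layer in the words of the two blocks
-/

set_option linter.all false

open NumberField Module
open scoped Classical

noncomputable section

namespace Vale.Agent.P004C.Tp.Ly

open Vale.Agent.P022 Vale.Agent.P022K
open Vale.Agent.P027M.S (Inert)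
open Vale.Agent.P027M.M (ze)
open Vale.Agent.P022D.W (dec)
open Vale.Agent.P022E.GW (Ov Fb)
open P004F (Crv Fld M2)
open Vale.Agent.P004K (RC1 RC2 Cop Ar Hc)
open Al (Lw Ab Ts)
open Ln (Jc Pl V2 Xi Lay tS IOT LVX)

variable {e : Crv} {b : Fld e} {k c : ℕ} {χ : GQ → ZMod (2 * 2 ^ k)} {ι : ℂ →+* ℂ_[2]}
  {V : AbsoluteValue ℂ ℝ}

theorem ab (hI : IOT) (hV : LVX) (h : Pl ι V (e.P 2)) (b : Fld e) :
    Ab ι (Jc b.j) b.j (e.P 2) ∧ ∀ x : 𝓞 b.K, ‖ι (Jc b.j x)‖ ≤ 1 := by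
  have k := (((hI _ (e.ov 2 e.two)).2 ι V h).2 b.K b.j _ _ (hV e b).1).2.1
  simp only [h.eq] at k
  exact ⟨⟨e.ov 2 e.two, fun x => (k x).2.1.symm⟩, fun x => (k x).1⟩

theorem ex_la {K : Type} [Field K] [NumberField K] (J : K →+* ℂ) :
    ∃ h, 0 < h ∧ ∀ κ, ∃ lam, La J h κ lam := by
  obtain ⟨h, h0, k⟩ := Al.Gx.ex_pow (𝓞 K)
  choose α hα using k
  exact ⟨h, Nat.pos_of_ne_zero h0, fun κ => ⟨fun I => if n : I = ⊥ then 0 else
    (J (α I n))⁻¹ ^ (2 * κ), dif_pos rfl, fun I n => ⟨α I n, (hα I n).symm, dif_neg n⟩⟩⟩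

theorem six (e : Crv) (g : GQ) : rho e (g ^ 6) = 1 := by
  let f : GQ →* M2 (ZMod 2) :=
    (PadicInt.toZMod.mapMatrix : M2 ℤ_[2] →+* M2 (ZMod 2)).toMonoidHom.comp e.r
  have c : Nat.card (M2 (ZMod 2))ˣ = 6 := by
    simpa [Fin.prod_univ_two] using Matrix.card_GL_field (𝔽 := ZMod 2) 2
  have := pow_card_eq_one' (x := f.toHomUnits g)
  rw [c, ← map_pow] at this
  exact congrArg Units.val this

theorem add (L : Lz b k c χ) (g : GQ) (m : g ∈ GK b.j) (h : GQ) (m' : h ∈ GK b.j) :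
    χ (g * h) = χ g + χ h := by
  have := L.ad.add g m h m'
  rw [pow_succ'] at this
  simpa using (ZMod.natCast_eq_natCast_iff _ _ _).2 this

theorem ker (L : Lz b k c χ) (g : GQ) (m : g ∈ Hc b.j c) : χ g = 0 := by
  have := L.ad.ker g m
  rw [pow_succ'] at this
  simpa using (ZMod.natCast_eq_zero_iff _ _).2 this

theorem pw (L : Lz b k c χ) {g : GQ} (m : g ∈ GK b.j) (n : ℕ) : χ (g ^ n) = n * χ g := by
  induction n with
  | zero => rw [pow_zero, ker L 1 (one_mem _), Nat.cast_zero, zero_mul]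
  | succ n h => rw [pow_succ g, add L _ (pow_mem m n) _ m, h, Nat.cast_succ, add_one_mul]

theorem lw (r1 : RC1) (r2 : RC2) (L : Lz b k c χ) : Lw b.j c k χ := by
  have c0 : 0 < c := L.one.le
  obtain ⟨-, -, -, -, a5, -, a7⟩ := r2 b.K b.j b.iq c c0
  refine ⟨Nat.not_even_iff_odd.1 fun h => (L.out 2 Nat.prime_two h.two_dvd).1 e.two, L.one, add L,
    ⟨_, (r1 b.K b.j b.iq c c0).2.1, fun g _ => ker L g⟩, fun l P o d g m i => ?_, L.ram⟩
  have a := a7 P o.2.1 (fun e => o.1.ne_zero (by simpa [e] using o.2.2))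
    (fun m => d (by exact_mod_cast P004S.ov_dvd o (a := c) (by exact_mod_cast m))) g m 0
    fun x => by rw [pow_zero, pow_one]; exact i x
  rw [pow_zero, Ideal.one_eq_top] at a
  exact ker L g ((a5 _ g ⟨top_ne_bot, top_sup_eq _⟩ a).2 ⟨1, 0, by simp⟩)

theorem un_two {u : ZMod (2 * 2 ^ k)} (h : IsUnit u) : (2 ^ k : ZMod (2 * 2 ^ k)) * u = 2 ^ k := by
  rw [← ZMod.natCast_zmod_val u, ZMod.isUnit_iff_coprime] at h
  obtain ⟨m, hm⟩ := Nat.coprime_two_right.1 (Nat.Coprime.coprime_mul_right_right h)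
  have z := ZMod.natCast_self (2 * 2 ^ k)
  rw [← ZMod.natCast_zmod_val u, hm]
  push_cast at z ⊢
  linear_combination (m : ZMod (2 * 2 ^ k)) * z

theorem ex_s0 {K : Type} [Field K] [NumberField K] (j : K →+* Qb) {P : Ideal (𝓞 Qb)} (oP : Ov 2 P)
    {Q₂ : Ideal (𝓞 K)} (S : P004F.Qx.Sp 2 (below j P) Q₂) {m : ℕ} (o : Odd m) : ∃ s : 𝓞 K,
    (∀ (M : Type) [Field M] [NumberField M] [Algebra K M] (I : Ideal (𝓞 M)),
      I ⊔ Ideal.span {algebraMap (𝓞 K) (𝓞 M) s} = ⊤ ↔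
        I ⊔ (Q₂ * Ideal.span {(m : 𝓞 K)}).map (algebraMap (𝓞 K) (𝓞 M)) = ⊤) ∧ s ∉ below j P ∧
    ∀ l Q, Ov l Q → s ∈ below j Q → l ∣ 2 * m := by
  obtain ⟨h, h0, k⟩ := Al.Gx.ex_pow (𝓞 K)
  have q : ((2 : ℕ) : 𝓞 K) ∈ Q₂ := Ideal.mul_le_right (I := below j P) (by
    rw [S.mul]
    exact Ideal.mem_span_singleton_self _)
  have n : Q₂ * Ideal.span {(m : 𝓞 K)} ≠ ⊥ := fun z => by
    rcases Ideal.mul_eq_bot.1 z with z | z
    · rw [z, Ideal.mem_bot, Nat.cast_eq_zero] at q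
      exact two_ne_zero q
    · rw [Ideal.span_singleton_eq_bot, Nat.cast_eq_zero] at z
      exact o.pos.ne' z
  obtain ⟨s, hs⟩ := k _ n
  have dv : ∀ l Q, Ov l Q → ∀ a : ℕ, (a : 𝓞 K) ∈ below j Q → l ∣ a := fun l Q o a m => by
    rw [H651.natCast_mem_below] at m
    exact_mod_cast P004S.ov_dvd o (a := a) (by exact_mod_cast m)
  have key : ∀ l Q, Ov l Q → s ∈ below j Q → Q₂ ≤ below j Q ∨ l ∣ m := fun l Q o a => by
    have p := P004R.Gl.below_pr j o.2.1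
    rw [← Ideal.span_singleton_le_iff_mem, ← hs] at a
    exact (p.mul_le.1 (p.le_of_pow_le a)).imp_right fun a =>
      dv l Q o m ((Ideal.span_singleton_le_iff_mem _).1 a)
  refine ⟨s, fun M _ _ _ I => ?_, fun a => ?_, fun l Q o a => ?_⟩
  · rw [← Set.image_singleton, ← Ideal.map_span, ← hs, Ideal.map_pow,
      ← Ideal.isCoprime_iff_sup_eq, ← Ideal.isCoprime_iff_sup_eq,
      IsCoprime.pow_right_iff (Nat.pos_of_ne_zero h0)]
  · rcases key 2 _ oP a with a | a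
    · exact (P004R.Gl.below_pr j oP.2.1).ne_top (by rw [← S.cop, sup_eq_left.2 a])
    · exact o.not_two_dvd_nat a
  · rcases key l Q o a with a | a
    · exact (dv l Q o 2 (a q)).mul_right _
    · exact a.mul_left _

/-- the element which cuts out the primes of `S` other than `v` -/
theorem ex_s (hV : LVX) (b : Fld e) : ∃ s : 𝓞 b.K,
    (∀ (M : Type) [Field M] [NumberField M] [Algebra b.K M] (I : Ideal (𝓞 M)),
      I ⊔ Ideal.span {algebraMap (𝓞 b.K) (𝓞 M) s} = ⊤ ↔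
        I ⊔ (tS b).map (algebraMap (𝓞 b.K) (𝓞 M)) = ⊤) ∧ s ∉ below b.j (e.P 2) ∧
    ∀ l Q, Ov l Q → s ∈ below b.j Q → l ∈ e.S := by
  obtain ⟨-, o, m, v, -⟩ := hV e b
  obtain ⟨s, h1, h2, h3⟩ := ex_s0 b.j (e.ov 2 e.two) (b.ch.spl 2 e.two) o
  rw [m] at h3
  exact ⟨s, h1, h2, fun l Q o a => (v l o.1).1 (h3 l Q o a)⟩

theorem ts (R : Rh (rho e) e.S.toFinset) (k1 : 1 ≤ k) (L : Lz b k c χ) {s : 𝓞 b.K}
    (u : ‖ι (Jc b.j s)‖ = 1) (h : ∀ l Q, Ov l Q → s ∈ below b.j Q → l ∈ e.S) :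
    Ts ι (Jc b.j) b.j (rho e) c k χ e.S.toFinset s := by
  refine ⟨R.one, R.mul, List.mem_toFinset.2 e.two, fun l m d => ?_, R.unr, u, fun l Q o a => ?_⟩
  · rw [List.mem_toFinset] at m
    exact (L.out l (e.ov l m).1 d).1 m
  · have m := h l Q o a
    obtain ⟨φ, f⟩ := P022D.W.exists_phi o.1 o.2.1 o.2.2
    have d := GW.Pl.fr_dec o.2.1 o.1.ne_zero f
    obtain ⟨a1, a2⟩ := L.fro l m Q o
    obtain ⟨n, rfl⟩ := Nat.exists_eq_add_of_le' k1
    refine ⟨List.mem_toFinset.2 m, (φ ^ 2 ^ n) ^ 6, pow_mem (pow_mem d _) _,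
      a1 (pow_mem (pow_mem d _) _), six e _, ?_⟩
    have z := ZMod.natCast_self (2 * 2 ^ (n + 1))
    have y := un_two (a2 φ f)
    rw [← pow_mul, pw L (a1 d)]
    push_cast at z ⊢
    linear_combination 3 * y + z

theorem lay (L : Lz b k c χ) (i : ℕ) {ξ} (h : Xi b.j c (fun g => (χ g).val)
    (ze (2 * 2 ^ k) (2 * i + 1 : ℕ)) ξ) :
    Lay b (k + 1) c (fun g => (χ g).val) (ze (2 * 2 ^ k) (2 * i + 1 : ℕ)) ξ := by
  have z := Iq.ze_odd k i
  refine ⟨L.ad, L.sq, L.out, by rw [pow_succ, pow_mul, z, neg_one_sq], h, fun q p d => ?_⟩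
  obtain ⟨P, o⟩ := GW.Pl.ex_ov p
  obtain ⟨t, m, a, o'⟩ := L.ram q P o d
  refine ⟨P, o, t, m, a, fun w => ?_⟩
  have : Fact (1 < 2 * 2 ^ k) := ⟨by have := Nat.two_pow_pos k; omega⟩
  rw [o', ZMod.val_one, pow_one] at w
  rw [w, one_pow] at z
  norm_num at z

end Vale.Agent.P004C.Tp.Ly
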