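import Vale.Agent.P004C.Tp.St
import Vale.Agent.P004C.Tp.Bch
import Vale.Agent.P004C.Al.Icx
import Vale.Agent.P004C.Wa.Co

/-!
# P004 C, top: the primitive ray class character of a cubic Galois character
-/

set_option linter.all false

open NumberField IsDedekindDomain Module
open scoped Classical

noncomputable section

namespace Vale.Agent.P004C.Tp.Pq

open Vale.Agent.P022 Vale.Agent.P022K
open Vale.Agent.P027M.S (Pr Inert)
open Vale.Agent.P022E.GW (Ov)
open Al Al.Rc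
open Wa (RC Pm)
open Ln (HEX)

variable {L : Type} [Field L] [NumberField L] {j : L →+* Qb} {θ : GQ → ℂ}
  {χ : Ideal (𝓞 L) → ℂ}

theorem nine (M : Type) [Field M] [NumberField M] (w : Pr M) :
    (9 : 𝓞 M) ∉ w.asIdeal ^ 9 ^ finrank ℤ (𝓞 M) := fun h => by
  have a := Ideal.absNorm_dvd_absNorm_of_le ((Ideal.span_singleton_le_iff_mem _).2 h)
  rw [map_pow, show (9 : 𝓞 M) = (9 : ℕ) from Nat.cast_ofNat.symm, Ideal.absNorm_span_natCast] at a
  have b : 1 < Ideal.absNorm w.asIdeal := by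
    have := Ideal.absNorm_eq_zero_iff.not.2 w.ne_bot
    have := Ideal.absNorm_eq_one_iff.not.2 w.isPrime.ne_top
    omega
  exact (Nat.lt_pow_self b).not_ge (Nat.le_of_dvd (by positivity) a)

theorem cube (k : Ic j θ χ) (G : Gc j θ 3) {I : Ideal (𝓞 L)} (h0 : I ≠ ⊥)
    (h : ∀ l P, Ov l P → I ≤ below j P → ¬ Rm j θ P) : χ I ^ 3 = 1 :=
  cm_ext (a := fun I => χ I ^ 3) (b := fun _ => 1)
    ⟨by rw [k.cm.one, one_pow], fun I J => by rw [k.cm.mul, mul_pow]⟩
    ⟨rfl, fun _ _ => (mul_one _).symm⟩ h0 fun v m => by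
      obtain ⟨l, P, o, e⟩ := ex_ab j v
      obtain ⟨g, a, b⟩ := Bc.ex_fb j o
      show χ v.asIdeal ^ 3 = 1
      rw [← e, k.unr l P o (h l P o (e ▸ m)) g a b, G.pow g a]

/-- the reciprocity law for cubic characters, real places allowed -/
theorem law3 (k : Ic j θ χ) (G : Gc j θ 3) : ∃ N : ℕ, 0 < N ∧ ∀ x : 𝓞 L, x ≠ 0 →
    (∀ l P, Ov l P → Rm j θ P → x - 1 ∈ below j P ^ (if (3 : 𝓞 L) ∈ below j P then N else 1)) →
    χ (Ideal.span {x}) = 1 := by
  obtain ⟨i, hi⟩ := IsAlgClosed.exists_pow_nat_eq (-1 : Qb) two_pos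
  have pm : ∀ g : GQ, g i = i ∨ g i = -i := fun g =>
    sq_eq_sq_iff_eq_or_eq_neg.1 (by rw [← map_pow, hi, map_neg, map_one])
  obtain ⟨M, _, _, _, _, jM, r, D, e, hk⟩ := H916.exists_fld j (GK j ⊓ MulAction.stabilizer GQ i)
    ((H916.isOpen_GK j).inter (stabilizer_isOpen_of_isIntegral i)) inf_le_left fun g a u b =>
      ⟨(GK j).mul_mem ((GK j).mul_mem a b.1) ((GK j).inv_mem a), by
        have c : u i = i := b.2
        show g (u (g⁻¹ i)) = i
        rcases pm g⁻¹ with h | h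
        · rw [h, c]; exact (congrArg g h).symm.trans (g.apply_symm_apply i)
        · rw [h, map_neg, c, ← h]; exact g.apply_symm_apply i⟩
  have s2 : ∀ g ∈ GK j, g * g ∈ GK jM := fun g a => e ▸ ⟨mul_mem a a, by
    show g (g i) = i
    rcases pm g with h | h
    · rw [h, h]
    · rw [h, map_neg, h, neg_neg]⟩
  have : IsEmpty (M →+* ℝ) := ⟨fun φ => by
    obtain ⟨y, hy⟩ := H916.fixed jM (x := i) fun g => (e.le g.2).2
    have : y ^ 2 = -1 := jM.injective (by rw [map_pow, hy, hi, map_neg, map_one])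
    have := congrArg φ this
    rw [map_pow, map_neg, map_one] at this
    nlinarith [sq_nonneg (φ y)]⟩
  have le := gk_le D.comp
  have G' : Gc jM θ 3 := ⟨fun a b c d => G.mul a (le b) c (le d), G.pos, fun a b => G.pow a (le b),
    G.opn.imp fun W h => ⟨h.1, fun a b => h.2 a (le b)⟩⟩
  obtain ⟨χ', k'⟩ := (icx M jM θ 3 G').1
  have d3 : (finrank (𝓞 L) (𝓞 M)).Coprime 3 := by
    rw [Nat.coprime_comm, Nat.prime_three.coprime_iff_not_dvd,
      ← Algebra.IsAlgebraic.finrank_of_isFractionRing (𝓞 L) L (𝓞 M) M,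
      ← IsGalois.card_aut_eq_finrank]
    intro d
    have : Fact (Nat.Prime 3) := ⟨Nat.prime_three⟩
    obtain ⟨τ, h⟩ := exists_prime_orderOf_dvd_card' 3 d
    obtain ⟨g, rfl⟩ := D.surj τ
    have := orderOf_dvd_of_pow_eq_one (n := 2) (x := r g) (by
      rw [← map_pow, hk, pow_two, ← e]; exact s2 g g.2)
    rw [h] at this
    omega
  refine ⟨9 ^ finrank ℤ (𝓞 M), by positivity, fun x x0 h => ?_⟩
  have a := k'.law G' (x := algebraMap (𝓞 L) (𝓞 M) x)
    ((map_ne_zero_iff _ (FaithfulSMul.algebraMap_injective _ _)).2 x0) fun w l P o b ⟨t, c, d⟩ => by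
      have m := h l P o ⟨t, le c, d⟩
      have u : below j P = w.asIdeal.under (𝓞 L) := by rw [below_dw D.comp, b]
      have m' := Ideal.le_comap_pow _ _ (u ▸ m)
      rw [Ideal.mem_comap, map_sub, map_one] at m'
      rw [show ((algebraMap (𝓞 L) (𝓞 M) x : 𝓞 M) : M) - 1 =
        algebraMap (𝓞 M) M (algebraMap (𝓞 L) (𝓞 M) x - 1) by rw [map_sub, map_one],
        show ((3 : ℕ) : M) ^ 2 = algebraMap (𝓞 M) M 9 by rw [map_ofNat]; norm_num,
        w.valuation_of_algebraMap, w.valuation_of_algebraMap]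
      split_ifs at m' with s
      · exact ((w.intValuation_le_pow_iff_mem _ _).2 m').trans_lt
          (lt_of_not_ge fun z => nine M w ((w.intValuation_le_pow_iff_mem _ _).1 z))
      · rw [(HeightOneSpectrum.intValuation_eq_one_iff (x := 9)).2 fun z => s ?_,
          HeightOneSpectrum.intValuation_lt_one_iff_mem]
        · rwa [pow_one] at m'
        · rw [Ideal.under_def, Ideal.mem_comap, map_ofNat]
          exact w.isPrime.mem_of_pow_mem 2 (by norm_num; exact z)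
  rw [Bc.bc D.comp (Bc.Mc.of G) k k' fun l P o ⟨t, a, b, c⟩ => ⟨t * t, s2 t a,
    (H443.inP P).mul_mem b b, fun z => c (by
      have := G.pow t a
      rwa [pow_succ, pow_two, ← G.mul t a t a, z, one_mul] at this)⟩, ← Set.image_singleton,
    ← Ideal.map_span, Ideal.relNorm_algebraMap, k.cm.pow] at a
  have b := cube k G (Ideal.span_singleton_eq_bot.not.2 x0) fun l P o m r => by
    have p := P004R.Gl.below_pr j o.2.1
    refine p.one_notMem ?_
    have := (below j P).sub_mem ((Ideal.span_singleton_le_iff_mem _).1 m)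
      (Ideal.pow_le_self (by split_ifs <;> positivity) (h l P o r))
    rwa [sub_sub_cancel] at this
  have := (pow_gcd_eq_one.2 ⟨a, b⟩)
  rwa [d3, pow_one] at this

theorem cop_of {I J : Ideal (𝓞 L)} (h0 : J ≠ ⊥)
    (h : ∀ l P, Ov l P → I ≤ below j P → ¬ J ≤ below j P) : I ⊔ J = ⊤ := by
  by_contra c
  obtain ⟨m, hm, le⟩ := Ideal.exists_le_maximal _ c
  obtain ⟨l, P, o, e⟩ := ex_ab j (mx hm)
  exact h l P o (e ▸ le_sup_left.trans le) (e ▸ le_sup_right.trans le)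

/-- the modulus -/
theorem modulus (k : Ic j θ χ) (G : Gc j θ 3) {S : Finset ℕ}
    (hS : ∀ l P, Ov l P → Rm j θ P → l ∈ S) : ∃ f, RC (fun _ => 1) f χ ∧
      (∀ l P, Ov l P → (f ≤ below j P ↔ Rm j θ P)) ∧
      ∀ Q : Ideal (𝓞 L), Q.IsMaximal → 2 ∈ Q → ¬ f ≤ Q ^ 2 := by
  obtain ⟨N, N0, law⟩ := law3 k G
  have fin : {v : Pr L | ¬ PB.Un G.hom v}.Finite := (Ideal.finite_factors
    (I := Ideal.span {((∏ l ∈ S.filter Nat.Prime, l : ℕ) : 𝓞 L)}) (by
      simp only [Ne, Ideal.zero_eq_bot, Ideal.span_singleton_eq_bot, Nat.cast_eq_zero,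
        Finset.prod_eq_zero_iff, Finset.mem_filter]
      exact fun ⟨l, a, b⟩ => a.2.ne_zero b)).subset fun v h => by
    obtain ⟨l, P, o, e⟩ := ex_ab j v
    refine Ideal.dvd_span_singleton.2 (e ▸ (nat_mem o).2 (Finset.dvd_prod_of_mem _
      (Finset.mem_filter.2 ⟨hS l P o ?_, o.1⟩)))
    exact by_contra fun r => h ((G.un_iff o.2.1 e).2 r)
  let a : Pr L → ℕ := fun v => if (3 : 𝓞 L) ∈ v.asIdeal then N else 1
  have a0 : ∀ v, a v ≠ 0 := fun v => by
    simp only [a]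
    split_ifs <;> positivity
  have pr : ∀ (T : Finset (Pr L)) (w : Pr L), ∏ v ∈ T, v.asIdeal ^ a v ≤ w.asIdeal → w ∈ T :=
    fun T w h => by
      obtain ⟨v, m, d⟩ := (w.prime.dvd_finsetProd_iff _).1 (Ideal.dvd_iff_le.2 h)
      rwa [HeightOneSpectrum.ext (v.isMaximal.eq_of_le w.isPrime.ne_top
        (Ideal.dvd_iff_le.1 (w.prime.dvd_of_dvd_pow d))).symm]
  have mem : ∀ l P (o : Ov l P), bl j o ∈ fin.toFinset ↔ Rm j θ P := fun l P o => by
    rw [Set.Finite.mem_toFinset, Set.mem_setOf_eq, G.un_iff o.2.1 rfl, not_not]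
  have le : ∀ v ∈ fin.toFinset, ∏ v ∈ fin.toFinset, v.asIdeal ^ a v ≤ v.asIdeal ^ a v :=
    fun v m => Ideal.dvd_iff_le.1 (Finset.dvd_prod_of_mem _ m)
  have rm : ∀ l P, Ov l P → (∏ v ∈ fin.toFinset, v.asIdeal ^ a v ≤ below j P ↔ Rm j θ P) :=
    fun l P o => ⟨fun h => (mem l P o).1 (pr _ (bl j o) h),
      fun h => (le _ ((mem l P o).2 h)).trans (Ideal.pow_le_self (a0 _))⟩
  have f0 : ∏ v ∈ fin.toFinset, v.asIdeal ^ a v ≠ ⊥ :=
    Finset.prod_ne_zero_iff.2 fun v _ => pow_ne_zero _ v.ne_bot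
  refine ⟨_, ⟨f0, k.cm.one, k.cm.mul, fun I => ⟨fun z => or_iff_not_imp_left.2 fun b c => ?_,
    fun h => h.elim (fun b => b ▸ k.bot) fun h => ?_⟩,
    fun x x0 h => law x x0 fun l P o r => le _ ((mem l P o).2 r) h⟩, rm, fun Q q m h => ?_⟩
  · have := cube k G b fun l P o m r =>
      (P004R.Gl.below_pr j o.2.1).ne_top (top_unique (c ▸ sup_le m ((rm l P o).2 r)))
    simp [z] at this
  · by_contra z
    refine h (cop_of (j := j) f0 fun l P o m r => z ?_)
    obtain ⟨I', rfl⟩ := Ideal.dvd_iff_le.2 m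
    rw [k.cm.mul, k.ram l P o ((rm l P o).1 r), zero_mul]
  · have w := pr _ (mx q) (h.trans (Ideal.pow_le_self two_ne_zero))
    have e : a (mx q) = 1 := if_neg fun z => q.isPrime.one_notMem (by
      have := Q.sub_mem z m
      norm_num at this
      exact this)
    rw [← Finset.mul_prod_erase _ _ w, e, pow_one, pow_two, ← Ideal.dvd_iff_le] at h
    exact Finset.notMem_erase _ _ (pr _ (mx q)
      (Ideal.dvd_iff_le.1 ((mul_dvd_mul_iff_left (mx q).ne_bot).1 h)))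

/-- **the primitive character** -/
theorem prim (hX : HEX) (hR : RAM) (h2 : finrank ℚ L ≤ 2) (G : Gc j θ 3) {S : Finset ℕ}
    (hS : ∀ l P, Ov l P → Rm j θ P → l ∈ S)
    (sym : ∀ P P', Ov 2 P → Ov 2 P' → Rm j θ P → Rm j θ P') :
    ∃ f ψ, RC (fun _ => 1) f ψ ∧ Pm (fun _ => 1) f ψ ∧ (∀ I, ψ I = 0 ∨ ψ I ^ 3 = 1) ∧
      (∀ l P, Ov l P → f ≤ below j P → Rm j θ P) ∧
      (∀ l P, Ov l P → ¬ Rm j θ P → ∀ g ∈ GK j,
        (∀ x : 𝓞 Qb, g • x - x ^ Ideal.absNorm (below j P) ∈ P) → ψ (below j P) = θ g) ∧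
      (∀ Q : Ideal (𝓞 L), Q.IsMaximal → 2 ∈ Q → f ≤ Q → ¬ f ≤ Q ^ 2 ∧ Ideal.absNorm Q ≠ 2) ∧
      ∀ P, Ov 2 P → Rm j θ P → f ⊔ Ideal.span {2} ≠ ⊤ := by
  obtain ⟨χ, k⟩ := (icx L j θ 3 G).1
  obtain ⟨f₀, r₀, rm, s2⟩ := modulus k G hS
  obtain ⟨x1, x2⟩ := hX L
  obtain ⟨f, ψ, le, r, p, eq⟩ :=
    (x2 (fun _ => 1) (fun _ _ => (mul_one _).symm) (fun _ _ => one_ne_zero) f₀ χ r₀).2.1
  refine ⟨f, ψ, r, p, fun I => or_iff_not_imp_left.2 fun z => ?_,
    fun l P o h => (rm l P o).1 (le.trans h), fun l P o u g a b => ?_,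
    fun Q q m h => ⟨fun z => s2 Q q m (le.trans z), fun n => ?_⟩, fun P o u c => ?_⟩
  · rw [r.zero, not_or, not_not] at z
    obtain ⟨I', x, y, a, b, x0, y0, c, d, e⟩ := x1 f I f₀ r.ne z.1 z.2 r₀.ne
    have := congrArg ψ e
    rw [r.mul, r.mul, r.prn x x0 c, r.prn y y0 d, one_mul, one_mul, eq I' b] at this
    rw [this]
    exact cube k G a fun l P o m u =>
      (P004R.Gl.below_pr j o.2.1).ne_top (top_unique (b ▸ sup_le m ((rm l P o).2 u)))
  · rw [eq (below j P) ((bl j o).isMaximal.out.2 _ (left_lt_sup.2 fun z => u ((rm l P o).1 z))),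
      k.unr l P o u g a b]
  · obtain ⟨f', rfl⟩ := Ideal.dvd_iff_le.2 h
    obtain ⟨x, a, b, c, d⟩ := p Q f' q rfl
    have e := P004R.Gl.pow_norm Q q.isPrime (mx q).ne_bot x
    rw [n, show x ^ 2 - x = x * (x - 1) by ring] at e
    refine d (r.prn x c ?_)
    rw [Ideal.mul_eq_inf_of_coprime (q.out.2 _ (left_lt_sup.2 fun z => s2 Q q m
      (le.trans (by rw [pow_two]; exact Ideal.mul_mono_right z))))]
    exact ⟨(q.isPrime.mem_or_mem e).resolve_left b, a⟩
  · obtain ⟨x, a, b, d⟩ := hR L j θ χ h2 G (fun P' o' => sym P P' o o' u) k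
      (Ideal.absNorm f * ∏ l ∈ S.filter fun l => l.Prime ∧ l ≠ 2, l) (Odd.mul
        (Nat.not_even_iff_odd.1 fun z => by
          obtain ⟨Q, q, m, h⟩ := Wa.Co.ex_max Nat.prime_two z.two_dvd
          exact q.ne_top (top_unique (c ▸ sup_le (Ideal.dvd_iff_le.1 h)
            ((Ideal.span_singleton_le_iff_mem _).2 (by simpa using m)))))
        (Finset.prod_induction _ Odd (fun _ _ => Odd.mul) odd_one fun l m =>
          (Finset.mem_filter.1 m).2.1.odd_of_ne_two (Finset.mem_filter.1 m).2.2))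
    have x0 : x ≠ 0 := by
      rintro rfl
      rw [Ideal.span_singleton_zero, bot_sup_eq] at b
      exact (P004R.Gl.below_pr j o.2.1).ne_top (top_unique (b ▸
        (Ideal.span_singleton_le_iff_mem _).2 (by simpa using (nat_mem (j := j) o).2 dvd_rfl)))
    refine d ((eq _ (cop_of (j := j) r₀.ne fun l Q o' m h => ?_)).symm.trans (r.prn x x0
      (f.mem_of_dvd ((Nat.cast_dvd_cast (dvd_mul_right _ _)).trans a) (Ideal.absNorm_mem f))))
    have q := P004R.Gl.below_pr j o'.2.1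
    by_cases e : l = 2
    · subst e
      exact q.ne_top (top_unique (b ▸ sup_le m
        ((Ideal.span_singleton_le_iff_mem _).2 (by simpa using (nat_mem (j := j) o').2 dvd_rfl))))
    · have := (below j Q).sub_mem ((Ideal.span_singleton_le_iff_mem _).1 m)
        ((below j Q).mem_of_dvd a ((nat_mem o').2 (Dvd.dvd.mul_left (Finset.dvd_prod_of_mem _
          (Finset.mem_filter.2 ⟨hS l Q o' ((rm l Q o').1 h), o'.1, e⟩)) _)))
      rw [sub_sub_cancel] at this
      exact q.one_notMem this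

end Vale.Agent.P004C.Tp.Pq
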