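import Vale.Agent.P004C.Al.St2
import Vale.Agent.P004C.Ln.St2

/-!
# P004 C, block TOP: the anchor for an irreducible residual representation (words, rows, glue)
-/

open NumberField Module Filter
open scoped Classical ComplexConjugate

noncomputable section

namespace Vale.Agent.P004C.Tp

open Vale.Agent.P022 (Qb GQ GK below IsFrob)
open Vale.Agent.P027M.S (Inert)
open Vale.Agent.P027M.M (ze)
open Vale.Agent.P022D.W (dec)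
open Vale.Agent.P022E.GW (Ov Fb)
open Vale.Agent.P022K.G2 (In)
open P004F (Crv Fld M2 ANCHOR)
open P004T (Irr PosD)
open Wa (Sp co)
open Al (Gc Rm Ic Lw Zc Ab Ts Cb)
open Ln (Jc Pl V2 Cr Cp Dh Xi Lay tS)

/-! ### words -/

/-- the residual representation -/
def rho (e : Crv) (g : GQ) : M2 (ZMod 2) := (e.r g).map PadicInt.toZMod

/-- a representation modulo two, unramified outside `S` -/
structure Rh (ρ : GQ → M2 (ZMod 2)) (S : Finset ℕ) : Prop where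
  one : ρ 1 = 1
  mul : ∀ g h, ρ (g * h) = ρ g * ρ h
  opn : ∃ W : Subgroup GQ, IsOpen (W : Set GQ) ∧ ∀ g ∈ W, ρ g = 1
  unr : ∀ g ∈ In (S : Set ℕ), ρ g = 1

/-- the cubic character -/
structure E3 (ρ : GQ → M2 (ZMod 2)) (e₃ : GQ → ZMod 3) : Prop where
  add : ∀ g h, ρ g ^ 3 = 1 → ρ h ^ 3 = 1 → e₃ (g * h) = e₃ g + e₃ h
  ker : ∀ g, ρ g ^ 3 = 1 → (e₃ g = 0 ↔ ρ g = 1)
  ex : ∃ g, ρ g ≠ 1 ∧ ρ g ^ 3 = 1

/-- its complex values -/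
def t3 (e₃ : GQ → ZMod 3) (g : GQ) : ℂ := ze 3 (e₃ g).val

/-- image `S₃`: the quadratic field and the primitive character -/
structure Dd (ρ : GQ → M2 (ZMod 2)) (e₃ : GQ → ZMod 3) {L : Type} [Field L] [NumberField L]
    (jL : L →+* Qb) (f : Ideal (𝓞 L)) (ψ : Ideal (𝓞 L) → ℂ) : Prop where
  gL : ∀ g, g ∈ GK jL ↔ ρ g ^ 3 = 1
  dh : Dh f ψ
  ram : ∀ P, Ov 2 P → Rm jL (t3 e₃) P → ψ (below jL P) = 0
  unr : ∀ l P, Ov l P → ¬ Rm jL (t3 e₃) P → ∀ g ∈ GK jL,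
    (∀ x : 𝓞 Qb, g • x - x ^ Ideal.absNorm (below jL P) ∈ P) → ψ (below jL P) = t3 e₃ g
  out : ∀ S, Rh ρ S → (∀ p : ℕ, p.Prime → p ∣ (discr L).natAbs * Ideal.absNorm f → p ∈ S) ∧
    ∀ p : ℕ, p.Prime → p ∉ S → ∀ g, IsFrob p g → ∀ t : ℤ, (t : ZMod 2) = (ρ g).trace →
      ∃ k : ℤ, co ψ p = t + 2 * k

/-- image `C₃`: the Dirichlet character -/
structure Dc (ρ : GQ → M2 (ZMod 2)) (e₃ : GQ → ZMod 3) (S : Finset ℕ) (f : ℕ) (ψ : ℤ → ℂ) :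
    Prop where
  one : 1 < f
  odd : Odd f
  cr : Cr f ψ
  cp : Cp f ψ
  cub : ∀ d, ψ d = 0 ∨ ψ d ^ 3 = 1
  inS : ∀ p : ℕ, p.Prime → p ∣ f → p ∈ S
  two : ∀ P, Ov 2 P → ∀ t, Inert P t → ρ t = 1
  unr : ∀ l P g, Ov l P → (∀ t, Inert P t → ρ t = 1) → Fb l P g → ψ l = t3 e₃ g
  tr : ∀ p : ℕ, p.Prime → p ∉ S → ∀ g, IsFrob p g → ∀ t : ℤ, (t : ZMod 2) = (ρ g).trace →
    ∃ k : ℤ, ψ p + conj (ψ p) = t + 2 * k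

/-- one layer -/
structure Lz {e : Crv} (b : Fld e) (k c : ℕ) (χ : GQ → ZMod (2 * 2 ^ k)) : Prop where
  ad : b.Ad (k + 1) c fun g => (χ g).val
  sq : Squarefree c
  one : 1 < c
  out : ∀ q : ℕ, q.Prime → q ∣ c → q ∉ e.S ∧ ¬ q ∣ b.δ'
  spl : ∃ w w' : Ideal (𝓞 b.K), Sp c w w'
  ram : ∀ q P, Ov q P → q ∣ c → ∃ t ∈ b.Γ, Inert P t ∧ χ t = 1
  fro : ∀ p ∈ e.S, ∀ P, Ov p P → dec P ≤ b.Γ ∧ ∀ g, Fb p P g → IsUnit (χ g)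

/-- the conclusion for one curve -/
def On (e : Crv) : Prop := ∃ T : ℕ, ∀ b : Fld e, T ≤ b.δ' → ∀ B : ℕ, ∃ k₀, ∀ k, k₀ ≤ k →
  ∀ c χ, Lz b k c χ → Finite (b.Z0 (2 * 2 ^ k) c fun g => (χ g).val) →
  Nat.card (b.Z0 (2 * 2 ^ k) c fun g => (χ g).val) ≤ 2 ^ B →
  ∃ l, 2 ^ (2 * l) ≤ Nat.card (b.Z0 (2 * 2 ^ k) c fun g => (χ g).val) ∧
    b.An e.S c (fun g => (χ g).val) l

/-! ### rows -/

/-- the residual representation of the curve -/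
def RHO : Prop := ∀ e : Crv, Rh (rho e) e.S.toFinset ∧
  (∀ p : ℕ, p.Prime → p ∉ e.S → (∃ g, IsFrob p g) ∧
    ∀ g, IsFrob p g → (e.a p : ZMod 2) = (rho e g).trace) ∧
  (Irr e.a → ∃ e₃, E3 (rho e) e₃) ∧ ∀ b : Fld e,
    ((∃ g, rho e g ^ 3 ≠ 1) → ∃ g ∈ b.Γ, rho e g ^ 3 ≠ 1) ∧ ∀ J c χ,
      b.Z0 J c χ = Zc b.j (e.S.toFinset ∪ c.primeFactors) (rho e) J χ (e.P 2)

/-- **ramification at two is visible on the units** -/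
def RAM : Prop := ∀ (L : Type) [Field L] [NumberField L] (j : L →+* Qb) θ ψ, finrank ℚ L ≤ 2 →
  Gc j θ 3 → (∀ P, Ov 2 P → Rm j θ P) → Ic j θ ψ → ∀ N : ℕ, Odd N → ∃ x : 𝓞 L,
    (N : 𝓞 L) ∣ x - 1 ∧ Ideal.span {x} ⊔ Ideal.span {2} = ⊤ ∧ ψ (Ideal.span {x}) ≠ 1

/-- the dihedral case -/
def DIH : Prop := ∀ ρ S e₃, Rh ρ S → E3 ρ e₃ → (∃ g, ρ g ^ 3 ≠ 1) →
  ∃ (L : Type) (_ : Field L) (_ : NumberField L) (jL : L →+* Qb) (f : Ideal (𝓞 L))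
    (ψ : Ideal (𝓞 L) → ℂ), Dd ρ e₃ jL f ψ

/-- the cyclic case -/
def DIC : Prop := ∀ ρ S e₃, Rh ρ S → E3 ρ e₃ → (∀ g, ρ g ^ 3 = 1) → ∃ f ψ, Dc ρ e₃ S f ψ

/-- the fields -/
def FLM : Prop := ∀ (K : Type) [Field K] [NumberField K] (j : K →+* Qb), finrank ℚ K = 2 →
  ∀ ρ S e₃, Rh ρ S → E3 ρ e₃ →
  ((∀ g, ρ g ^ 3 = 1) → ∃ (M₃ : Type) (_ : Field M₃) (_ : NumberField M₃) (_ : Algebra K M₃)
    (j₃ : M₃ →+* Qb), Cb j ρ j j₃ e₃ ∧ finrank K M₃ = 3) ∧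
  ∀ (L : Type) [Field L] [NumberField L] (jL : L →+* Qb) f ψ, Dd ρ e₃ jL f ψ →
    (∃ g ∈ GK j, ρ g ^ 3 ≠ 1) → ∃ (M M₃ : Type) (_ : Field M) (_ : NumberField M) (_ : Field M₃)
      (_ : NumberField M₃) (_ : Algebra K M) (_ : Algebra K M₃) (_ : Algebra M M₃)
      (_ : IsScalarTower K M M₃) (_ : Algebra L M) (jM : M →+* Qb) (j₃ : M₃ →+* Qb),
      Cb j ρ jM j₃ e₃ ∧ (∀ x, jM (algebraMap L M x) = jL x) ∧ finrank K M = 2 ∧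
      finrank K M₃ = 6 ∧
      (∀ x : L, ∀ y : K, algebraMap L M x = algebraMap K M y → ∃ q : ℚ, x = q) ∧
      ∀ t, 0 < t → ∃ (s : Ideal (𝓞 M)) (l : ℕ), Sm s l ∧ l.Coprime t ∧
        ψ (Ideal.relNorm (𝓞 L) s) ≠ 1

/-- base change of characters -/
def BCH : Prop := ∀ (e : Crv) (b : Fld e) e₃, E3 (rho e) e₃ →
  (∀ (M M₃ : Type) [Field M] [NumberField M] [Field M₃] [Algebra b.K M] [Algebra M M₃]
    (jM : M →+* Qb) (j₃ : M₃ →+* Qb), Cb b.j (rho e) jM j₃ e₃ → Gc jM (t3 e₃) 3 ∧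
    (∀ ψM, Ic jM (t3 e₃) ψM → ∀ I, ψM I ^ 2 = conj (ψM I)) ∧
    (∀ k c χ, Lz b k c χ → Gc jM (fun g => ze (2 * 2 ^ k) (χ g).val) (2 * 2 ^ k) ∧
      ∀ χM ξ (i : ℕ), Ic jM (fun g => ze (2 * 2 ^ k) (χ g).val) χM →
        Xi b.j c (fun g => (χ g).val) (ze (2 * 2 ^ k) (2 * i + 1 : ℕ)) ξ →
        ∀ I, χM I ^ (2 * i + 1) = ξ (Ideal.relNorm (𝓞 b.K) I)) ∧
    ∀ (L : Type) [Field L] [NumberField L] [Algebra L M] (jL : L →+* Qb) f ψ ψM,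
      Dd (rho e) e₃ jL f ψ → (∀ x, jM (algebraMap L M x) = jL x) → Ic jM (t3 e₃) ψM →
      ∀ I, I ⊔ (tS b).map (algebraMap (𝓞 b.K) (𝓞 M)) = ⊤ → ψM I = ψ (Ideal.relNorm (𝓞 L) I)) ∧
  ∀ f ψ ψK, Dc (rho e) e₃ e.S.toFinset f ψ → Ic b.j (t3 e₃) ψK →
    ∀ I, I ⊔ tS b = ⊤ → ψK I = ψ (Ideal.absNorm I)

/-- the discriminant in the cubic step -/
def DS3 : Prop := ∀ (K : Type) [Field K] [NumberField K] (ι : ℂ →+* ℂ_[2]) (J : K →+* ℂ) (Ω : ℝ),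
  Base ι J Ω → (∀ (M : Type) [Field M] [NumberField M] [Algebra K M] (n : ℕ)
    (b : Basis (Fin n) K M), Vb ι J b → 0 < dv ι J b ∧ dv ι J b ≤ 1) ∧
  ∀ (M M₃ L : Type) [Field M] [NumberField M] [Field M₃] [NumberField M₃] [Field L] [NumberField L]
    [Algebra K M] [Algebra K M₃] [Algebra M M₃] [IsScalarTower K M M₃] [Algebra L M]
    (j : K →+* Qb) (jM : M →+* Qb) (j₃ : M₃ →+* Qb) (jL : L →+* Qb) ρ S e₃ f ψ,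
    (∃ P, Ab ι J j P) → Rh ρ S → E3 ρ e₃ → Cb j ρ jM j₃ e₃ → Dd ρ e₃ jL f ψ →
    (∀ x, jM (algebraMap L M x) = jL x) → finrank K M = 2 → finrank K M₃ = 6 →
    (∀ x : L, ∀ y : K, algebraMap L M x = algebraMap K M y → ∃ q : ℚ, x = q) →
    ∀ (b : Basis (Fin 2) K M) (b₃ : Basis (Fin 6) K M₃), Vb ι J b → Vb ι J b₃ → dv ι J b₃ ≤
      dv ι J b * ‖(((discr L).natAbs * Ideal.absNorm f : ℕ) : ℂ_[2])‖ ^ 2

/-- the layer in the words of the two blocks -/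
def LAY : Prop := ∀ (e : Crv) (b : Fld e) ι V, Pl ι V (e.P 2) → Ab ι (Jc b.j) b.j (e.P 2) ∧
  (∃ h, 0 < h ∧ ∀ κ, ∃ lam, La (Jc b.j) h κ lam) ∧ ∃ s : 𝓞 b.K,
  (∀ (M : Type) [Field M] [NumberField M] [Algebra b.K M] (I : Ideal (𝓞 M)),
    I ⊔ Ideal.span {algebraMap (𝓞 b.K) (𝓞 M) s} = ⊤ ↔
      I ⊔ (tS b).map (algebraMap (𝓞 b.K) (𝓞 M)) = ⊤) ∧
  ∀ k c χ, 1 ≤ k → Lz b k c χ → Lw b.j c k χ ∧
    Ts ι (Jc b.j) b.j (rho e) c k χ e.S.toFinset s ∧ ∀ (i : ℕ) ζ, ζ = ze (2 * 2 ^ k) (2 * i + 1 : ℕ) →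
      V (ζ - 1) ^ 2 ^ k = 1 / 2 ∧ ∀ ξ, Xi b.j c (fun g => (χ g).val) ζ ξ →
        Lay b (k + 1) c (fun g => (χ g).val) ζ ξ ∧ ∀ h κ lam, 0 < h → 0 < κ →
        La (Jc b.j) h κ lam → 2 ≤ k → ∀ (M : Type) [Field M] [NumberField M] [Algebra b.K M],
        finrank b.K M ≤ 2 → ∀ w : Ideal (𝓞 M), w.IsMaximal → ((e.S.prod / 2 : ℕ) : 𝓞 M) ∈ w →
        ∀ y : ℂ, y = 0 ∨ y ^ 3 = 1 → V (ζ - 1) ^ 2 ≤
          V (1 - y * (ξ (Ideal.relNorm (𝓞 b.K) w) * lam (Ideal.relNorm (𝓞 b.K) w)))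

/-- **image `S₃`** -/
def ON3 : Prop := ∀ ρ S e₃, Rh ρ S → E3 ρ e₃ → (∃ g, ρ g ^ 3 ≠ 1) →
  ∃ S₀ : Finset ℕ, (∀ l ∈ S₀, l.Prime) ∧ ∀ e : Crv, rho e = ρ → (∀ l ∈ S₀, l ∈ e.S) → On e

/-- **image `C₃`** -/
def ONC : Prop := ∀ (e : Crv) e₃, E3 (rho e) e₃ → (∀ g, rho e g ^ 3 = 1) → On e

/-- **the tower in the words of the frame** -/
def ADP : Prop := ∀ e : Crv, Irr e.a → ∀ T : ℕ, ∃ E : Set ℕ, PosD E ∧ ∀ δ' ∈ E, T ≤ δ' ∧ e.Adm δ' ∧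
  ∀ b : Fld e, b.δ' = δ' → ∃ m B J : ℕ, ∀ n, ∃ (c : ℕ) (χ : GQ → ZMod (2 * 2 ^ (n + 1))),
    Lz b (n + 1) c χ ∧ (m ≤ n → b.Tw m n c fun g => (χ g).val) ∧
    (∀ J' ≤ 2 * 2 ^ (n + 1), Finite (b.Z0 J' c fun g => (χ g).val) ∧
      Nat.card (b.Z0 J' c fun g => (χ g).val) ≤ 2 ^ B) ∧
    (J ≤ n → Nat.card (b.Z0 (2 * 2 ^ (n + 1)) c fun g => (χ g).val) ≤
      Nat.card (b.Z0 J c fun g => (χ g).val))

/-! ### glue -/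

theorem rho_eq {e e' : Crv} (h : e.A = e'.A) (h' : e.B = e'.B) : rho e = rho e' := by
  cases e
  cases e'
  dsimp only at h h'
  subst h h'
  rfl

theorem anc (hA : ADP) {e : Crv} (hI : Irr e.a) (h : On e) :
    ∃ E : Set ℕ, PosD E ∧ ∀ δ' ∈ E, e.Adm δ' ∧ ∀ b : Fld e, b.δ' = δ' → b.Anc := by
  obtain ⟨T, hT⟩ := h
  obtain ⟨E, hE, k⟩ := hA e hI T
  refine ⟨E, hE, fun δ' m => ⟨(k δ' m).2.1, fun b hb => ?_⟩⟩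
  obtain ⟨m', B, J, k'⟩ := (k δ' m).2.2 b hb
  choose c χ h1 h2 h3 h4 using k'
  obtain ⟨k₀, hk⟩ := hT b (hb ▸ (k δ' m).1) B
  refine ⟨m', B, c, fun n g => (χ n g).val, (eventually_ge_atTop m').mono h2, fun J' =>
    (eventually_ge_atTop J').mono fun n hn => (h3 n J' ?_).2, J,
    ((eventually_ge_atTop J).and (eventually_ge_atTop k₀)).mono fun n hn => ?_⟩
  · have := Nat.lt_two_pow_self (n := n + 1)
    omega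
  · obtain ⟨l, a, a'⟩ := hk (n + 1) (by omega) _ _ (h1 n) (h3 n _ le_rfl).1 (h3 n _ le_rfl).2
    exact ⟨l, a.trans (h4 n hn.1), a'⟩

/-- **the anchor** -/
theorem top (hR : RHO) (h3 : ON3) (hC : ONC) (hA : ADP) : ANCHOR Irr := fun A B => by
  by_cases h : ∃ e : Crv, e.A = A ∧ e.B = B ∧ Irr e.a ∧ ∃ g, rho e g ^ 3 ≠ 1
  · obtain ⟨e₀, a, b, i, g⟩ := h
    obtain ⟨e₃, k⟩ := (hR e₀).2.2.1 i
    obtain ⟨S₀, p, q⟩ := h3 _ _ e₃ (hR e₀).1 k g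
    exact ⟨S₀, p, fun e a' b' s i' =>
      anc hA i' (q e (rho_eq (a'.trans a.symm) (b'.trans b.symm)) s)⟩
  · refine ⟨∅, by simp, fun e a b _ i => ?_⟩
    obtain ⟨e₃, k⟩ := (hR e).2.2.1 i
    exact anc hA i (hC e e₃ k fun g => by_contra fun n => h ⟨e, a, b, i, g, n⟩)

end Vale.Agent.P004C.Tp
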